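import Vale.Agent.P011.H976.Ext
import Mathlib.Order.Filter.Finite

/-!
**Strong approximation for normal subgroups of finite index of `G`, from the statement about normal
subgroups of the ambient group.** `G` is normal in `U`, some finite subset of `G` generates a
neighbourhood of one for the topology of `F` (all levels away from one place), and every normal
subgroup of `U` below `G` which is a neighbourhood for `F` is a neighbourhood for the coarser
filter `F₁` (congruence conditions at finitely many places). Then the same holds for the normal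
subgroups of finite index of `G`.
-/

open Filter Pointwise

namespace Vale.Agent.P011.H976

universe u

variable {U : Type u} [Group U] (G : Subgroup U) [G.Normal] {F F₁ : Filter U}

/-- The intersection of the conjugates of a normal subgroup of finite index which is a
neighbourhood of one is a neighbourhood of one. -/
theorem mem_core (hF : Lev F)
    (hX : ∃ X : Set G, X.Finite ∧ (Subgroup.closure X : Set G) ∈ Fc G F)
    (N : Subgroup G) [N.Normal] [N.FiniteIndex] (hN : (N : Set G) ∈ Fc G F) :
    ∃ M : Subgroup G, M ≤ N ∧ (∀ (u : U), ∀ x ∈ M, MulAut.conjNormal u x ∈ M) ∧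
      (M : Set G) ∈ Fc G F := by
  classical
  obtain ⟨X, hXf, hX⟩ := hX
  have : Finite X := hXf
  let a : U → MulAut G := fun u => MulAut.conjNormal u
  have ha : ∀ u, Pres (Fc G F) (a u) := fun u => pres_Fc hF u
  set D := Subgroup.closure X with hD
  let φ : U → (G →* G ⧸ N) := fun u => (QuotientGroup.mk' N).comp ((a u : MulAut G) : G →* G)
  have hφ : ∀ u x, φ u x = 1 ↔ a u x ∈ N := fun u x => by
    change QuotientGroup.mk' N (a u x) = 1 ↔ _
    rw [QuotientGroup.mk'_apply, QuotientGroup.eq_one_iff]
  let r : U → (X → G ⧸ N) := fun u x => φ u x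
  have hr : ∀ u v, r u = r v → ∀ x ∈ D, φ u x = φ v x := fun u v h x hx =>
    MonoidHom.eqOn_closure (f := φ u) (g := φ v) (s := X) (fun x hx => congrFun h ⟨x, hx⟩) hx
  have hfin : (Set.range r).Finite := Set.toFinite _
  refine ⟨⨅ u, N.comap ((a u : MulAut G) : G →* G), ?_, ?_, ?_⟩
  · intro x hx
    have h1 := Subgroup.mem_iInf.mp hx 1
    have h2 : a 1 x = x := by
      change (MulAut.conjNormal (1 : U)) x = x
      rw [map_one, MulAut.one_apply]
    change a 1 x ∈ N at h1
    rwa [h2] at h1
  · intro u x hx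
    rw [Subgroup.mem_iInf] at hx ⊢
    intro v
    have h1 := hx (v * u)
    change a (v * u) x ∈ N at h1
    change a v (a u x) ∈ N
    have h2 : a (v * u) = a v * a u := map_mul MulAut.conjNormal v u
    rwa [h2, MulAut.mul_apply] at h1
  · -- choose representatives of the finitely many restrictions
    choose f hf using fun y : Set.range r => y.2
    have h1 : (⋂ y : Set.range r, {x | a (f y) x ∈ N}) ∈ Fc G F := by
      have : Finite (Set.range r) := hfin
      exact Filter.iInter_mem.2 fun y => ha (f y) _ hN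
    refine Filter.mem_of_superset (Filter.inter_mem h1 hX) ?_
    rintro x ⟨hx, hxD⟩
    rw [SetLike.mem_coe, Subgroup.mem_iInf]
    intro u
    change a u x ∈ N
    have h2 := Set.mem_iInter.mp hx ⟨r u, u, rfl⟩
    have h3 : r (f ⟨r u, u, rfl⟩) = r u := hf ⟨r u, u, rfl⟩
    rw [← hφ, ← hr _ _ h3 x hxD, hφ]
    exact h2

/-- **Strong approximation for normal subgroups of finite index.** -/
theorem mem_of_SA (hF : Lev F) (hG : (G : Set U) ∈ F)
    (hSA : ∀ M : Subgroup U, M.Normal → M ≤ G → (M : Set U) ∈ F → (M : Set U) ∈ F₁)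
    (hX : ∃ X : Set G, X.Finite ∧ (Subgroup.closure X : Set G) ∈ Fc G F)
    (N : Subgroup G) [N.Normal] [N.FiniteIndex] (hN : (N : Set G) ∈ Fc G F) :
    ∃ M : Subgroup U, M.Normal ∧ M ≤ G ∧ (M : Set U) ∈ F ∧ (M : Set U) ∈ F₁ ∧
      ∀ x : G, (x : U) ∈ M → x ∈ N := by
  obtain ⟨M, hMN, hM, hMF⟩ := mem_core G hF hX N hN
  have h1 : (M.map G.subtype).Normal := by
    refine ⟨?_⟩
    rintro _ ⟨x, hx, rfl⟩ u
    exact ⟨MulAut.conjNormal u x, hM u x hx, MulAut.conjNormal_apply u x⟩
  have h2 : M.map G.subtype ≤ G := by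
    rintro _ ⟨x, -, rfl⟩
    exact x.2
  have h3 := (map_mem hG).mp hMF
  refine ⟨M.map G.subtype, h1, h2, h3, hSA _ h1 h2 h3, ?_⟩
  rintro x ⟨y, hy, hxy⟩
  exact hMN (by rwa [← Subtype.ext hxy])

end Vale.Agent.P011.H976
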