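import Vale.Agent.P011.H976.Ext
import Mathlib.GroupTheory.Solvable

/-!
**The reduction, form for nonsolvable quotients.** A normal subgroup `N` of finite index of `G` with
nonsolvable quotient `G / N` gives either a homomorphism `c` of the whole group `U` to a finite group
with a nonabelian minimal normal subgroup `R` with trivial centralizer such that the image of every
neighbourhood of one contains `R`, or a normal subgroup of finite index of `G` which contains a
neighbourhood of one, with nonsolvable quotient.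
-/

open Filter Pointwise commutatorElement

namespace Vale.Agent.P011.H976

universe u

section ds

variable {Γ : Type*} [Group Γ]

/-- The derived series of a subgroup. -/
def ds (K : Subgroup Γ) : ℕ → Subgroup Γ
  | 0 => K
  | n + 1 => ⁅ds K n, ds K n⁆

theorem ds_zero (K : Subgroup Γ) : ds K 0 = K := rfl

theorem ds_succ (K : Subgroup Γ) (n : ℕ) : ds K (n + 1) = ⁅ds K n, ds K n⁆ := rfl

theorem ds_top (n : ℕ) : ds (⊤ : Subgroup Γ) n = derivedSeries Γ n := by
  induction n with
  | zero => rfl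
  | succ n ih => rw [ds_succ, derivedSeries_succ, ih]

theorem ds_mono {K K' : Subgroup Γ} (h : K ≤ K') (n : ℕ) : ds K n ≤ ds K' n := by
  induction n with
  | zero => exact h
  | succ n ih => exact Subgroup.commutator_mono ih ih

theorem ds_normal {K : Subgroup Γ} [K.Normal] (n : ℕ) : (ds K n).Normal := by
  induction n with
  | zero => assumption
  | succ n ih => rw [ds_succ]; infer_instance

theorem isSolvable_quotient_iff {N : Subgroup Γ} [N.Normal] :
    Group.IsSolvable (Γ ⧸ N) ↔ ∃ n, derivedSeries Γ n ≤ N := by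
  have key : ∀ n, derivedSeries (Γ ⧸ N) n = ⊥ ↔ derivedSeries Γ n ≤ N := by
    intro n
    rw [← map_derivedSeries_eq (QuotientGroup.mk'_surjective N) n, Subgroup.map_eq_bot_iff,
      QuotientGroup.ker_mk']
  constructor
  · rintro ⟨n, hn⟩
    exact ⟨n, (key n).mp hn⟩
  · rintro ⟨n, hn⟩
    exact ⟨n, (key n).mpr hn⟩

/-- If `H ≤ ⁅H, H⁆ M` and `H ≤ K C` with `M ≤ C`, then `H ≤ (K^(n)) C`. -/
theorem le_ds_sup {H M K C : Subgroup Γ} [C.Normal] (hH : H ≤ ⁅H, H⁆ ⊔ M) (hMC : M ≤ C)
    (h : H ≤ K ⊔ C) (n : ℕ) : H ≤ ds K n ⊔ C := by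
  induction n with
  | zero => exact h
  | succ n ih =>
    calc H ≤ ⁅H, H⁆ ⊔ M := hH
      _ ≤ (⁅ds K n, ds K n⁆ ⊔ C) ⊔ C := sup_le_sup (commutator_le_of_le_sup ih) hMC
      _ = ds K (n + 1) ⊔ C := by rw [sup_assoc, sup_idem, ds_succ]

end ds

section chief

variable {Γ : Type*} [Group Γ] {F : Filter Γ}

/-- `H / M` is a nonabelian chief factor, of finite order. -/
structure Chief0 (M H : Subgroup Γ) : Prop where
  nM : M.Normal
  nH : H.Normal
  fin : M.FiniteIndex
  le : M ≤ H
  max : ∀ K : Subgroup Γ, K.Normal → M ≤ K → K ≤ H → K = M ∨ K = H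
  nonab : ¬ ⁅H, H⁆ ≤ M

theorem Chief0.cent_inf {M H : Subgroup Γ} [M.Normal] (h : Chief0 M H) :
    Cent M H ⊓ H = M := by
  have := h.nH
  rcases h.max (Cent M H ⊓ H) inferInstance (le_inf le_Cent h.le) inf_le_right with h1 | h1
  · exact h1
  · refine absurd ?_ h.nonab
    rw [Subgroup.commutator_le]
    intro x hx y hy
    rw [← h1] at hx
    exact mem_Cent.mp hx.1 y hy

theorem Chief0.ne {M H : Subgroup Γ} (h : Chief0 M H) : M ≠ H := by
  rintro rfl
  have := h.nM
  exact h.nonab (Subgroup.commutator_le_left _ _)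

theorem Chief0.perfect {M H : Subgroup Γ} (h : Chief0 M H) : H ≤ ⁅H, H⁆ ⊔ M := by
  have := h.nM
  have := h.nH
  rcases h.max (⁅H, H⁆ ⊔ M) inferInstance le_sup_right
    (sup_le (Subgroup.commutator_le_left _ _) h.le) with h1 | h1
  · exact absurd (h1 ▸ le_sup_left) h.nonab
  · exact h1.ge

/-- A nonsolvable finite quotient has a nonabelian chief factor. -/
theorem exists_chief0 {N : Subgroup Γ} [N.Normal] [N.FiniteIndex]
    (hN : ∀ n, ¬ derivedSeries Γ n ≤ N) : ∃ M H : Subgroup Γ, N ≤ M ∧ Chief0 M H := by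
  obtain ⟨H, ⟨hHn, hNH, n, hn⟩, hmin⟩ := exists_min_subgroup N
    (fun H : Subgroup Γ => H.Normal ∧ N ≤ H ∧ ∃ n, derivedSeries Γ n ≤ H)
    ⟨⊤, inferInstance, le_top, 0, le_top⟩
  have hne : N ≠ H := by
    rintro rfl
    exact hN n hn
  obtain ⟨M, hM, h1, h2, h3, h4⟩ := exists_max_subgroup (fun K : Subgroup Γ => K.Normal)
    ‹N.Normal› hNH hne
  refine ⟨M, H, h1, hM, hHn, Subgroup.finiteIndex_of_le h1, h2, h4, fun hab => ?_⟩
  have h5 : derivedSeries Γ (n + 1) ≤ M := by
    rw [derivedSeries_succ]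
    exact (Subgroup.commutator_mono hn hn).trans hab
  have h6 := hmin M ⟨hM, h1, n + 1, h5⟩
  have h7 := Subgroup.relIndex_mul_relIndex N M H h1 h2
  have h8 : N.relIndex M ≠ 0 := relIndex_ne _ _
  have h9 : M.relIndex H = 1 := by
    have h10 : M.relIndex H ≤ 1 := by
      have : N.relIndex M * M.relIndex H ≤ N.relIndex M * 1 := by rw [h7, mul_one]; exact h6
      exact Nat.le_of_mul_le_mul_left this (Nat.pos_of_ne_zero h8)
    have h11 : M.relIndex H ≠ 0 := by
      intro h0
      rw [h0, mul_zero] at h7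
      exact relIndex_ne _ _ h7.symm
    omega
  exact h3 (le_antisymm h2 (Subgroup.relIndex_eq_one.mp h9))

/-- If the centralizer `C` of a nonabelian chief factor `H / M` does not contain a neighbourhood of
one, then its hull contains `H`. -/
theorem Chief0.le_hull (hF : Lev F) {M H Hh : Subgroup Γ} [M.Normal] (h : Chief0 M H)
    (hh : IsHull F (Cent M H) Hh) (hC : (Cent M H : Set Γ) ∉ F) : H ≤ Hh := by
  have := h.nH
  have hHhn : Hh.Normal := hh.normal hF
  rcases h.max ((Hh ⊓ H) ⊔ M) inferInstance le_sup_right (sup_le inf_le_right h.le) with h1 | h1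
  · exfalso
    have h2 : Hh ⊓ H ≤ M := h1 ▸ le_sup_left
    have h3 : Hh ≤ Cent M H := by
      intro x hx
      rw [mem_Cent]
      intro y hy
      refine h2 ⟨?_, ?_⟩
      · rw [commutatorElement_def, mul_assoc, mul_assoc, ← mul_assoc y]
        exact Hh.mul_mem hx (hHhn.conj_mem _ (Hh.inv_mem hx) y)
      · rw [commutatorElement_def]
        exact H.mul_mem (this.conj_mem _ hy x) (H.inv_mem hy)
    exact hC (Filter.mem_of_superset hh.mem h3)
  · rw [← h1]
    exact sup_le inf_le_left (le_Cent.trans hh.le)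

/-- The action on a nonabelian chief factor is full if its kernel does not contain a neighbourhood
of one. -/
theorem Chief0.full (hF : Lev F) {M H : Subgroup Γ} [M.Normal] [H.Normal] (h : Chief0 M H)
    (hC : (Cent M H : Set Γ) ∉ F) : IsFull F (QuotientGroup.mk' (Cent M H)) := by
  have hfin := h.fin
  have hCf : (Cent M H).FiniteIndex := Subgroup.finiteIndex_of_le le_Cent
  obtain ⟨Hh, hh⟩ := exists_hull F (Cent M H)
  have hHH := h.le_hull hF hh hC
  intro L hL a ha
  obtain ⟨g, rfl⟩ := QuotientGroup.mk'_surjective (Cent M H) a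
  have h1 : Hh ≤ (Subgroup.centralizer {QuotientGroup.mk' (Cent M H) g}).comap
      (QuotientGroup.mk' (Cent M H)) := by
    refine hh.least _ (fun m hm => ?_) (Filter.mem_of_superset hL fun x hx => ?_)
    · rw [Subgroup.mem_comap, Subgroup.mem_centralizer_iff]
      rintro _ rfl
      have h0 : QuotientGroup.mk' (Cent M H) m = 1 := (QuotientGroup.eq_one_iff m).mpr hm
      rw [h0, mul_one, one_mul]
    · rw [SetLike.mem_coe, Subgroup.mem_comap, Subgroup.mem_centralizer_iff]
      rintro _ rfl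
      exact ha x hx
  have h2 : g ∈ Cent M H := by
    rw [mem_Cent]
    intro x hx
    have h3 := Subgroup.mem_centralizer_iff.mp (Subgroup.mem_comap.mp (h1 (hHH hx))) _ rfl
    have h4 : ⁅g, x⁆ ∈ Cent M H := by
      rw [← QuotientGroup.eq_one_iff]
      change QuotientGroup.mk' (Cent M H) ⁅g, x⁆ = 1
      rw [map_commutatorElement, commutatorElement_eq_one_iff_mul_comm]
      exact h3
    have h5 : ⁅g, x⁆ ∈ H := by
      rw [commutatorElement_def]
      exact H.mul_mem ((inferInstance : H.Normal).conj_mem x hx g) (H.inv_mem hx)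
    rw [← h.cent_inf]
    exact ⟨h4, h5⟩
  exact (QuotientGroup.eq_one_iff g).mpr h2

end chief

section target

variable {U : Type u} [Group U]

/-- The target: `c : U → E` is onto the finite group `E`, and `R` is a minimal normal subgroup of
`E`, nonabelian and with trivial centralizer, which is contained in the image of every neighbourhood
of one. -/
structure Target0 (F : Filter U) {E : Type*} [Group E] (c : U →* E) (R : Subgroup E) : Prop where
  fin : Finite E
  surj : Function.Surjective c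
  normal : R.Normal
  min : ∀ S : Subgroup E, S.Normal → S ≤ R → S = ⊥ ∨ S = R
  nonab : ∃ a ∈ R, ∃ b ∈ R, a * b ≠ b * a
  cent : Subgroup.centralizer (R : Set E) = ⊥
  full : ∀ L ∈ F, ∀ r ∈ R, ∃ g ∈ L, c g = r

theorem Target.toTarget0 {F : Filter U} {E : Type*} [Group E] {c : U →* E} {R : Subgroup E}
    (h : Target F c R) : Target0 F c R :=
  ⟨h.fin, h.surj, h.normal, h.min, h.nonab, h.cent, h.full⟩

/-- The subgroup `R` is perfect. -/
theorem Target0.perfect {F : Filter U} {E : Type*} [Group E] {c : U →* E} {R : Subgroup E}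
    (h : Target0 F c R) : R ≤ ⁅R, R⁆ := by
  have := h.normal
  rcases h.min ⁅R, R⁆ inferInstance (Subgroup.commutator_le_left _ _) with h1 | h1
  · exfalso
    obtain ⟨a, ha, b, hb, hab⟩ := h.nonab
    have h2 : ⁅a, b⁆ ∈ ⁅R, R⁆ := Subgroup.commutator_mem_commutator ha hb
    rw [h1, Subgroup.mem_bot, commutatorElement_eq_one_iff_mul_comm] at h2
    exact hab h2
  · exact h1.ge

/-- The action on a nonabelian chief factor of the ambient group which lies below the hull. -/
theorem target_of_uchief {F : Filter U} (hF : Lev F) {MU HU : Subgroup U} [MU.Normal] [HU.Normal]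
    (hMHU : MU ≤ HU) (hfi : MU.relIndex HU ≠ 0)
    (hmaxU : ∀ K : Subgroup U, K.Normal → MU ≤ K → K ≤ HU → K = MU ∨ K = HU)
    (hnonab : ¬ ⁅HU, HU⁆ ≤ MU)
    (hhull : ∀ K : Subgroup U, MU ≤ K → (K : Set U) ∈ F → HU ≤ K) :
    ∃ (E : Type u) (_ : Group E) (c : U →* E) (R : Subgroup E), Target0 F c R ∧
      ∀ u : U, (∀ g ∈ HU, u * g = g * u) → c u = 1 := by
  let c₀ : U →* MulAut (HU ⧸ MU.subgroupOf HU) := act MU HU
  have hfi : (MU.subgroupOf HU).FiniteIndex := ⟨hfi⟩
  have hker : ∀ u, c₀ u = 1 ↔ ∀ x ∈ HU, ⁅u, x⁆ ∈ MU := fun u => act_eq_one MU HU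
  have hkerH : ∀ x ∈ HU, c₀ x = 1 ↔ x ∈ MU := by
    have hCC : (Cent MU HU ⊓ HU : Subgroup U) = MU := by
      rcases hmaxU (Cent MU HU ⊓ HU) inferInstance (le_inf le_Cent hMHU) inf_le_right
        with h1 | h1
      · exact h1
      · refine absurd ?_ hnonab
        rw [Subgroup.commutator_le]
        intro x hx y hy
        rw [← h1] at hx
        exact mem_Cent.mp hx.1 y hy
    intro x hx
    rw [hker, ← mem_Cent]
    constructor
    · intro h1
      have h2 : x ∈ Cent MU HU ⊓ HU := ⟨h1, hx⟩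
      rwa [hCC] at h2
    · intro h1
      exact le_Cent h1
  have : Finite (HU ⧸ MU.subgroupOf HU) := inferInstance
  have hfinA : Finite (MulAut (HU ⧸ MU.subgroupOf HU)) := inferInstance
  let c : U →* c₀.range := c₀.rangeRestrict
  have hcsurj : Function.Surjective c := MonoidHom.rangeRestrict_surjective c₀
  have hc1 : ∀ u, c u = 1 ↔ c₀ u = 1 := fun u => Subtype.ext_iff
  refine ⟨c₀.range, inferInstance, c, HU.map c, ?_, ?_⟩
  · refine ⟨inferInstance, hcsurj, Subgroup.Normal.map inferInstance c hcsurj, ?_, ?_, ?_, ?_⟩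
    · intro S hS hSR
      have h1 : (S.comap c ⊓ HU).Normal := inferInstance
      have h2 : S = (S.comap c ⊓ HU).map c := by
        apply le_antisymm
        · intro x hx
          obtain ⟨y, hy, rfl⟩ := hSR hx
          exact ⟨y, ⟨hx, hy⟩, rfl⟩
        · rintro _ ⟨y, hy, rfl⟩
          exact hy.1
      have h3 : MU ≤ S.comap c ⊓ HU := by
        intro x hx
        refine ⟨?_, hMHU hx⟩
        change c x ∈ S
        rw [(hc1 x).mpr ((hkerH x (hMHU hx)).mpr hx)]
        exact S.one_mem
      rcases hmaxU _ h1 h3 inf_le_right with h4 | h4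
      · left
        rw [h2, h4, Subgroup.eq_bot_iff_forall]
        rintro _ ⟨x, hx, rfl⟩
        exact (hc1 x).mpr ((hkerH x (hMHU hx)).mpr hx)
      · right
        rw [h2, h4]
    · by_contra hcon
      push Not at hcon
      refine hnonab ?_
      rw [Subgroup.commutator_le]
      intro x hx y hy
      have h1 := hcon (c x) ⟨x, hx, rfl⟩ (c y) ⟨y, hy, rfl⟩
      have h2 : ⁅x, y⁆ ∈ HU := by
        rw [commutatorElement_def]
        exact HU.mul_mem (HU.mul_mem (HU.mul_mem hx hy) (HU.inv_mem hx)) (HU.inv_mem hy)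
      rw [← hkerH _ h2, ← hc1, map_commutatorElement, commutatorElement_eq_one_iff_mul_comm]
      exact h1
    · rw [Subgroup.eq_bot_iff_forall]
      intro e he
      obtain ⟨u, rfl⟩ := hcsurj e
      rw [hc1, hker]
      intro x hx
      have h1 := Subgroup.mem_centralizer_iff.mp he (c x) ⟨x, hx, rfl⟩
      have h2 : ⁅u, x⁆ ∈ HU := by
        rw [commutatorElement_def]
        exact HU.mul_mem ((inferInstance : HU.Normal).conj_mem _ hx u) (HU.inv_mem hx)
      rw [← hkerH _ h2, ← hc1, map_commutatorElement, commutatorElement_eq_one_iff_mul_comm]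
      exact h1.symm
    · refine exists_pow_image hF c fun L hL => ?_
      have h1 : HU ≤ (Subgroup.closure L) ⊔ MU :=
        hhull _ le_sup_right (Filter.mem_of_superset hL fun x hx =>
          Subgroup.mem_sup_left (Subgroup.subset_closure hx))
      rw [← MonoidHom.map_closure]
      rintro _ ⟨x, hx, rfl⟩
      obtain ⟨y, hy, m, hm, rfl⟩ := Subgroup.mem_sup_of_normal_right.mp (h1 hx)
      refine ⟨y, hy, ?_⟩
      have h2 : c m = 1 := (hc1 m).mpr ((hkerH m (hMHU hm)).mpr hm)
      rw [map_mul, h2, mul_one]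
  · intro u hu
    rw [hc1, hker]
    intro x hx
    have h1 : ⁅u, x⁆ = 1 := commutatorElement_eq_one_iff_mul_comm.mpr (hu x hx)
    rw [h1]
    exact MU.one_mem

end target

variable {U : Type u} [Group U] (G : Subgroup U) [G.Normal] {F : Filter U}

/-- **From a nonabelian chief factor of `G` with noncontinuous action to a homomorphism of `U`.** -/
theorem exists_target0_of_chief (hF : Lev F)
    (hX : ∃ X : Set G, X.Finite ∧ (Subgroup.closure X : Set G) ∈ Fc G F)
    {M H : Subgroup G} [M.Normal] (h : Chief0 M H) (hC : (Cent M H : Set G) ∉ Fc G F) :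
    ∃ (E : Type u) (_ : Group E) (c : U →* E) (R : Subgroup E), Target0 F c R ∧
      ∀ u : U, (∀ g ∈ G, u * g = g * u) → c u = 1 := by
  classical
  have hHn := h.nH
  have hMf := h.fin
  have hF' := lev_Fc (G := G) hF
  set C := Cent M H with hCdef
  have hCn : C.Normal := inferInstance
  have hCf : C.FiniteIndex := Subgroup.finiteIndex_of_le le_Cent
  let a : U → MulAut G := fun u => MulAut.conjNormal u
  have ha : ∀ u, Pres (Fc G F) (a u) := fun u => pres_Fc hF u
  have hainv : ∀ u, (a u)⁻¹ = a u⁻¹ := fun u => (map_inv MulAut.conjNormal u).symm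
  have ha' : ∀ u, Pres (Fc G F) (a u)⁻¹ := fun u => by rw [hainv]; exact ha u⁻¹
  let Cu : U → Subgroup G := fun u => C.comap ((a u : MulAut G) : G →* G)
  have hfull := h.full hF' hC
  -- the conjugates of `C` are finite in number
  have hfin : (Set.range Cu).Finite := by
    have h1 : ∀ u, Cu u = ((QuotientGroup.mk' C).comp ((a u : MulAut G) : G →* G)).ker := by
      intro u
      ext x
      rw [MonoidHom.mem_ker, MonoidHom.comp_apply, QuotientGroup.mk'_apply,
        QuotientGroup.eq_one_iff]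
      rfl
    have h2 : ∀ u, IsFull (Fc G F) ((QuotientGroup.mk' C).comp ((a u : MulAut G) : G →* G)) := by
      intro u L hL b hb
      refine hfull _ (ha u⁻¹ L hL) b fun g hg => ?_
      have h3 := hb _ hg
      rw [MonoidHom.comp_apply] at h3
      have h4 : ((a u : MulAut G) : G →* G) (a u⁻¹ g) = g := by
        change a u (a u⁻¹ g) = g
        rw [← hainv, MulAut.apply_inv_self]
      rwa [h4] at h3
    refine ((finite_full (A := G ⧸ C) hF' hX).image MonoidHom.ker).subset ?_
    rintro _ ⟨u, rfl⟩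
    exact ⟨_, h2 u, (h1 u).symm⟩
  set s : Finset (Subgroup G) := hfin.toFinset with hs
  set M₁ : Subgroup G := s.inf id with hM₁
  have hCuf : ∀ u, (Cu u).FiniteIndex := fun u => ⟨by
    have h1 := Subgroup.index_comap_of_surjective C (f := ((a u : MulAut G) : G →* G))
      (MulEquiv.surjective (a u))
    exact h1 ▸ hCf.index_ne_zero⟩
  have hmem : ∀ x, x ∈ M₁ ↔ ∀ u, a u x ∈ C := by
    intro x
    rw [hM₁, Finset.inf_eq_iInf, Subgroup.mem_iInf]
    simp only [Subgroup.mem_iInf, id, hs, Set.Finite.mem_toFinset, Set.mem_range,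
      forall_exists_index, forall_apply_eq_imp_iff]
    rfl
  have hM₁n : M₁.Normal := by
    refine ⟨fun x hx g => (hmem _).mpr fun u => ?_⟩
    rw [map_mul, map_mul, map_inv]
    exact hCn.conj_mem _ ((hmem x).mp hx u) _
  have hM₁inv : ∀ u, ∀ x ∈ M₁, a u x ∈ M₁ := by
    intro u x hx
    refine (hmem _).mpr fun v => ?_
    have : a v (a u x) = a (v * u) x := by
      change (a v * a u) x = a (v * u) x
      rw [show a (v * u) = a v * a u from map_mul MulAut.conjNormal v u]
    rw [this]
    exact (hmem x).mp hx _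
  have hM₁C : M₁ ≤ C := fun x hx => by
    have := (hmem x).mp hx 1
    rwa [show a 1 = 1 from map_one MulAut.conjNormal] at this
  have hM₁f : M₁.FiniteIndex := by
    have : ∀ t : Finset (Subgroup G), (∀ K ∈ t, K.FiniteIndex) → (t.inf id).FiniteIndex := by
      intro t
      induction t using Finset.induction_on with
      | empty => intro _; rw [Finset.inf_empty]; infer_instance
      | insert K t hK ih =>
        intro ht
        rw [Finset.inf_insert, id]
        have h1 := ht K (Finset.mem_insert_self _ _)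
        have h2 := ih fun K' hK' => ht K' (Finset.mem_insert_of_mem hK')
        infer_instance
    refine this s fun K hK => ?_
    rw [hs, Set.Finite.mem_toFinset] at hK
    obtain ⟨u, rfl⟩ := hK
    exact hCuf u
  -- the hull of `M₁` is not solvable modulo `M₁`
  obtain ⟨Hh, hHh⟩ := exists_hull (Fc G F) M₁
  have hHhinv : ∀ u, ∀ x ∈ Hh, a u x ∈ Hh := fun u => hHh.inv (ha u) (hM₁inv u)
  have hnsol : ∀ n, ¬ ds Hh n ≤ M₁ := by
    intro n hn
    obtain ⟨H', hH'⟩ := exists_hull (Fc G F) C
    have h1 : H ≤ H' := h.le_hull hF' hH' hC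
    have h2 : H' ≤ Hh ⊔ C := hH'.least _ le_sup_right
      (Filter.mem_of_superset hHh.mem fun x hx => Subgroup.mem_sup_left hx)
    have h3 := le_ds_sup h.perfect le_Cent (h1.trans h2) n
    have h4 : H ≤ C := h3.trans (sup_le (hn.trans hM₁C) le_rfl)
    exact h.ne (h.cent_inf.symm.trans (inf_eq_right.mpr h4))
  obtain ⟨H₁, ⟨hH₁inv, hM₁H₁, hH₁Hh, n, hn⟩, hmin⟩ := exists_min_subgroup M₁
    (fun K : Subgroup G => (∀ u, ∀ x ∈ K, a u x ∈ K) ∧ M₁ ≤ K ∧ K ≤ Hh ∧ ∃ n, ds Hh n ≤ K)
    ⟨Hh, hHhinv, hHh.le, le_rfl, 0, le_rfl⟩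
  have hne₁ : M₁ ≠ H₁ := by
    intro h1
    exact hnsol n (h1 ▸ hn)
  obtain ⟨M₂, hP, hM₁₂, hM₂H, hM₂ne, hmax⟩ := exists_max_subgroup
    (fun K : Subgroup G => ∀ u, ∀ x ∈ K, a u x ∈ K) hM₁inv hM₁H₁ hne₁
  have hM₂f : M₂.FiniteIndex := Subgroup.finiteIndex_of_le hM₁₂
  -- the corresponding subgroups of `U`
  have hnU : ∀ K : Subgroup G, (∀ u, ∀ x ∈ K, a u x ∈ K) → (K.map G.subtype).Normal := by
    intro K hK
    refine ⟨?_⟩
    rintro _ ⟨x, hx, rfl⟩ u
    exact ⟨a u x, hK u x hx, MulAut.conjNormal_apply u x⟩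
  have hHUn : (H₁.map G.subtype).Normal := hnU _ hH₁inv
  have hMUn : (M₂.map G.subtype).Normal := hnU _ hP
  have hHG : H₁.map G.subtype ≤ G := by
    rintro _ ⟨x, -, rfl⟩
    exact x.2
  obtain ⟨E, iE, c, R, hT, hc⟩ := target_of_uchief (MU := M₂.map G.subtype)
    (HU := H₁.map G.subtype) hF (Subgroup.map_mono hM₂H) (by
      rw [Subgroup.relIndex_map_map_of_injective _ _ (Subgroup.subtype_injective G)]
      exact relIndex_ne _ _) (by
      intro K hK h1 h2
      have hKG : K ≤ G := h2.trans hHG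
      have h3 : (K.subgroupOf G).map G.subtype = K := by
        rw [Subgroup.subgroupOf_map_subtype, inf_eq_left.mpr hKG]
      have h4 : ∀ u, ∀ x ∈ K.subgroupOf G, a u x ∈ K.subgroupOf G := by
        intro u x hx
        rw [Subgroup.mem_subgroupOf] at hx ⊢
        change ((MulAut.conjNormal u x : G) : U) ∈ K
        rw [MulAut.conjNormal_apply]
        exact hK.conj_mem _ hx u
      have h5 : M₂ ≤ K.subgroupOf G := fun x hx => h1 ⟨x, hx, rfl⟩
      have h6 : K.subgroupOf G ≤ H₁ := by
        intro x hx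
        obtain ⟨y, hy, hxy⟩ := h2 hx
        rwa [← Subtype.ext hxy]
      rcases hmax _ h4 h5 h6 with h7 | h7
      · left; rw [← h3, h7]
      · right; rw [← h3, h7]) (by
      intro h1
      have h2 : ⁅H₁, H₁⁆ ≤ M₂ := by
        rw [Subgroup.commutator_le] at h1 ⊢
        intro x hx y hy
        obtain ⟨z, hz, hzy⟩ := h1 (x : U) ⟨x, hx, rfl⟩ (y : U) ⟨y, hy, rfl⟩
        have : z = ⁅x, y⁆ := Subtype.ext hzy
        rwa [← this]
      have h3 : ds Hh (n + 1) ≤ M₂ := (Subgroup.commutator_mono hn hn).trans h2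
      have h4 := hmin M₂ ⟨hP, hM₁₂, hM₂H.trans hH₁Hh, n + 1, h3⟩
      have h7 := Subgroup.relIndex_mul_relIndex M₁ M₂ H₁ hM₁₂ hM₂H
      have h8 : M₁.relIndex M₂ ≠ 0 := relIndex_ne _ _
      have h9 : M₂.relIndex H₁ = 1 := by
        have h10 : M₂.relIndex H₁ ≤ 1 := by
          have : M₁.relIndex M₂ * M₂.relIndex H₁ ≤ M₁.relIndex M₂ * 1 := by
            rw [h7, mul_one]; exact h4
          exact Nat.le_of_mul_le_mul_left this (Nat.pos_of_ne_zero h8)
        have h11 : M₂.relIndex H₁ ≠ 0 := relIndex_ne _ _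
        omega
      exact hM₂ne (le_antisymm hM₂H (Subgroup.relIndex_eq_one.mp h9))) (by
      intro K h1 h2
      have h3 : Hh ≤ K.subgroupOf G := by
        refine hHh.least _ (fun x hx => h1 ⟨x, hM₁₂ hx, rfl⟩) ?_
        exact preimage_mem_Fc h2
      rintro _ ⟨x, hx, rfl⟩
      exact h3 (hH₁Hh hx))
  exact ⟨E, iE, c, R, hT, fun u hu => hc u fun g hg => hu g (hHG hg)⟩

/-- **The reduction for nonsolvable quotients.** -/
theorem exists_target0 (hF : Lev F)
    (hX : ∃ X : Set G, X.Finite ∧ (Subgroup.closure X : Set G) ∈ Fc G F)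
    (N : Subgroup G) [N.Normal] [N.FiniteIndex] (hN : ¬ Group.IsSolvable (G ⧸ N)) :
    (∃ (E : Type u) (_ : Group E) (c : U →* E) (R : Subgroup E), Target0 F c R ∧
      ∀ u : U, (∀ g ∈ G, u * g = g * u) → c u = 1) ∨
    ∃ C : Subgroup G, ∃ _ : C.Normal, N ≤ C ∧ C.FiniteIndex ∧ (C : Set G) ∈ Fc G F ∧
      ¬ Group.IsSolvable (G ⧸ C) := by
  rw [isSolvable_quotient_iff, not_exists] at hN
  obtain ⟨M, H, hNM, h⟩ := exists_chief0 hN
  have hMn := h.nM
  have hHn := h.nH
  by_cases hC : (Cent M H : Set G) ∈ Fc G F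
  · right
    have hMf := h.fin
    refine ⟨Cent M H, inferInstance, hNM.trans le_Cent, Subgroup.finiteIndex_of_le le_Cent, hC, ?_⟩
    rw [isSolvable_quotient_iff]
    rintro ⟨n, hn⟩
    have h1 := le_ds_sup (K := ⊤) (C := Cent M H) h.perfect le_Cent (le_sup_of_le_left le_top) n
    rw [ds_top] at h1
    have h2 : H ≤ Cent M H := h1.trans (sup_le hn le_rfl)
    exact h.ne (h.cent_inf.symm.trans (inf_eq_right.mpr h2))
  · exact Or.inl (exists_target0_of_chief G hF hX h hC)

end Vale.Agent.P011.H976
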