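import Vale.Agent.P011.Pow.LQb
import Vale.Agent.P011.Pow.LQ
import Vale.Agent.P011.Pow.AvDiv
import Vale.Agent.P011.Pow.MP
import Vale.Agent.P011.H976.Solv

/-!
The group of unitary elements of reduced norm one is prosolvable at the places where it is
anisotropic: the residue ring of a local division algebra is commutative.
-/

open NumberField IsDedekindDomain Module
open scoped TensorProduct commutatorElement

set_option linter.unusedSectionVars false

namespace Vale.Agent.P011.H976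

open Vale.Agent.P011.Arith Vale.Agent.P011.Even Vale.Agent.P011.Pow Vale.Agent.P011.Two
  Vale.Agent.P011.One

section local_

variable {F K D : Type} [NontriviallyNormedField F] [IsUltrametricDist F] [ProperSpace F]
  [Field K] [Algebra K F] [DivisionRing D] [Algebra K D] [FiniteDimensional K D]

/-- Elements of absolute value one commute up to elements of absolute value at most `r < 1`. -/
theorem exists_comm_small (h : DivF F K D) : ∃ r : ℝ, 0 < r ∧ r < 1 ∧ ∀ x y : D,
    cvF F K x = 1 → cvF F K y = 1 → cvF F K (x * y - y * x) ≤ r := by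
  let i0 : DivisionRing (F ⊗[K] D) := locDR h
  have i1 : FiniteDimensional F (F ⊗[K] D) := inferInstance
  let _ : NormedDivisionRing (F ⊗[K] D) := LocDiv.ndr F
  let _ : NormedAlgebra F (F ⊗[K] D) :=
    { (inferInstance : Algebra F (F ⊗[K] D)) with
      norm_smul_le := fun c x => by
        change LocDiv.nm F (c • x) ≤ ‖c‖ * LocDiv.nm F x
        rw [Algebra.smul_def, LocDiv.nm_mul, LocDiv.nm_algebraMap] }
  have hU : IsUltrametricDist (F ⊗[K] D) :=
    IsUltrametricDist.isUltrametricDist_of_forall_norm_add_le_max_norm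
      (fun x y => LocDiv.nm_add_le_max F x y)
  have hP : ProperSpace (F ⊗[K] D) := FiniteDimensional.proper F _
  obtain ⟨c, hc0, hc1⟩ := NormedField.exists_norm_lt_one F
  have hcne : c ≠ 0 := norm_pos_iff.mp hc0
  obtain ⟨R⟩ := LocDiv.exists_frame (E := F ⊗[K] D) (algebraMap F (F ⊗[K] D) c)
    ((_root_.map_ne_zero _).mpr hcne) (by rw [norm_algebraMap']; exact hc1)
  refine ⟨‖R.π‖, norm_pos_iff.mpr R.π0, R.π1, fun x y hx hy => ?_⟩
  rw [cvF_eq h] at hx hy ⊢
  have h1 : (1 : F) ⊗ₜ[K] (x * y - y * x) =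
      (1 : F) ⊗ₜ[K] x * (1 : F) ⊗ₜ[K] y - (1 : F) ⊗ₜ[K] y * (1 : F) ⊗ₜ[K] x := by
    rw [Algebra.TensorProduct.tmul_mul_tmul, Algebra.TensorProduct.tmul_mul_tmul, mul_one,
      TensorProduct.tmul_sub]
  rw [h1]
  exact R.πm _ (LQ.res_comm R hx hy)

end local_

section grp

variable {F K D Ω : Type} [NontriviallyNormedField F] [IsUltrametricDist F] [ProperSpace F]
  [Field K] [StarRing K] [Algebra K F] [DivisionRing D] [StarRing D] [Algebra K D]
  [FiniteDimensional K D] [Field Ω] [Algebra K Ω] {n : ℕ} (f : D →ₐ[K] Matrix (Fin n) (Fin n) Ω)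

/-- The commutator of two elements of absolute value one. -/
theorem cvF_comm (_h : DivF F K D) {x y : D} (hx : cvF F K x = 1) (hy : cvF F K y = 1) :
    cvF F K (x * y * x⁻¹ * y⁻¹ - 1) = cvF F K (x * y - y * x) := by
  have hx0 : x ≠ 0 := by
    rintro rfl
    rw [cvF_zero] at hx
    exact zero_ne_one hx
  have hy0 : y ≠ 0 := by
    rintro rfl
    rw [cvF_zero] at hy
    exact zero_ne_one hy
  have h1 : x * y - y * x = (x * y * x⁻¹ * y⁻¹ - 1) * (y * x) := by
    rw [sub_mul, one_mul]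
    congr 1
    calc x * y = x * y * (x⁻¹ * (y⁻¹ * y) * x) := by
          rw [inv_mul_cancel₀ hy0, mul_one, inv_mul_cancel₀ hx0, mul_one]
      _ = _ := by simp only [mul_assoc]
  rw [h1, cvF_mul _ (y * x), cvF_mul y x, hx, hy, mul_one, mul_one]

/-- The elements of the group which are close to one. -/
def Vt (h : DivF F K D) (h1 : ∀ g : SUD f, cvF F K (((g : SUD f) : Dˣ) : D) = 1) (t : ℝ)
    (ht : 0 ≤ t) : Subgroup (SUD f) where
  carrier := {g | cvF F K ((((g : SUD f) : Dˣ) : D) - 1) ≤ t}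
  one_mem' := by
    change cvF F K ((((1 : SUD f) : Dˣ) : D) - 1) ≤ t
    rw [Subgroup.coe_one, Units.val_one, sub_self, cvF_zero]
    exact ht
  mul_mem' := by
    intro a b ha hb
    change cvF F K ((((a * b : SUD f) : Dˣ) : D) - 1) ≤ t
    have e : (((a * b : SUD f) : Dˣ) : D) - 1 =
        ((a : Dˣ) : D) * (((b : Dˣ) : D) - 1) + (((a : Dˣ) : D) - 1) := by
      rw [Subgroup.coe_mul, Units.val_mul]
      noncomm_ring
    rw [e]
    refine (cvF_add h _ _).trans (max_le ?_ ha)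
    rw [cvF_mul, h1, one_mul]
    exact hb
  inv_mem' := by
    intro a ha
    change cvF F K ((((a⁻¹ : SUD f) : Dˣ) : D) - 1) ≤ t
    have e : (((a⁻¹ : SUD f) : Dˣ) : D) - 1 =
        -((((a⁻¹ : SUD f) : Dˣ) : D) * (((a : Dˣ) : D) - 1)) := by
      have h2 : (((a⁻¹ : SUD f) : Dˣ) : D) * ((a : Dˣ) : D) = 1 := by
        rw [Subgroup.coe_inv, Units.inv_mul]
      rw [mul_sub, h2, mul_one, neg_sub]
    rw [e, cvF_neg, cvF_mul, h1, one_mul]
    exact ha

theorem ds_le_Vt (h : DivF F K D) (h1 : ∀ g : SUD f, cvF F K (((g : SUD f) : Dˣ) : D) = 1)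
    {r : ℝ} (hr0 : 0 < r) (hr1 : r < 1) (hr : ∀ x y : D,
      cvF F K x = 1 → cvF F K y = 1 → cvF F K (x * y - y * x) ≤ r) (m : ℕ) :
    derivedSeries (SUD f) (m + 1) ≤ Vt f h h1 (r ^ (m + 1)) (by positivity) := by
  have hcomm : ∀ x y : SUD f, (((⁅x, y⁆ : SUD f) : Dˣ) : D) - 1 =
      ((x : Dˣ) : D) * ((y : Dˣ) : D) * ((x : Dˣ) : D)⁻¹ * ((y : Dˣ) : D)⁻¹ - 1 := by
    intro x y
    rw [commutatorElement_def, Subgroup.coe_mul, Subgroup.coe_mul, Subgroup.coe_mul,
      Subgroup.coe_inv, Subgroup.coe_inv, Units.val_mul, Units.val_mul, Units.val_mul,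
      Units.val_inv_eq_inv_val, Units.val_inv_eq_inv_val]
  induction m with
  | zero =>
    rw [derivedSeries_succ, derivedSeries_zero, Subgroup.commutator_le]
    intro x _ y _
    change cvF F K ((((⁅x, y⁆ : SUD f) : Dˣ) : D) - 1) ≤ r ^ (0 + 1)
    rw [hcomm, cvF_comm h (h1 x) (h1 y), zero_add, pow_one]
    exact hr _ _ (h1 x) (h1 y)
  | succ m ih =>
    rw [derivedSeries_succ, Subgroup.commutator_le]
    intro x hx y hy
    have hx' : cvF F K (((x : Dˣ) : D) - 1) ≤ r ^ (m + 1) := ih hx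
    have hy' : cvF F K (((y : Dˣ) : D) - 1) ≤ r ^ (m + 1) := ih hy
    change cvF F K ((((⁅x, y⁆ : SUD f) : Dˣ) : D) - 1) ≤ r ^ (m + 1 + 1)
    rw [hcomm, cvF_comm h (h1 x) (h1 y)]
    have e : ((x : Dˣ) : D) * ((y : Dˣ) : D) - ((y : Dˣ) : D) * ((x : Dˣ) : D) =
        (((x : Dˣ) : D) - 1) * (((y : Dˣ) : D) - 1) -
          (((y : Dˣ) : D) - 1) * (((x : Dˣ) : D) - 1) := by noncomm_ring
    have h2 : r ^ (m + 1) * r ^ (m + 1) ≤ r ^ (m + 1 + 1) := by
      rw [← pow_add]
      exact pow_le_pow_of_le_one hr0.le hr1.le (by omega)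
    have h3 : 0 ≤ r ^ (m + 1) := by positivity
    rw [e]
    refine (cvF_sub h _ _).trans (max_le ?_ ?_)
    · rw [cvF_mul]
      exact (mul_le_mul hx' hy' (cvF_nonneg _) h3).trans h2
    · rw [cvF_mul]
      exact (mul_le_mul hy' hx' (cvF_nonneg _) h3).trans h2

end grp

section place

variable {k K D : Type} [Field k] [NumberField k] [Field K] [NumberField K] [StarRing K]
  [DivisionRing D] [StarRing D] [Algebra k K] [Algebra k D] [Algebra K D] [IsScalarTower k K D]
  {d : kˣ} {s : K} {Ω : Type} [Field Ω] [Algebra K Ω] {n : ℕ}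

/-- The terms of the derived series are close to one at the places of `Tdiv`. -/
theorem exists_ds_near (hS : Setting k K D d s) (hn : 3 ≤ n) (hdeg : finrank K D = n ^ 2)
    (f : D →ₐ[K] Matrix (Fin n) (Fin n) Ω) {M : ℕ} (B : Basis (Fin M) k D) {p : Pl k}
    (hp : p ∈ Tdiv k K D) {η : ℝ} (hη : 0 < η) :
    ∃ m : ℕ, ∀ g ∈ derivedSeries (SUD f) m, Even.nm B p ((((g : SUD f) : Dˣ) : D) - 1) < η := by
  have := hS.fin
  have := hS.cen
  obtain ⟨v, rfl, φ, hdiv⟩ := hp
  let _ : NontriviallyNormedField (v.adicCompletion k) := nnf v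
  have : IsUltrametricDist (v.adicCompletion k) := isUltra v
  let _ : Algebra K (v.adicCompletion k) := (φ : K →+* v.adicCompletion k).toAlgebra
  have h : DivF (v.adicCompletion k) K D := hdiv
  have hφ : ∀ c : k, algebraMap K (v.adicCompletion k) (algebraMap k K c) =
      algebraMap k (v.adicCompletion k) c := fun c => φ.commutes c
  obtain ⟨δ, hδ, hnear⟩ := dn_unitary hS h v (fun ε hε => ⟨ε, hε, fun c hc => by
    rwa [hφ, norm_algebraMap_eq v c] at hc⟩) B hη
  obtain ⟨r, hr0, hr1, hr⟩ := exists_comm_small h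
  have h1 : ∀ g : SUD f, cvF (v.adicCompletion k) K (((g : SUD f) : Dˣ) : D) = 1 := by
    intro g
    have h2 : (f (((g : SUD f) : Dˣ) : D)).det = algebraMap K Ω 1 := by
      rw [map_one]
      exact g.2.2
    rw [cvF_det hS (by omega) hdeg f h2, map_one, norm_one, Real.one_rpow]
  obtain ⟨m, hm⟩ := exists_pow_lt_of_lt_one hδ hr1
  refine ⟨m + 1, fun g hg => hnear _ g.2.1 ?_⟩
  have h3 : cvF (v.adicCompletion k) K ((((g : SUD f) : Dˣ) : D) - 1) ≤ r ^ (m + 1) :=
    ds_le_Vt f h h1 hr0 hr1 hr m hg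
  refine h3.trans_lt (lt_of_le_of_lt ?_ hm)
  exact pow_le_pow_of_le_one hr0.le hr1.le (by omega)

/-- **The continuous case.** A normal subgroup which contains the elements close to one at finitely
many places has solvable quotient. -/
theorem solvable_of_pf (hS : Setting k K D d s) (hn : 3 ≤ n) (hdeg : finrank K D = n ^ 2)
    (f : D →ₐ[K] Matrix (Fin n) (Fin n) Ω) {M : ℕ} (B : Basis (Fin M) k D)
    (N : Subgroup (SUD f)) [N.Normal] (hi : N.index ≠ 0) {S : Set (Pl k)} (hSf : S.Finite)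
    (h : PF B (GU f) (Im N) S) : ∃ m, derivedSeries (SUD f) m ≤ N := by
  classical
  have := hS.fin
  have := hS.cen
  obtain ⟨η, hη, h1⟩ : PF B (GU f) (Im N) (Tdiv k K D) :=
    pf_tdiv hS hn hdeg f B im_sub one_im (fun _ ha _ hb => mul_im ha hb) hi
    (fun x hx => pow_im (fun g => Subgroup.pow_index_mem _ g) hx) hSf h
  have hTf : (Tdiv k K D).Finite := tdiv_finite (by omega) hdeg
  have key : ∀ p : Pl k, ∃ m : ℕ, p ∈ Tdiv k K D → ∀ g ∈ derivedSeries (SUD f) m,
      Even.nm B p ((((g : SUD f) : Dˣ) : D) - 1) < η p := by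
    intro p
    by_cases hp : p ∈ Tdiv k K D
    · obtain ⟨m, hm⟩ := exists_ds_near hS hn hdeg f B hp (hη p)
      exact ⟨m, fun _ => hm⟩
    · exact ⟨0, fun h => absurd h hp⟩
  choose m hm using key
  refine ⟨hTf.toFinset.sup m, fun g hg => mem_of_im (h1 _ g.2 fun p hp => ?_)⟩
  refine hm p hp g (derivedSeries_antitone _ ?_ hg)
  exact Finset.le_sup (f := m) (hTf.mem_toFinset.mpr hp)

end place

end Vale.Agent.P011.H976
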