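import Vale.Agent.P011.H182.Level
import Vale.Agent.P011.H976.SolvLoc
import Vale.Agent.P011.H976.Sa

/-!
**Number fields: the levels as filters, and solvability of the finite quotients of the special
unitary group, conditional on the core.** `UD D` is the group of the unitary elements of `D`,
`GD f` the subgroup of those of reduced norm one, `lvF f B S` the filter of the levels without
condition at the places of `S`, `nrF f B` the filter of the neighbourhoods of one at finitely many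
places.
-/

open NumberField IsDedekindDomain Module Filter
open scoped commutatorElement

set_option linter.unusedSectionVars false

namespace Vale.Agent.P011.H976

open Vale.Agent.P011.Arith Vale.Agent.P011.Even Vale.Agent.P011.Two Vale.Agent.P011.One
  Vale.Agent.P011.H182

section U

/-- The group of the unitary elements. -/
def UD (D : Type) [DivisionRing D] [StarRing D] : Subgroup Dˣ where
  carrier := {g | (g : D) * star (g : D) = 1}
  mul_mem' := by
    intro a b h1 h3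
    change ((a * b : Dˣ) : D) * star ((a * b : Dˣ) : D) = 1
    rw [Units.val_mul, star_mul, mul_assoc, ← mul_assoc (b : D), h3, one_mul, h1]
  one_mem' := by
    change ((1 : Dˣ) : D) * star ((1 : Dˣ) : D) = 1
    rw [Units.val_one, star_one, one_mul]
  inv_mem' := by
    intro a h1
    have h3 : star (a : D) = ((a⁻¹ : Dˣ) : D) := by
      rw [← Units.mul_right_inj a, h1, Units.mul_inv]
    change ((a⁻¹ : Dˣ) : D) * star ((a⁻¹ : Dˣ) : D) = 1
    rw [← h3, star_star, h3, Units.inv_mul]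

theorem mem_UD {D : Type} [DivisionRing D] [StarRing D] {g : Dˣ} :
    g ∈ UD D ↔ (g : D) * star (g : D) = 1 := Iff.rfl

variable {K D Ω : Type} [Field K] [DivisionRing D] [StarRing D] [Algebra K D] [Field Ω]
  [Algebra K Ω] {n : ℕ} (f : D →ₐ[K] Matrix (Fin n) (Fin n) Ω)

theorem sud_le_ud : SUD f ≤ UD D := fun _ hg => hg.1

/-- The elements of reduced norm one in the group of the unitary elements. -/
def GD : Subgroup (UD D) := (SUD f).subgroupOf (UD D)

theorem mem_GD {g : UD D} : g ∈ GD f ↔ (f ((g : Dˣ) : D)).det = 1 :=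
  ⟨fun h => h.2, fun h => ⟨g.2, h⟩⟩

theorem mem_GD_iff_GU {g : UD D} : g ∈ GD f ↔ ((g : Dˣ) : D) ∈ GU f :=
  ⟨fun h => ⟨g.2, h.2⟩, fun h => ⟨g.2, h.2⟩⟩

instance : (GD f).Normal := ⟨fun g hg u => by
  rw [mem_GD] at hg ⊢
  have h1 : (f ((u : Dˣ) : D)).det * (f ((((u⁻¹ : UD D)) : Dˣ) : D)).det = 1 := by
    rw [← Matrix.det_mul, ← map_mul, Subgroup.coe_inv, Units.mul_inv, map_one, Matrix.det_one]
  rw [Subgroup.coe_mul, Subgroup.coe_mul, Units.val_mul, Units.val_mul, map_mul, map_mul,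
    Matrix.det_mul, Matrix.det_mul, hg, mul_one, h1]⟩

/-- The group `GD f` is the group `SUD f`. -/
noncomputable def eGD : GD f ≃* SUD f := Subgroup.subgroupOfEquivOfLe (sud_le_ud f)

theorem eGD_coe (g : GD f) : ((eGD f g : SUD f) : Dˣ) = ((g : UD D) : Dˣ) := rfl

end U

section filt

variable {k K D Ω : Type} [Field k] [NumberField k] [Field K] [DivisionRing D] [StarRing D]
  [Algebra k D] [Algebra K D] [Field Ω] [Algebra K Ω] {n N : ℕ}
  (f : D →ₐ[K] Matrix (Fin n) (Fin n) Ω) (B : Basis (Fin N) k D)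

/-- The filter of the levels. -/
def lvF (S : Set (HeightOneSpectrum (𝓞 k))) : Filter (UD D) where
  sets := {L | ∃ T : Set (HeightOneSpectrum (𝓞 k)), T.Finite ∧ Bad B ⊆ T ∧ ∃ ε : ℝ, 0 < ε ∧
    ∀ g : UD D, ((g : Dˣ) : D) ∈ Lv B S T ε → g ∈ GD f → g ∈ L}
  univ_sets := ⟨Bad B, finite_Bad B, subset_rfl, 1, one_pos, fun _ _ _ => trivial⟩
  sets_of_superset := by
    rintro L L' ⟨T, hT, hb, ε, hε, h⟩ hL
    exact ⟨T, hT, hb, ε, hε, fun g h1 h2 => hL (h g h1 h2)⟩
  inter_sets := by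
    rintro L L' ⟨T, hT, hb, ε, hε, h⟩ ⟨T', hT', hb', ε', hε', h'⟩
    refine ⟨T ∪ T', hT.union hT', hb.trans Set.subset_union_left, min (min ε ε') 1,
      lt_min (lt_min hε hε') one_pos, fun g h1 h2 => ⟨h g ?_ h2, h' g ?_ h2⟩⟩
    · exact lv_mono Set.subset_union_left hb ((min_le_left _ _).trans (min_le_left _ _))
        (min_le_right _ _) h1
    · exact lv_mono Set.subset_union_right hb' ((min_le_left _ _).trans (min_le_right _ _))
        (min_le_right _ _) h1

theorem mem_lvF {S : Set (HeightOneSpectrum (𝓞 k))} {L : Set (UD D)} : L ∈ lvF f B S ↔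
    ∃ T : Set (HeightOneSpectrum (𝓞 k)), T.Finite ∧ Bad B ⊆ T ∧ ∃ ε : ℝ, 0 < ε ∧
      ∀ g : UD D, ((g : Dˣ) : D) ∈ Lv B S T ε → g ∈ GD f → g ∈ L := Iff.rfl

theorem GD_mem_lvF (S : Set (HeightOneSpectrum (𝓞 k))) : (GD f : Set (UD D)) ∈ lvF f B S :=
  ⟨Bad B, finite_Bad B, subset_rfl, 1, one_pos, fun _ _ h => h⟩

/-- The levels are a filter of neighbourhoods of one, stable under conjugation. -/
theorem lev_lvF (hst : ∀ (c : k) (x : D), star (c • x) = c • star x)
    (S : Set (HeightOneSpectrum (𝓞 k))) : Lev (lvF f B S) where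
  one := by
    rintro L ⟨T, hT, hb, ε, hε, h⟩
    exact h 1 (lv_one hε hb) (one_mem _)
  mul := by
    rintro L ⟨T, hT, hb, ε, hε, h⟩
    obtain ⟨ε', hε', -, -, hm, -⟩ := mul_level (S := S) hst hT hb hε
    refine ⟨{g | ((g : Dˣ) : D) ∈ Lv B S T ε' ∧ g ∈ GD f}, ⟨T, hT, hb, ε', hε', fun g h1 h2 =>
      ⟨h1, h2⟩⟩, ?_⟩
    rintro x ⟨hx, hx'⟩ y ⟨hy, hy'⟩
    exact h _ (hm _ hx _ hy) (mul_mem hx' hy')
  conj := by
    rintro g L ⟨T, hT, hb, ε, hε, h⟩
    obtain ⟨M, hM, R, hgM⟩ := exists_bnd (B := B) S g.2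
    obtain ⟨T', hT', hTT', ε', hε', -, -, hc⟩ := conj_level hst hM R hT hb hε
    refine ⟨T', hT', hb.trans hTT', ε', hε', fun x hx hxG => ?_⟩
    refine h _ ?_ (Subgroup.Normal.conj_mem inferInstance x hxG g)
    have h1 := hc _ hgM _ hx
    rwa [← Units.val_inv_eq_inv_val] at h1

/-- The filter of the neighbourhoods of one at finitely many places. -/
def nrF : Filter (UD D) where
  sets := {L | ∃ S : Set (Pl k), S.Finite ∧ ∃ η : Pl k → ℝ, (∀ p, 0 < η p) ∧
    ∀ g : UD D, g ∈ GD f → (∀ p ∈ S, Even.nm B p (((g : Dˣ) : D) - 1) < η p) → g ∈ L}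
  univ_sets := ⟨∅, Set.finite_empty, fun _ => 1, fun _ => one_pos, fun _ _ _ => trivial⟩
  sets_of_superset := by
    rintro L L' ⟨S, hS, η, hη, h⟩ hL
    exact ⟨S, hS, η, hη, fun g h1 h2 => hL (h g h1 h2)⟩
  inter_sets := by
    rintro L L' ⟨S, hS, η, hη, h⟩ ⟨S', hS', η', hη', h'⟩
    refine ⟨S ∪ S', hS.union hS', fun p => min (η p) (η' p), fun p => lt_min (hη p) (hη' p),
      fun g h1 h2 => ⟨h g h1 fun p hp => ?_, h' g h1 fun p hp => ?_⟩⟩
    · exact (h2 p (Or.inl hp)).trans_le (min_le_left _ _)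
    · exact (h2 p (Or.inr hp)).trans_le (min_le_right _ _)

theorem mem_nrF {L : Set (UD D)} : L ∈ nrF f B ↔
    ∃ S : Set (Pl k), S.Finite ∧ ∃ η : Pl k → ℝ, (∀ p, 0 < η p) ∧
      ∀ g : UD D, g ∈ GD f → (∀ p ∈ S, Even.nm B p (((g : Dˣ) : D) - 1) < η p) → g ∈ L := Iff.rfl

end filt

section final

variable {k K D : Type} [Field k] [NumberField k] [Field K] [NumberField K] [StarRing K]
  [DivisionRing D] [StarRing D] [Algebra k K] [Algebra k D] [Algebra K D] [IsScalarTower k K D]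
  {d : kˣ} {s : K} {Ω : Type} [Field Ω] [Algebra K Ω] {n M : ℕ}

/-- **Every finite quotient is solvable, conditional on the core.** -/
theorem solvable_of_core (hS : Setting k K D d s) (hn : 3 ≤ n) (hdeg : finrank K D = n ^ 2)
    (f : D →ₐ[K] Matrix (Fin n) (Fin n) Ω) (B : Basis (Fin M) k D)
    (S : Set (HeightOneSpectrum (𝓞 k)))
    (hSA : ∀ Q : Subgroup (UD D), Q.Normal → Q ≤ GD f → (Q : Set (UD D)) ∈ lvF f B S →
      (Q : Set (UD D)) ∈ nrF f B)
    (hFG : ∃ X : Set (GD f), X.Finite ∧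
      (Subgroup.closure X : Set (GD f)) ∈ Fc (GD f) (lvF f B S))
    (hcore : ∀ (E : Type) (_ : Group E) (c : UD D →* E) (R : Subgroup E),
      Target0 (lvF f B S) c R → (∀ u : UD D, (∀ g ∈ GD f, u * g = g * u) → c u = 1) → False)
    (N : Subgroup (SUD f)) [N.Normal] (hi : N.index ≠ 0) : Group.IsSolvable (SUD f ⧸ N) := by
  have hst : ∀ (c : k) (x : D), star (c • x) = c • star x := fun c x => (Setting.sig hS).map_smul c x
  rw [isSolvable_quotient_iff]
  by_contra hcon
  set N' : Subgroup (GD f) := N.comap (eGD f : GD f →* SUD f) with hN'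
  have hN'n : N'.Normal := inferInstance
  have hN'i : N'.FiniteIndex := ⟨by
    rw [hN', Subgroup.index_comap_of_surjective _ (eGD f).surjective]
    exact hi⟩
  have htr : ∀ (C : Subgroup (GD f)) (m : ℕ), derivedSeries (GD f) m ≤ C →
      derivedSeries (SUD f) m ≤ C.map (eGD f : GD f →* SUD f) := by
    intro C m h
    rw [← map_derivedSeries_eq (f := (eGD f : GD f →* SUD f)) (eGD f).surjective m]
    exact Subgroup.map_mono h
  have hnot : ¬ Group.IsSolvable (GD f ⧸ N') := by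
    rw [isSolvable_quotient_iff]
    rintro ⟨m, hm⟩
    refine hcon ⟨m, (htr _ m hm).trans ?_⟩
    rw [hN']
    exact Subgroup.map_comap_le _ _
  rcases exists_target0 (GD f) (lev_lvF f B hst S) hFG N' hnot with
    ⟨E, iE, c, R, hT, hc⟩ | ⟨C, hCn, hNC, hCi, hCF, hCs⟩
  · exact hcore E iE c R hT hc
  · obtain ⟨Q, hQn, hQG, hQF, hQ1, hQC⟩ := mem_of_SA (F₁ := nrF f B) (GD f)
      (lev_lvF f B hst S) (GD_mem_lvF f B S) hSA hFG C hCF
    obtain ⟨T, hT, η, hη, h⟩ := hQ1
    have hmap : (C.map (eGD f : GD f →* SUD f)).Normal :=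
      Subgroup.Normal.map hCn _ (eGD f).surjective
    have hPF : PF B (GU f) (Im (C.map (eGD f : GD f →* SUD f))) T := by
      refine ⟨η, hη, fun g hg hnear => ?_⟩
      have hg0 : g ≠ 0 := left_ne_zero_of_mul_eq_one hg.1
      let u : UD D := ⟨Units.mk0 g hg0, hg.1⟩
      have hu : u ∈ GD f := ⟨hg.1, hg.2⟩
      have h1 : u ∈ Q := h u hu hnear
      exact ⟨eGD f ⟨u, hu⟩, ⟨⟨u, hu⟩, hQC ⟨u, hu⟩ h1, rfl⟩, rfl⟩
    have hidx : (C.map (eGD f : GD f →* SUD f)).index ≠ 0 := by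
      have := Subgroup.index_map_of_bijective (f := (eGD f : GD f →* SUD f)) (eGD f).bijective C
      rw [this]
      exact hCi.index_ne_zero
    obtain ⟨m, hm⟩ := solvable_of_pf hS hn hdeg f B _ hidx hT hPF
    apply hCs
    rw [isSolvable_quotient_iff]
    refine ⟨m, fun g hg => ?_⟩
    have h2 : eGD f g ∈ derivedSeries (SUD f) m := by
      rw [← map_derivedSeries_eq (f := (eGD f : GD f →* SUD f)) (eGD f).surjective m]
      exact ⟨g, hg, rfl⟩
    obtain ⟨g', hg', h3⟩ := hm h2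
    rwa [(eGD f).injective h3] at hg'

end final

end Vale.Agent.P011.H976
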