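import Mathlib.GroupTheory.Index
import Mathlib.GroupTheory.QuotientGroup.Finite
import Mathlib.GroupTheory.Commutator.Basic
import Mathlib.Order.Filter.Prod
import Mathlib.Algebra.Group.Pointwise.Set.Basic
import Mathlib.Algebra.Group.Subgroup.Pointwise
import Mathlib.Tactic.Group

/-!
Discrete cocompact subgroups are generated, up to neighbourhoods of one, by finitely many elements.

`mem_closure_of_cover`: `ι : Γ → 𝔾` a homomorphism with `𝔾 = ι(Γ) C`; every element of `Γ` whose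
image lies in the subgroup generated by `K` is a product of elements with image in `C K C⁻¹`.
-/

open Pointwise

namespace Vale.Agent.P011.H976

/-- The generation argument of Milnor and Švarc, in the form for a part `closure K` of the ambient
group. -/
theorem mem_closure_of_cover {Γ 𝔾 : Type*} [Group Γ] [Group 𝔾] (ι : Γ →* 𝔾) {C K : Set 𝔾}
    (hC1 : (1 : 𝔾) ∈ C) (hC : ∀ g : 𝔾, ∃ γ : Γ, ∃ c ∈ C, ι γ * c = g) (hK1 : (1 : 𝔾) ∈ K)
    {γ : Γ} (hγ : ι γ ∈ Subgroup.closure K) :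
    γ ∈ Subgroup.closure {x : Γ | ι x ∈ C * K * C⁻¹} := by
  set X : Set Γ := {x : Γ | ι x ∈ C * K * C⁻¹} with hX
  suffices H : ∀ w ∈ Subgroup.closure K, ∀ γ' : Γ, ∀ c ∈ C, ι γ' * c = w →
      γ' ∈ Subgroup.closure X from H _ hγ γ 1 hC1 (mul_one _)
  intro w hw
  induction hw using Subgroup.closure_induction_right with
  | one =>
    intro γ' c hc h
    apply Subgroup.subset_closure
    rw [hX, Set.mem_ofPred_eq, eq_inv_of_mul_eq_one_left h, ← one_mul c⁻¹, ← one_mul (1 : 𝔾)]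
    exact Set.mul_mem_mul (Set.mul_mem_mul hC1 hK1) (Set.inv_mem_inv.mpr hc)
  | mul_right x hx y hy ih =>
    intro γ' c hc h
    obtain ⟨γ₀, c₀, hc₀, h0⟩ := hC x
    have h1 : γ₀ ∈ Subgroup.closure X := ih γ₀ c₀ hc₀ h0
    have h2 : γ₀⁻¹ * γ' ∈ X := by
      rw [hX, Set.mem_ofPred_eq, map_mul, map_inv]
      have h3 : (ι γ₀)⁻¹ * ι γ' = c₀ * y * c⁻¹ := by
        have h4 : ι γ' = x * y * c⁻¹ := by rw [← h]; group
        rw [h4, ← h0]; group
      rw [h3]
      exact Set.mul_mem_mul (Set.mul_mem_mul hc₀ hy) (Set.inv_mem_inv.mpr hc)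
    have h5 := Subgroup.mul_mem _ h1 (Subgroup.subset_closure h2)
    rwa [mul_inv_cancel_left] at h5
  | mul_inv_cancel x hx y hy ih =>
    intro γ' c hc h
    obtain ⟨γ₀, c₀, hc₀, h0⟩ := hC x
    have h1 : γ₀ ∈ Subgroup.closure X := ih γ₀ c₀ hc₀ h0
    have h2 : γ'⁻¹ * γ₀ ∈ X := by
      rw [hX, Set.mem_ofPred_eq, map_mul, map_inv]
      have h3 : (ι γ')⁻¹ * ι γ₀ = c * y * c₀⁻¹ := by
        have h4 : ι γ' = x * y⁻¹ * c⁻¹ := by rw [← h]; group
        have h5 : ι γ₀ = x * c₀⁻¹ := by rw [← h0]; group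
        rw [h4, h5]; group
      rw [h3]
      exact Set.mul_mem_mul (Set.mul_mem_mul hc hy) (Set.inv_mem_inv.mpr hc₀)
    have h5 := Subgroup.mul_mem _ h1 (Subgroup.inv_mem _ (Subgroup.subset_closure h2))
    rwa [mul_inv_rev, inv_inv, mul_inv_cancel_left] at h5

end Vale.Agent.P011.H976
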