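import Vale.Agent.P011.H976.Gen

/-!
Neighbourhood filters of one (`levels`) on a group `Γ` with a group `U` of automorphisms, and the
finiteness of the set of homomorphisms to a finite group such that the image of every neighbourhood
of one has trivial centralizer.
-/

open Filter Pointwise

namespace Vale.Agent.P011.H976

variable {Γ : Type*} [Group Γ]

/-- `F` is a filter of neighbourhoods of one (`levels`). -/
structure Lev (F : Filter Γ) : Prop where
  one : ∀ L ∈ F, (1 : Γ) ∈ L
  mul : ∀ L ∈ F, ∃ L' ∈ F, ∀ x ∈ L', ∀ y ∈ L', x * y ∈ L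
  conj : ∀ g : Γ, ∀ L ∈ F, {x | g * x * g⁻¹ ∈ L} ∈ F

/-- Some finite set generates a neighbourhood of one. -/
def FG (F : Filter Γ) : Prop :=
  ∃ X : Set Γ, X.Finite ∧ (Subgroup.closure X : Set Γ) ∈ F

section full

variable {F : Filter Γ} {A : Type*} [Group A]

/-- The image of every neighbourhood of one has trivial centralizer. -/
def IsFull (F : Filter Γ) (φ : Γ →* A) : Prop :=
  ∀ L ∈ F, ∀ a : A, (∀ g ∈ L, a * φ g = φ g * a) → a = 1

/-- Full homomorphisms which agree on a neighbourhood of one are equal. -/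
theorem IsFull.eq_of_eqOn (hF : Lev F) {φ ψ : Γ →* A} (hφ : IsFull F φ) {L : Set Γ}
    (hL : L ∈ F) (h : ∀ g ∈ L, φ g = ψ g) : φ = ψ := by
  ext g
  have h1 : L ∩ {x | g * x * g⁻¹ ∈ L} ∈ F := Filter.inter_mem hL (hF.conj g L hL)
  have h2 := hφ _ h1 ((ψ g)⁻¹ * φ g) (fun x hx => by
    have h3 := h (g * x * g⁻¹) (by simpa using hx.2)
    rw [map_mul, map_mul, map_mul, map_mul, map_inv, map_inv, ← h x hx.1] at h3
    have h4 : φ g * φ x = ψ g * φ x * (ψ g)⁻¹ * φ g := by rw [← h3]; group
    rw [mul_assoc, h4]; group)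
  rw [inv_mul_eq_one] at h2
  exact h2.symm

/-- **Finiteness.** There are only finitely many full homomorphisms to a finite group. -/
theorem finite_full [Finite A] (hF : Lev F) (hX : FG F) :
    {φ : Γ →* A | IsFull F φ}.Finite := by
  obtain ⟨X, hXf, hX⟩ := hX
  have : Finite X := hXf
  let r : {φ : Γ →* A | IsFull F φ} → (X → A) := fun φ x => φ.1 x
  have hr : Function.Injective r := by
    rintro ⟨φ, hφ⟩ ⟨ψ, hψ⟩ h
    apply Subtype.ext
    refine hφ.eq_of_eqOn hF hX fun g hg => ?_
    exact MonoidHom.eqOn_closure (f := φ) (g := ψ) (s := X) (fun x hx => congrFun h ⟨x, hx⟩) hg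
  exact Finite.of_injective r hr

end full

end Vale.Agent.P011.H976
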