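import Vale.Agent.P011.H976.Solv
import Mathlib.GroupTheory.SpecificGroups.Cyclic

/-!
Chief factors next to one on which the group acts trivially.
-/

open Filter Pointwise commutatorElement

namespace Vale.Agent.P011.H976

universe u

section abs

variable {Γ : Type*} [Group Γ] {F : Filter Γ}

/-- If the elements close to one act trivially modulo `M`, and `H` is the hull of `M`, then
`⁅Γ, H⁆ ≤ M`. -/
theorem comm_le_of_hull {M H : Subgroup Γ} [M.Normal] (hH : IsHull F M H) {V : Set Γ}
    (hV : V ∈ F) (h : ∀ g : Γ, ∀ v ∈ V, ⁅g, v⁆ ∈ M) : ∀ g : Γ, ∀ x ∈ H, ⁅g, x⁆ ∈ M := by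
  have hc : ∀ x : Γ, x ∈ (Subgroup.center (Γ ⧸ M)).comap (QuotientGroup.mk' M) ↔
      ∀ g : Γ, ⁅g, x⁆ ∈ M := by
    intro x
    rw [Subgroup.mem_comap, Subgroup.mem_center_iff]
    constructor
    · intro h1 g
      have h2 := h1 (QuotientGroup.mk' M g)
      rw [← QuotientGroup.eq_one_iff]
      change QuotientGroup.mk' M ⁅g, x⁆ = 1
      rw [map_commutatorElement, commutatorElement_eq_one_iff_mul_comm]
      exact h2
    · intro h1 y
      obtain ⟨g, rfl⟩ := QuotientGroup.mk'_surjective M y
      rw [← commutatorElement_eq_one_iff_mul_comm, ← map_commutatorElement]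
      exact (QuotientGroup.eq_one_iff _).mpr (h1 g)
  have h1 : H ≤ (Subgroup.center (Γ ⧸ M)).comap (QuotientGroup.mk' M) := by
    refine hH.least _ (fun m hm => ?_) (Filter.mem_of_superset hV fun x hx => ?_)
    · rw [hc]
      intro g
      rw [commutatorElement_def]
      exact M.mul_mem ((inferInstance : M.Normal).conj_mem _ hm g) (M.inv_mem hm)
    · rw [SetLike.mem_coe, hc]
      exact fun g => h g x hx
  exact fun g x hx => (hc x).mp (h1 hx) g

/-- A central chief factor has prime order. -/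
theorem relIndex_prime {M H : Subgroup Γ} [M.FiniteIndex] (hMH : M ≤ H) (hne : M ≠ H)
    (hmax : ∀ K : Subgroup Γ, K.Normal → M ≤ K → K ≤ H → K = M ∨ K = H)
    (hc : ∀ g : Γ, ∀ x ∈ H, ⁅g, x⁆ ∈ M) : (M.relIndex H).Prime := by
  -- subgroups in between are normal
  have hnorm : ∀ K : Subgroup Γ, M ≤ K → K ≤ H → K.Normal := by
    intro K h1 h2
    refine ⟨fun x hx g => ?_⟩
    have h3 : g * x * g⁻¹ = ⁅g, x⁆ * x := by rw [commutatorElement_def]; group
    rw [h3]
    exact K.mul_mem (h1 (hc g x (h2 hx))) hx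
  have hMn : (M.subgroupOf H).Normal := ⟨fun x hx g => by
    rw [Subgroup.mem_subgroupOf] at hx ⊢
    have h3 : ((g * x * g⁻¹ : H) : Γ) = ⁅(g : Γ), (x : Γ)⁆ * x := by
      rw [commutatorElement_def]; push_cast; group
    rw [h3]
    exact M.mul_mem (hc _ _ x.2) hx⟩
  have hfi : Finite (H ⧸ M.subgroupOf H) := by
    have : (M.subgroupOf H).FiniteIndex := inferInstance
    exact Subgroup.finite_quotient_of_finiteIndex
  let _ : CommGroup (H ⧸ M.subgroupOf H) :=
    { (inferInstance : Group (H ⧸ M.subgroupOf H)) with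
      mul_comm := by
        intro a b
        obtain ⟨x, rfl⟩ := QuotientGroup.mk'_surjective _ a
        obtain ⟨y, rfl⟩ := QuotientGroup.mk'_surjective _ b
        have h1 : ⁅(x : H), y⁆ ∈ M.subgroupOf H := by
          rw [Subgroup.mem_subgroupOf]
          have h2 : ((⁅x, y⁆ : H) : Γ) = ⁅(x : Γ), (y : Γ)⁆ := by
            rw [commutatorElement_def, commutatorElement_def]; push_cast; rfl
          rw [h2]
          exact hc _ _ y.2
        have h3 := (QuotientGroup.eq_one_iff _).mpr h1
        change QuotientGroup.mk' (M.subgroupOf H) ⁅x, y⁆ = 1 at h3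
        rw [map_commutatorElement, commutatorElement_eq_one_iff_mul_comm] at h3
        exact h3 }
  have hs : IsSimpleGroup (H ⧸ M.subgroupOf H) := by
    refine { exists_pair_ne := ?_, eq_bot_or_eq_top_of_normal := ?_ }
    · obtain ⟨x, hx, hxM⟩ : ∃ x ∈ H, x ∉ M := by
        by_contra hcon
        push Not at hcon
        exact hne (le_antisymm hMH hcon)
      refine ⟨QuotientGroup.mk' _ ⟨x, hx⟩, 1, fun h => hxM ?_⟩
      exact Subgroup.mem_subgroupOf.mp ((QuotientGroup.eq_one_iff _).mp h)
    · intro S _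
      let K : Subgroup Γ := (S.comap (QuotientGroup.mk' (M.subgroupOf H))).map H.subtype
      have hMK : M ≤ K := by
        intro x hx
        refine ⟨⟨x, hMH hx⟩, ?_, rfl⟩
        rw [SetLike.mem_coe, Subgroup.mem_comap]
        have : QuotientGroup.mk' (M.subgroupOf H) ⟨x, hMH hx⟩ = 1 :=
          (QuotientGroup.eq_one_iff _).mpr (Subgroup.mem_subgroupOf.mpr hx)
        rw [this]
        exact S.one_mem
      have hKH : K ≤ H := by
        rintro _ ⟨x, -, rfl⟩
        exact x.2
      rcases hmax K (hnorm K hMK hKH) hMK hKH with h1 | h1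
      · left
        rw [eq_bot_iff]
        intro y hy
        obtain ⟨x, rfl⟩ := QuotientGroup.mk'_surjective _ y
        have h2 : (x : Γ) ∈ K := ⟨x, hy, rfl⟩
        rw [h1] at h2
        rw [Subgroup.mem_bot]
        exact (QuotientGroup.eq_one_iff _).mpr (Subgroup.mem_subgroupOf.mpr h2)
      · right
        rw [eq_top_iff]
        intro y _
        obtain ⟨x, rfl⟩ := QuotientGroup.mk'_surjective _ y
        have h2 : (x : Γ) ∈ K := by rw [h1]; exact x.2
        obtain ⟨z, hz, hzx⟩ := h2
        have h3 : z = x := Subtype.ext hzx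
        rw [← h3]
        exact hz
  exact IsSimpleGroup.prime_card

end abs

variable {U : Type u} [Group U] (G : Subgroup U) [G.Normal] {F : Filter U}

/-- **The reduction.** If there is no target, and the elements close to one act trivially on the
abelian chief factors next to one, then a normal subgroup of finite index which is not a
neighbourhood of one is contained in a normal subgroup of prime index of its hull, on whose
quotient the group acts trivially. -/
theorem exists_central (hG : (G : Set U) ∈ F) (hF : Lev F)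
    (hX : ∃ X : Set G, X.Finite ∧ (Subgroup.closure X : Set G) ∈ Fc G F)
    (hcore : ∀ (E : Type u) (_ : Group E) (c : U →* E) (R : Subgroup E), Target0 F c R →
      (∀ u : U, (∀ g ∈ G, u * g = g * u) → c u = 1) → False)
    (N : Subgroup G) [N.Normal] [N.FiniteIndex] (hN : (N : Set G) ∉ Fc G F)
    (hRH : ∀ M H : Subgroup G, M.Normal → H.Normal → M.FiniteIndex → (H : Set G) ∈ Fc G F →
      M ≤ H → ⁅H, H⁆ ≤ M → ∃ V ∈ Fc G F, ∀ g : G, ∀ v ∈ V, ⁅g, v⁆ ∈ M) :
    ∃ M H : Subgroup G, M.Normal ∧ H.Normal ∧ N ≤ M ∧ IsHull (Fc G F) M H ∧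
      (M : Set G) ∉ Fc G F ∧ (M.relIndex H).Prime ∧ ∀ g : G, ∀ x ∈ H, ⁅g, x⁆ ∈ M := by
  rcases exists_target G hG hF hX N hN with ⟨E, iE, c, R, hT, hc⟩ |
    ⟨M, H, hMn, hHn, hNM, hMf, hMH, hMF, hmax, hab⟩
  · exact (hcore E iE c R hT.toTarget0 hc).elim
  · obtain ⟨V, hV, h⟩ := hRH M H hMn hHn hMf hMH.mem hMH.le hab
    have h1 := comm_le_of_hull hMH hV h
    refine ⟨M, H, hMn, hHn, hNM, hMH, hMF, ?_, h1⟩
    exact relIndex_prime hMH.le (fun h2 => hMF (h2 ▸ hMH.mem)) hmax h1

end Vale.Agent.P011.H976
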