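import Vale.Agent.P011.H976.FG
import Vale.Agent.P011.H63.SplitNF

/-!
**Number fields: every finite quotient of `SU_1(D, *)` is solvable**, from the core and strong
approximation at one completely split place.
-/

open NumberField IsDedekindDomain Module Filter

set_option linter.unusedSectionVars false

namespace Vale.Agent.P011.H976

open Vale.Agent.P011.Arith Vale.Agent.P011.Even Vale.Agent.P011.Two Vale.Agent.P011.One
  Vale.Agent.P011.H182

variable {k K D : Type} [Field k] [NumberField k] [Field K] [NumberField K] [StarRing K]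
  [DivisionRing D] [StarRing D] [Algebra k K] [Algebra k D] [Algebra K D] [IsScalarTower k K D]
  {d : kˣ} {s : K} {Ω : Type} [Field Ω] [Algebra K Ω] {n M : ℕ}

/-- At a place where the algebra splits, `d` is a square. -/
theorem ls_of_splAt (hS : Setting k K D d s) {v : HeightOneSpectrum (𝓞 k)}
    {φ : K →+* v.adicCompletion k} {f0 : D →+* Matrix (Fin n) (Fin n) (v.adicCompletion k)}
    (h : SplAt K D n v φ f0) : d ∈ LS (v.valuation k) := by
  rw [← isSquare_iff]
  refine ⟨φ s, ?_⟩
  rw [← map_mul, ← sq, hS.sq, h.base]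

/-- The statement of the core at the place `q`. -/
def CoreAt (f : D →ₐ[K] Matrix (Fin n) (Fin n) Ω) (B : Basis (Fin M) k D)
    (q : HeightOneSpectrum (𝓞 k)) : Prop :=
  ∀ (E : Type) (_ : Group E) (c : UD D →* E) (R : Subgroup E),
    Target0 (lvF f B {q}) c R → (∀ u : UD D, (∀ g ∈ GD f, u * g = g * u) → c u = 1) → False

/-- Strong approximation for the normal subgroups of the unitary group which lie in the special
unitary group. -/
def SAAt (f : D →ₐ[K] Matrix (Fin n) (Fin n) Ω) (B : Basis (Fin M) k D)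
    (q : HeightOneSpectrum (𝓞 k)) : Prop :=
  ∀ Q : Subgroup (UD D), Q.Normal → Q ≤ GD f → (Q : Set (UD D)) ∈ lvF f B {q} →
    (Q : Set (UD D)) ∈ nrF f B

/-- **The reduction of the theorem on solvable quotients.** -/
theorem t1_of (hS : Setting k K D d s) (hn : 3 ≤ n) (hdeg : finrank K D = n ^ 2)
    (f : D →ₐ[K] Matrix (Fin n) (Fin n) Ω) (B : Basis (Fin M) k D)
    (T : Set (HeightOneSpectrum (𝓞 k))) (hT : T.Finite)
    (h : ∀ (q : HeightOneSpectrum (𝓞 k)) (φ : K →+* q.adicCompletion k)
      (f0 : D →+* Matrix (Fin n) (Fin n) (q.adicCompletion k)), q ∉ T → SplAt K D n q φ f0 →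
      CoreAt f B q ∧ SAAt f B q)
    (N : Subgroup (SUD f)) [N.Normal] (hi : N.index ≠ 0) : Group.IsSolvable (SUD f ⧸ N) := by
  have := hS.fin
  have := hS.cen
  have hTd : (Sum.inl ⁻¹' Tdiv k K D : Set (HeightOneSpectrum (𝓞 k))).Finite :=
    (Vale.Agent.P011.Pow.tdiv_finite (by omega) hdeg).preimage Sum.inl_injective.injOn
  obtain ⟨q, hqT, φ, f0, hq⟩ := H63.exists_splAt hS (by omega) hdeg
    (T ∪ Sum.inl ⁻¹' Tdiv k K D) (hT.union hTd)
  rw [Set.mem_union, not_or] at hqT
  obtain ⟨hc, hsa⟩ := h q φ f0 hqT.1 hq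
  exact solvable_of_core hS hn hdeg f B {q} hsa
    (fg_lvF hS (by omega) hdeg f B q (ls_of_splAt hS hq) hqT.2) hc N hi

end Vale.Agent.P011.H976
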