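import Vale.Agent.P011.H416.CoreNF

/-!
**Number fields: the normal subgroups of finite index which are not open, and the passage from the
solvable step to the conjecture.**
-/

open NumberField IsDedekindDomain Module Filter
open scoped commutatorElement

set_option linter.unusedSectionVars false

namespace Vale.Agent.P011.H976

open Vale.Agent.P011.Arith Vale.Agent.P011.Even Vale.Agent.P011.Two Vale.Agent.P011.One
  Vale.Agent.P011.Pow

section one

variable {k K D : Type} [Field k] [NumberField k] [Field K] [NumberField K] [StarRing K]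
  [DivisionRing D] [StarRing D] [Algebra k K] [Algebra k D] [Algebra K D] [IsScalarTower k K D]
  {d : kˣ} {s : K} {Ω : Type} [Field Ω] [Algebra K Ω] {n M : ℕ}

/-- **The normal subgroups of finite index which are not open.** -/
theorem plus_nf (hS : Setting k K D d s) (hn : 3 ≤ n) (hdeg : finrank K D = n ^ 2)
    (f : D →ₐ[K] Matrix (Fin n) (Fin n) Ω) (B : Basis (Fin M) k D)
    (hRH : RHAt k f B) (N : Subgroup (SUD f)) [N.Normal] (hi : N.index ≠ 0) :
    PF B (GU f) (Im N) (Tdiv k K D) ∨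
      ∃ Q H : Subgroup (SUD f), Q.Normal ∧ H.Normal ∧ N ≤ Q ∧ Q ≤ H ∧
        PF B (GU f) (Im H) (Tdiv k K D) ∧ (Q.relIndex H).Prime ∧
        (∀ g : SUD f, ∀ x ∈ H, ⁅g, x⁆ ∈ Q) ∧
        ∀ V : Subgroup (SUD f), PF B (GU f) (Im V) (Tdiv k K D) → H ≤ Q ⊔ V :=
  plus_of_core hS hn hdeg f B ∅ Set.finite_empty
    (fun _ _ _ _ h => H416.core_nf hS (by omega) hdeg f B h) hRH N hi

/-- The solvable step: a central quotient of prime order of an open normal subgroup is not given by
a dense subgroup. -/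
def SolvAt (k : Type) {K D Ω : Type} [Field k] [NumberField k] [Field K] [DivisionRing D]
    [StarRing D] [Algebra k K] [Algebra k D] [Algebra K D] [Field Ω] [Algebra K Ω] {n M : ℕ}
    (f : D →ₐ[K] Matrix (Fin n) (Fin n) Ω) (B : Basis (Fin M) k D) : Prop :=
  ∀ Q H : Subgroup (SUD f), Q.Normal → H.Normal → Q ≤ H → Q.index ≠ 0 →
    PF B (GU f) (Im H) (Tdiv k K D) → (Q.relIndex H).Prime →
    (∀ g : SUD f, ∀ x ∈ H, ⁅g, x⁆ ∈ Q) →
    (∀ V : Subgroup (SUD f), PF B (GU f) (Im V) (Tdiv k K D) → H ≤ Q ⊔ V) → False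

/-- It is enough that the subgroup is open. -/
theorem solvAt_of_pf {f : D →ₐ[K] Matrix (Fin n) (Fin n) Ω} {B : Basis (Fin M) k D}
    (h : ∀ Q H : Subgroup (SUD f), Q.Normal → H.Normal → Q ≤ H → Q.index ≠ 0 →
      PF B (GU f) (Im H) (Tdiv k K D) → (Q.relIndex H).Prime →
      (∀ g : SUD f, ∀ x ∈ H, ⁅g, x⁆ ∈ Q) → PF B (GU f) (Im Q) (Tdiv k K D)) :
    SolvAt k f B := by
  intro Q H hQ hH hQH hi hpf hp hc hV
  have h1 := hV Q (h Q H hQ hH hQH hi hpf hp hc)
  rw [sup_idem] at h1
  rw [Subgroup.relIndex_eq_one.mpr h1] at hp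
  exact Nat.not_prime_one hp

/-- **The openness of the normal subgroups of finite index from the solvable step.** -/
theorem tdiv_of_solv (hS : Setting k K D d s) (hn : 3 ≤ n) (hdeg : finrank K D = n ^ 2)
    (f : D →ₐ[K] Matrix (Fin n) (Fin n) Ω) (B : Basis (Fin M) k D)
    (hRH : RHAt k f B) (hsolv : SolvAt k f B) (N : Subgroup (SUD f)) [N.Normal]
    (hi : N.index ≠ 0) : PF B (GU f) (Im N) (Tdiv k K D) := by
  rcases plus_nf hS hn hdeg f B hRH N hi with h | ⟨Q, H, hQ, hH, hNQ, hQH, hpf, hp, hc, hV⟩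
  · exact h
  · exact (hsolv Q H hQ hH hQH (fun h0 => hi (by
      have := Subgroup.index_dvd_of_le hNQ
      rw [h0, zero_dvd_iff] at this
      exact this)) hpf hp hc hV).elim

end one

/-- The solvable step in every division algebra of degree `n`. -/
def Solv (n : ℕ) : Prop :=
  ∀ (k K D : Type) [Field k] [NumberField k] [Field K] [NumberField K] [StarRing K]
    [DivisionRing D] [StarRing D] [Algebra k K] [Algebra k D] [Algebra K D] [IsScalarTower k K D]
    (d : kˣ) (s : K), Setting k K D d s → finrank K D = n ^ 2 →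
    ∀ (Ω : Type) [Field Ω] [Algebra K Ω] (f : D →ₐ[K] Matrix (Fin n) (Fin n) Ω) (M : ℕ)
      (B : Basis (Fin M) k D), SolvAt k f B

/-- The triviality of the action in every division algebra of degree `n`. -/
def RH (n : ℕ) : Prop :=
  ∀ (k K D : Type) [Field k] [NumberField k] [Field K] [NumberField K] [StarRing K]
    [DivisionRing D] [StarRing D] [Algebra k K] [Algebra k D] [Algebra K D] [IsScalarTower k K D]
    (d : kˣ) (s : K), Setting k K D d s → finrank K D = n ^ 2 →
    ∀ (Ω : Type) [Field Ω] [Algebra K Ω] (f : D →ₐ[K] Matrix (Fin n) (Fin n) Ω) (M : ℕ)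
      (B : Basis (Fin M) k D), RHAt k f B

/-- **The conjecture in degree `n` from the solvable step in degree `n`.** -/
theorem mp_of_solv {n : ℕ} (hn : 3 ≤ n) (hRH : RH n) (hsolv : Solv n) : MP n := by
  intro k K D _ _ _ _ _ _ _ _ _ _ _ d s hS hdeg Ω _ _ f M B N _ hi
  have := hS.fin
  have := hS.cen
  exact ⟨Tdiv k K D, Vale.Agent.P011.Pow.tdiv_finite (by omega) hdeg,
    tdiv_of_solv hS hn hdeg f B (hRH k K D d s hS hdeg Ω f M B)
      (hsolv k K D d s hS hdeg Ω f M B) N hi⟩

/-- Conversely, the conjecture gives the solvable step. -/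
theorem solv_of_mp {n : ℕ} (hn : 3 ≤ n) (hMP : MP n) : Solv n := by
  intro k K D _ _ _ _ _ _ _ _ _ _ _ d s hS hdeg Ω _ _ f M B
  exact solvAt_of_pf fun Q H _ _ _ hi _ _ _ => hMP.tdiv hS hn hdeg f B Q hi

end Vale.Agent.P011.H976
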