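import Vale.Agent.P011.H976.PlusQ1
import Vale.Agent.P011.H465.NF
import Vale.Agent.P011.H738.LocDensNF

/-!
**Number fields: the dichotomy for the normal subgroups of finite index, without hypotheses.**
-/

open Module NumberField IsDedekindDomain TensorProduct Topology
open scoped commutatorElement

set_option linter.unusedSectionVars false

namespace Vale.Agent.P011.H976

open Vale.Agent.P011.Arith Vale.Agent.P011.Even Vale.Agent.P011.Two Vale.Agent.P011.One
  Vale.Agent.P011.Pow

variable {k K D : Type} [Field k] [NumberField k] [Field K] [NumberField K] [StarRing K]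
  [DivisionRing D] [StarRing D] [Algebra k K] [Algebra k D] [Algebra K D] [IsScalarTower k K D]
  {d : kˣ} {s : K} {Ω : Type} [Field Ω] [Algebra K Ω] {n M : ℕ}

/-- The commutators of unitary elements are dense at the places of `Tdiv`. -/
theorem dc_nf (hS : Setting k K D d s) (hn : 2 ≤ n) (hdeg : finrank K D = n ^ 2)
    (f : D →ₐ[K] Matrix (Fin n) (Fin n) Ω) (B : Basis (Fin M) k D) : H465.DC k f B := by
  have := hS.fin
  have := hS.cen
  have : StarModule K D := ⟨hS.star_smul⟩
  have hs0 : s ≠ 0 := by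
    rintro rfl
    have h1 := hS.sq
    rw [zero_pow two_ne_zero, eq_comm, map_eq_zero] at h1
    exact d.ne_zero h1
  have hne : star s ≠ s := by
    rw [hS.star_s]
    intro h
    exact hs0 (self_eq_neg.mp h.symm)
  intro g hg ε hε
  obtain ⟨c, hc, h1⟩ := H738.nf_exists_commutator_near (k := k) hS.fix
    ⟨s, hne⟩ (by omega) hdeg f (Vale.Agent.P011.Pow.tdiv_finite hn hdeg) subset_rfl B
    (x := ⟨g, hg.1⟩) hg.2 (η := fun _ => ε) (fun _ => hε)
  refine ⟨c, ?_, fun p hp => h1 p hp⟩
  have h2 : (commutator (UD D)).map (UD D).subtype = ⁅UD D, UD D⁆ := by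
    rw [commutator_def, Subgroup.map_commutator, ← MonoidHom.range_eq_map, Subgroup.range_subtype]
  have h3 : H465.UD D = UD D := rfl
  rw [h3, ← h2]
  exact ⟨c, hc, rfl⟩

theorem rhAt_nf (hS : Setting k K D d s) (hn : 2 ≤ n) (hdeg : finrank K D = n ^ 2)
    (f : D →ₐ[K] Matrix (Fin n) (Fin n) Ω) (B : Basis (Fin M) k D) : RHAt k f B :=
  fun H Q _ _ _ hH hab hpow => H465.rh_at hS hn hdeg f B (dc_nf hS hn hdeg f B) H Q hH
    hab hpow

theorem rh_nf {n : ℕ} (hn : 2 ≤ n) : RH n := by
  intro k K D _ _ _ _ _ _ _ _ _ _ _ d s hS hdeg Ω _ _ f M B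
  exact rhAt_nf hS hn hdeg f B

/-- **The conjecture in degree `n` from the solvable step in degree `n`.** -/
theorem mp_of_solv' {n : ℕ} (hn : 3 ≤ n) (hsolv : Solv n) : MP n :=
  mp_of_solv hn (rh_nf (by omega)) hsolv

theorem mp_iff_solv {n : ℕ} (hn : 3 ≤ n) : MP n ↔ Solv n :=
  ⟨solv_of_mp hn, mp_of_solv' hn⟩

end Vale.Agent.P011.H976
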