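import Vale.Agent.P011.H976.AbOfY
import Vale.Agent.P011.H359.Dbl3
import Vale.Agent.P011.H496.Cube
import Vale.Agent.P011.H496.NearVal

/-!
The doubling step: from an antisymmetric element anticommuting with `t` with good local
properties to an element of given reduced norm in the subgroup.
-/

open NumberField IsDedekindDomain Module Polynomial

set_option linter.unusedSectionVars false

namespace Vale.Agent.P011.H976.PY

open Vale.Agent.P011.Arith Vale.Agent.P011.Even Vale.Agent.P011.Two Vale.Agent.P011.One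
open Vale.Agent.P011.Tpl Vale.Agent.P011.Tpl.H541 Vale.Agent.P011.Tpl.H359
open Vale.Agent.P011.Pow hiding exists_x2 nrd_near exists_numbers
open Vale.Agent.P011.W (HasNrd)
open Vale.Agent.P011.H775 (Cub)

section field

/-- The field generated by a noncentral element in degree three. -/
theorem exists_field {K C : Type} [Field K] [NumberField K] [DivisionRing C] [StarRing C] [Algebra K C]
    [FiniteDimensional K C] [Algebra.IsCentral K C] (hC : finrank K C = 3 ^ 2) {γ : C}
    (hγ : γ ∉ Set.range (algebraMap K C)) :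
    ∃ (E : Type) (_ : Field E) (_ : NumberField E) (_ : Algebra K E) (φ : E →ₐ[K] C) (θ : E),
      φ θ = γ ∧ finrank K E = 3 := by
  obtain ⟨E, _, _, _, φ, θ, hθ, -⟩ := Even.exists_gen (finBasis K C) γ
  refine ⟨E, inferInstance, inferInstance, inferInstance, φ, θ, hθ, ?_⟩
  have h1 : finrank K E = finrank K φ.range :=
    (AlgEquiv.ofInjective φ φ.injective).toLinearEquiv.finrank_eq
  rw [h1]
  refine H929.finrank_eq_of_ne Nat.prime_three hC ?_ ?_
  · intro h
    have h2 : γ ∈ φ.range := ⟨θ, hθ⟩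
    rw [h] at h2
    exact hγ (Algebra.mem_bot.mp h2)
  · intro h
    apply hγ
    have h2 : γ ∈ Subalgebra.center K C := by
      rw [Subalgebra.mem_center_iff]
      intro y
      have h3 : y ∈ φ.range := by rw [h]; exact Algebra.mem_top
      obtain ⟨x, rfl⟩ := h3
      rw [← hθ]
      change φ x * φ θ = φ θ * φ x
      rw [← map_mul, ← map_mul, mul_comm]
    exact Algebra.mem_bot.mp (Algebra.IsCentral.out h2)

end field

section loc

variable {K E : Type} [Field K] [NumberField K] [Field E] [NumberField E] [Algebra K E]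

/-- Multiplication by a cube. -/
theorem loc_cube (hE : finrank K E = 3) {V : HeightOneSpectrum (𝓞 K)} {ν μ : K} (hμ : μ ≠ 0)
    {γ : Z0} (h : ∃ e : E, V.valuation K (ν / Algebra.norm K e - 1) < γ) :
    ∃ e : E, V.valuation K (ν * μ ^ 3 / Algebra.norm K e - 1) < γ := by
  obtain ⟨e, he⟩ := h
  refine ⟨e * algebraMap K E μ, ?_⟩
  rw [map_mul, Algebra.norm_algebraMap, hE, mul_div_mul_right _ _ (pow_ne_zero 3 hμ)]
  exact he

end loc

section small

variable {k D : Type} [Field k] [NumberField k] [DivisionRing D] [Algebra k D]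

/-- The elements `p + u I` close to one. -/
theorem pu_small {N : ℕ} (B : Basis (Fin N) k D) (v : HeightOneSpectrum (𝓞 k)) (I : D) {η : ℝ}
    (hη : 0 < η) {ε1 : Z0} (hε1 : ε1 ≠ 0) : ∃ ε : Z0, ε ≠ 0 ∧ ε ≤ ε1 ∧ ∀ p u : k,
      v.valuation k (p - 1) < ε → v.valuation k u < ε →
      nm B (.inl v) (algebraMap k D p + algebraMap k D u * I - 1) < η := by
  obtain ⟨R, hR⟩ : ∃ R : ℝ, R = nm B (.inl v) (1 : D) + nm B (.inl v) I + 1 := ⟨_, rfl⟩
  have h1 := nm_nonneg B (.inl v : Pl k) (1 : D)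
  have h2 := nm_nonneg B (.inl v : Pl k) I
  have hR0 : 0 < R := by linarith
  obtain ⟨c, hc0, hc⟩ : ∃ c : k, c ≠ 0 ∧ plAbv (.inl v) c < η / R := by
    obtain ⟨π, hπ⟩ := Even.exists_val_lt_one v
    have h3 : plAbv (.inl v : Pl k) (π : k) < 1 := (plAbv_lt_one v _).mpr hπ
    obtain ⟨N, hN⟩ := exists_pow_lt_of_lt_one (div_pos hη hR0) h3
    exact ⟨(π : k) ^ N, pow_ne_zero _ π.ne_zero, by rwa [map_pow]⟩
  refine ⟨min ε1 (v.valuation k c), ?_, min_le_left _ _, fun p u hp hu => ?_⟩
  · rcases min_choice ε1 (v.valuation k c) with h4 | h4 <;> rw [h4]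
    · exact hε1
    · exact (Valuation.ne_zero_iff _).mpr hc0
  · have hp' : plAbv (.inl v) (p - 1) < η / R :=
      ((plAbv_lt v _ _).mpr (hp.trans_le (min_le_right _ _))).trans hc
    have hu' : plAbv (.inl v) u < η / R :=
      ((plAbv_lt v _ _).mpr (hu.trans_le (min_le_right _ _))).trans hc
    have e1 : algebraMap k D p + algebraMap k D u * I - 1 = (p - 1) • (1 : D) + u • I := by
      rw [Algebra.smul_def, Algebra.smul_def, map_sub, map_one, mul_one]
      abel
    rw [e1]
    have e2 := nm_add_le B (.inl v : Pl k) ((p - 1) • (1 : D)) (u • I)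
    rw [nm_smul, nm_smul] at e2
    have e3 : plAbv (.inl v) (p - 1) * nm B (.inl v) (1 : D) ≤ η / R * nm B (.inl v) (1 : D) :=
      mul_le_mul_of_nonneg_right hp'.le h1
    have e4 : plAbv (.inl v) u * nm B (.inl v) I ≤ η / R * nm B (.inl v) I :=
      mul_le_mul_of_nonneg_right hu'.le h2
    have e5 : η / R * nm B (.inl v) (1 : D) + η / R * nm B (.inl v) I = η / R * (R - 1) := by
      rw [hR]; ring
    have e6 : η / R * (R - 1) < η := by
      have e7 : η / R * R = η := div_mul_cancel₀ _ hR0.ne'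
      have e8 : 0 < η / R := div_pos hη hR0
      nlinarith
    linarith

end small

section main

variable {k K D L K' C : Type} [Field k] [NumberField k] [Field K] [NumberField K] [StarRing K]
    [DivisionRing D] [StarRing D] [Algebra k K] [Algebra k D] [Algebra K D] [IsScalarTower k K D]
    [Field L] [NumberField L] [Algebra k L] [Field K'] [StarRing K'] [NumberField K']
    [Algebra K K'] [DivisionRing C] [StarRing C] [Algebra L K'] [Algebra L C] [Algebra K' C]
    [IsScalarTower L K' C] {d : kˣ} {s : K} {t : D} {a : kˣ} {T : L} {jC : C →+* D}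

theorem nu_star (hS : Setting k K D d s)
    (hSC : Setting L K' C (inc k L d) (algebraMap K K' s)) (h : IsCent k K D L K' C t a T jC)
    (ht : t ∈ Xa D a) {p u : k} (hpu : p ^ 2 - (a * d : k) * u ^ 2 = 1) :
    (kk k K K' p + kk k K K' u * om K' s T) * star (kk k K K' p + kk k K K' u * om K' s T) =
      1 := by
  have jν : jC (algebraMap K' C (kk k K K' p + kk k K K' u * om K' s T)) =
      algebraMap k D p + algebraMap k D u * (algebraMap K D s * t) := jC_nu h p u
  apply (algebraMap K' C).injective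
  apply h.inj
  rw [map_mul, map_mul, ← hSC.star_alg, h.star, jν, star_pu hS ht, pu_mul hS ht hpu, map_one,
    map_one]

/-- A larger set of exceptional places. -/
theorem goodJ_mono [Algebra k K'] {CC : Cub K' C} {δ : kˣ} {S S' : Set (HeightOneSpectrum (𝓞 k))}
    (hSS : S ⊆ S') {ν : K'} {j : D} {γ : C} {a1 a2 a3 : k}
    (h : H359.GoodJ k K CC jC δ t S ν j γ a1 a2 a3) :
    H359.GoodJ k K CC jC δ t S' ν j γ a1 a2 a3 :=
  { ne := h.ne
    wt := h.wt
    has := h.has
    gen := h.gen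
    ram := fun F _ _ _ β hβ v hv ω hω => h.ram F β hβ v (fun h' => hv (hSS h')) ω hω
    loc := fun E _ _ _ hE θ hθ hg v hv V hV => h.loc E hE θ hθ hg v (fun h' => hv (hSS h')) V hV }

/-- **From an antisymmetric element with good local properties to an element of given reduced
norm in the subgroup.** -/
theorem exists_y_good [Algebra k K'] [IsScalarTower k K K'] (hS : Setting k K D d s)
    (hSC : Setting L K' C (inc k L d) (algebraMap K K' s)) (h : IsCent k K D L K' C t a T jC)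
    (hdC : finrank K' C = 3 ^ 2) (ht : t ∈ Xa D a) (htK : ∀ c : K, algebraMap K D c ≠ t)
    (CC : Cub K' C) {n : ℕ} {Ω : Type} [Field Ω] [Algebra K Ω]
    (f : D →ₐ[K] Matrix (Fin n) (Fin n) Ω) {M : ℕ} (B : Basis (Fin M) k D)
    (Q : Subgroup (SUD f)) [Q.Normal] (hi : Q.index ≠ 0) :
    ∃ S1 : Set (HeightOneSpectrum (𝓞 k)), S1.Finite ∧
      ∀ S : Set (HeightOneSpectrum (𝓞 k)), S.Finite → S1 ⊆ S →
      ∀ ε : HeightOneSpectrum (𝓞 k) → ℝ, (∀ v, 0 < ε v) →
      ∃ c : HeightOneSpectrum (𝓞 k) → Z0, (∀ v, c v ≠ 0) ∧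
      ∀ (j : D) (γ : C) (e1 e2 e3 p u : k),
        H359.GoodJ k K CC jC (a * d) t S (kk k K K' p + kk k K K' u * om K' s T) j γ e1 e2 e3 →
        p ^ 2 - (a * d : k) * u ^ 2 = 1 →
        (∀ v ∈ S, v.valuation k (p - 1) < c v ∧ v.valuation k u < c v) →
        ∃ y : C, y * star y = 1 ∧ HasNrd K' 3 y (kk k K K' p + kk k K K' u * om K' s T) ∧
          jC y ∈ Im Q ∧ ∀ v ∈ S, nm B (.inl v) (jC y - 1) < ε v := by
  classical
  have i1 := hS.fin
  have i2 := hS.cen
  have i3 := hSC.fin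
  have i4 := hSC.cen
  have hKc : CharZero K := charZero_of_injective_algebraMap (algebraMap k K).injective
  have hK'c : CharZero K' := charZero_of_injective_algebraMap (algebraMap K K').injective
  have hkK : ∀ c : k, algebraMap k K' c = kk k K K' c := fun c =>
    IsScalarTower.algebraMap_apply k K K' c
  have hN := hq1_im (k := k) f Q hi (Nat.pos_of_ne_zero hi) fun g => Subgroup.pow_index_mem _ g
  obtain ⟨S2, hS2, ε1, hε1, hpuQ⟩ := H359.exists_pu_mem hS ht htK (Nat.pos_of_ne_zero hi) hN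
  have hδ0 : (a * d : k) ≠ 0 := mul_ne_zero a.ne_zero d.ne_zero
  refine ⟨S2, hS2, ?_⟩
  intro S hSf hSS ε hε
  -- the constants
  choose ε' hε' hprod using fun v : HeightOneSpectrum (𝓞 k) =>
    near_prod B (.inl v : Pl k) 1 (hε v)
  choose εμ hεμ hεμ1 hμnear using fun v : HeightOneSpectrum (𝓞 k) =>
    pu_small B v (algebraMap K D s * t) (hε' v) (hε1 v)
  obtain ⟨c, hc0, hcub⟩ := H496.exists_cube (a * d : k) hδ0 hSf εμ hεμ
  refine ⟨c, hc0, ?_⟩
  intro j γ e1 e2 e3 p u hG hpu hnear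
  have hj0 := hG.ne
  have hW := hG.wt
  have hEj := hG.has
  -- the fields
  have hγn : ∀ c : K', algebraMap K' C c ≠ γ := hG.gen
  obtain ⟨E, _, _, _, φ, θ, hθ, hE⟩ := exists_field hdC (γ := γ) (by
    rintro ⟨c, hc⟩
    exact hγn c hc)
  have hθj : jC (φ θ) = j * j := by rw [hθ, hEj.sq]
  have hθn : φ θ ∉ Set.range (algebraMap K' C) := by
    rw [hθ]
    rintro ⟨c, hc⟩
    exact hγn c hc
  have hgenE : ∀ c : K', algebraMap K' E c ≠ θ := by
    intro c hc
    exact hγn c (by rw [← hθ, ← hc, AlgHom.commutes])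
  let _ : Algebra k E := ((algebraMap K' E).comp (kk k K K')).toAlgebra
  have hkE : ∀ c : k, algebraMap k E c = algebraMap K' E (kk k K K' c) := fun c => rfl
  have hkφ : ∀ c : k, jC (φ (algebraMap k E c)) = algebraMap k D c := by
    intro c
    rw [hkE, AlgHom.commutes, kk, RingHom.comp_apply, h.jK, ← IsScalarTower.algebraMap_apply]
  obtain ⟨F, _, _, _, ι, β, fr, hgen⟩ := H359.exists_qfr_of hS ht hj0 hW.st hW.an
  let φ' : E →ₗ[k] D :=
    { toFun := fun z => jC (φ z)
      map_add' := fun x y => by rw [map_add, map_add]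
      map_smul' := fun c x => by
        rw [Algebra.smul_def, map_mul, map_mul, hkφ, RingHom.id_apply, Algebra.smul_def] }
  -- the constants which depend on `j`
  choose cj hcj0 hcj using fun v : HeightOneSpectrum (𝓞 k) => H496.near_of_val B φ' v (hε' v)
  have he4 : (4 : k) * (Q.index : k) ^ 4 ≠ 0 :=
    mul_ne_zero (by norm_num) (pow_ne_zero 4 (Nat.cast_ne_zero.mpr hi))
  have he41 : ∀ v : HeightOneSpectrum (𝓞 k), v.valuation k ((4 : k) * (Q.index : k) ^ 4) ≤ 1 := by
    intro v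
    have g1 := Pow.val_nat_le v (4 * Q.index ^ 4)
    push_cast at g1
    exact g1
  have hc2 : ∀ v : HeightOneSpectrum (𝓞 k), ∃ c2 : k, c2 ≠ 0 ∧ v.valuation k c2 ≤ 1 ∧
      v.valuation k c2 ≤ v.valuation k (cj v) ∧
      v.valuation k c2 ≤ v.valuation k ((4 : k) * (Q.index : k) ^ 4) := by
    intro v
    by_cases hcv : v.valuation k (cj v) ≤ 1
    · refine ⟨cj v * (4 * (Q.index : k) ^ 4), mul_ne_zero (hcj0 v) he4, ?_, ?_, ?_⟩
      · rw [map_mul]
        exact mul_le_one' hcv (he41 v)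
      · rw [map_mul]
        exact mul_le_of_le_one_right' (he41 v)
      · rw [map_mul]
        exact mul_le_of_le_one_left' hcv
    · exact ⟨4 * (Q.index : k) ^ 4, he4, he41 v, (he41 v).trans (not_le.mp hcv).le, le_rfl⟩
  choose c2 hc20 hc21 hc2j hc24 using hc2
  have h9 : (9 : k) ≠ 0 := by norm_num
  obtain ⟨P, U, hPU, hPUn, hPU'⟩ := hcub p u hpu hnear (fun v => v.valuation k ((9 * c2 v) ^ 2))
    (fun v => (Valuation.ne_zero_iff _).mpr (pow_ne_zero 2 (mul_ne_zero h9 (hc20 v))))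
  obtain ⟨p', hp'⟩ : ∃ p' : k, p' = p * (P ^ 3 + 3 * (a * d : k) * P * U ^ 2) +
      (a * d : k) * u * (3 * P ^ 2 * U + (a * d : k) * U ^ 3) := ⟨_, rfl⟩
  obtain ⟨u', hu'⟩ : ∃ u' : k, u' = p * (3 * P ^ 2 * U + (a * d : k) * U ^ 3) +
      u * (P ^ 3 + 3 * (a * d : k) * P * U ^ 2) := ⟨_, rfl⟩
  rw [← hp', ← hu'] at hPU'
  have hpu' : p' ^ 2 - (a * d : k) * u' ^ 2 = 1 := by
    have g1 : (p ^ 2 - (a * d : k) * u ^ 2) * (P ^ 2 - (a * d : k) * U ^ 2) ^ 3 = 1 := by
      rw [hpu, hPU]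
      norm_num
    rw [hp', hu']
    linear_combination g1
  obtain ⟨ν, hν⟩ : ∃ ν : K', ν = kk k K K' p + kk k K K' u * om K' s T := ⟨_, rfl⟩
  obtain ⟨μ, hμ⟩ : ∃ μ : K', μ = kk k K K' P + kk k K K' U * om K' s T := ⟨_, rfl⟩
  have hom : om K' s T * om K' s T = kk k K K' (a * d) := om_sq hS h
  have hνμ : kk k K K' p' + kk k K K' u' * om K' s T = ν * μ ^ 3 := by
    rw [hν, hμ, hp', hu']
    simp only [map_add, map_mul, map_pow, map_ofNat] at hom ⊢
    linear_combination (-((kk k K K' p + kk k K K' u * om K' s T) *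
      (3 * kk k K K' P * kk k K K' U ^ 2 + kk k K K' U ^ 3 * om K' s T) +
      kk k K K' u * (3 * kk k K K' P ^ 2 * kk k K K' U +
        kk k K K' a * kk k K K' d * kk k K K' U ^ 3))) * hom
  have hμs : μ * star μ = 1 := by
    rw [hμ]
    exact nu_star hS hSC h ht hPU
  have hμ0 : μ ≠ 0 := left_ne_zero_of_mul_eq_one hμs
  -- the local norms
  have hval3 : ∀ v : HeightOneSpectrum (𝓞 k), v.valuation k (3 : k) ≤ 1 := fun v => by
    simpa using Pow.val_nat_le v 3
  have hval9 : ∀ v : HeightOneSpectrum (𝓞 k), v.valuation k (9 : k) ≤ 1 := fun v => by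
    simpa using Pow.val_nat_le v 9
  have hI : om K' s T * om K' s T = algebraMap k K' (a * d : k) := by rw [hom, hkK]
  have hνk : ν = algebraMap k K' p + algebraMap k K' u * om K' s T := by rw [hν, hkK, hkK]
  have hcay : θ ^ 3 - algebraMap K' E (algebraMap k K' e1) * θ ^ 2 +
      algebraMap K' E (algebraMap k K' e2) * θ - algebraMap K' E (algebraMap k K' e3) = 0 := by
    apply phi_ext (φ := φ)
    have g1 := CC.cayley γ
    rw [hEj.T, hEj.S, hEj.N, Algebra.smul_def, Algebra.smul_def, Algebra.smul_def, mul_one] at g1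
    rw [map_sub, map_add, map_sub, map_mul, map_mul, map_pow, map_pow, AlgHom.commutes,
      AlgHom.commutes, AlgHom.commutes, hθ, hkK, hkK, hkK, map_zero, pow_succ, pow_two]
    exact g1
  have hloc : ∀ V : HeightOneSpectrum (𝓞 K'), ∃ e : E,
      V.valuation K' (ν * μ ^ 3 / Algebra.norm K' e - 1) < V.valuation K' ((3 : K') ^ 2) := by
    intro V
    obtain ⟨v, hVv⟩ := Arith.exists_below (F := k) V
    by_cases hv : v ∈ S
    · refine ⟨1, ?_⟩
      rw [map_one, div_one]
      have g1 := nu_near (c := 9 * c2 v) hpu' hI hVv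
        (by rw [map_mul]; exact mul_le_one' (hval9 v) (hc21 v)) (hPU' v hv).1
      rw [hkK, hkK, hνμ] at g1
      refine g1.trans_le ?_
      rw [map_mul, map_mul, map_ofNat, show (9 : K') = 3 ^ 2 by norm_num]
      exact mul_le_of_le_one_right' ((val_le_one_iff hVv _).mpr (hc21 v))
    · refine loc_cube hE hμ0 ?_
      rw [hν]
      exact hG.loc E hE θ hcay hgenE v hv V hVv
  obtain ⟨x, p0, p1, hx1, hx2, hx3, hx4⟩ := exists_y_of_loc hS hSC h hdC ht hj0 hW.st hW.an hkE
    hE hθj hθn fr hgen hpu' (by rw [hνμ]; exact hloc) hSf c2 (fun v _ => ⟨hc20 v, hc21 v⟩)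
    (fun v hv => (hPU' v hv).1.trans_le (by
      rw [mul_pow, mul_pow, map_mul, map_mul, show (9 : k) = 3 * 3 by norm_num, mul_pow, map_mul,
        map_pow (v.valuation k) (3 : k)]
      exact mul_le_mul_left (mul_le_of_le_one_left' (pow_le_one' (hval3 v) 2)) _))
  -- the element belongs to the subgroup
  have hβ : (β : F) ^ 3 - algebraMap k F e1 * (β : F) ^ 2 + algebraMap k F e2 * (β : F) -
      algebraMap k F e3 = 0 := by
    have hιi : Function.Injective ι := (ι : F →+* D).injective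
    apply hιi
    have g1 := H974.cay h hEj
    have g2 : ι (β : F) = j ^ 2 := by rw [← fr.jj, pow_two]
    rw [map_sub, map_add, map_sub, map_mul, map_mul, map_pow, map_pow, AlgHom.commutes,
      AlgHom.commutes, AlgHom.commutes, g2, g1, map_zero, Algebra.smul_def, Algebra.smul_def,
      Algebra.smul_def, mul_one]
    abel
  have hxQ : jC (φ x) ∈ Im Q := by
    refine hN F ι _ _ _ _ _ _ _ _ _ hx3 fun ω hω => ?_
    obtain ⟨v, hωv⟩ := Arith.exists_below (F := k) ω
    by_cases hvS : v ∈ S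
    · refine ((hx4 v hvS).2 ω hωv).trans_le ?_
      have g1 : (4 : F) * (Q.index : F) ^ 4 = algebraMap k F ((4 : k) * (Q.index : k) ^ 4) := by
        rw [map_mul, map_pow, map_natCast, map_ofNat]
      obtain ⟨e, he, hval⟩ := val_above hωv
      rw [g1, hval, hval]
      exact pow_le_pow_left₀ zero_le (hc24 v) e
    · exact absurd (hG.ram F β hβ v hvS ω hωv) hω
  have hμQ : jC (algebraMap K' C μ) ∈ Im Q := by
    rw [hμ, jC_nu h P U]
    exact hpuQ P U hPU fun v hv => ((hPUn v (hSS hv)).1).trans_le (hεμ1 v)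
  obtain ⟨gx, hgx, hgxe⟩ := hxQ
  obtain ⟨gμ, hgμ, hgμe⟩ := hμQ
  have hyE : jC (φ x * algebraMap K' C μ⁻¹) = jC (φ x) * (jC (algebraMap K' C μ))⁻¹ := by
    rw [map_mul, map_inv₀, map_inv₀]
  refine ⟨φ x * algebraMap K' C μ⁻¹, ?_, ?_, ⟨gx * gμ⁻¹, Q.mul_mem hgx (Q.inv_mem hgμ), ?_⟩, ?_⟩
  · have g1 : μ⁻¹ * star μ⁻¹ = 1 := by
      rw [star_inv₀, ← mul_inv, hμs, inv_one]
    rw [star_mul, hSC.star_alg, mul_assoc, ← mul_assoc (algebraMap K' C μ⁻¹), ← map_mul, g1,
      map_one, one_mul, hx2]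
  · have g1 := hx1.mul (hasNrd_alg (C := C) (m := 3) μ⁻¹)
    have g2 : ν * μ ^ 3 * μ⁻¹ ^ 3 = ν := by
      rw [inv_pow, mul_assoc, mul_inv_cancel₀ (pow_ne_zero 3 hμ0), mul_one]
    rw [hνμ, g2] at g1
    rw [← hν]
    exact g1
  · change ((gx : Dˣ) : D) * ((gμ⁻¹ : SUD f) : Dˣ) = _
    have g0 : (((gμ⁻¹ : SUD f) : Dˣ) : D) = (((gμ : SUD f) : Dˣ) : D)⁻¹ :=
      Units.val_inv_eq_inv_val _
    rw [hyE, ← hgxe, ← hgμe, g0]
  · intro v hv
    have g1 : nm B (.inl v) (jC (φ x) - 1) < ε' v := by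
      have g2 := hcj v (x - 1) fun w hw => ((hx4 v hv).1 w hw).trans_le (by
        obtain ⟨e, he, hval⟩ := val_above hw
        rw [hval, hval]
        exact pow_le_pow_left₀ zero_le (hc2j v) e)
      have g3 : φ' (x - 1) = jC (φ x) - 1 := by
        change jC (φ (x - 1)) = _
        rw [map_sub, map_sub, map_one, map_one]
      rwa [g3] at g2
    have g4 : nm B (.inl v) (jC (algebraMap K' C μ) - 1) < ε' v := by
      rw [hμ, jC_nu h P U]
      exact hμnear v P U (hPUn v hv).1 (hPUn v hv).2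
    have g5 := hprod v _ _ 1 g1 g4 (by
      rw [sub_self, nm_zero]
      exact hε' v)
    rw [pow_one, mul_one] at g5
    rw [hyE]
    exact g5

end main

end Vale.Agent.P011.H976.PY
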