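import Vale.Agent.P011.H976.PlusOf
import Vale.Agent.P011.H182.SaNF

/-!
**Number fields: the theorem on the finite quotients of `SU_1(D, *)` from the core.**
-/

open NumberField IsDedekindDomain Module Filter
open scoped commutatorElement

set_option linter.unusedSectionVars false

namespace Vale.Agent.P011.H976

open Vale.Agent.P011.Arith Vale.Agent.P011.Even Vale.Agent.P011.Two Vale.Agent.P011.One
  Vale.Agent.P011.H182

variable {k K D : Type} [Field k] [NumberField k] [Field K] [NumberField K] [StarRing K]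
  [DivisionRing D] [StarRing D] [Algebra k K] [Algebra k D] [Algebra K D] [IsScalarTower k K D]
  {d : kˣ} {s : K} {Ω : Type} [Field Ω] [Algebra K Ω] {n M : ℕ}

/-- Strong approximation. -/
theorem saAt (hS : Setting k K D d s) (hn : 3 ≤ n) (hdeg : finrank K D = n ^ 2)
    (f : D →ₐ[K] Matrix (Fin n) (Fin n) Ω) (B : Basis (Fin M) k D)
    {q : HeightOneSpectrum (𝓞 k)} (hq : (Sum.inl q : Pl k) ∉ Tdiv k K D) : SAAt f B q :=
  fun Q hQ hQG hF => sa_nr hS hn hdeg f B hq Q (fun g _ x hx => hQ.conj_mem x hx g) hQG hF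

/-- **The theorem on solvable quotients, from the core.** -/
theorem t1_of_core (hS : Setting k K D d s) (hn : 3 ≤ n) (hdeg : finrank K D = n ^ 2)
    (f : D →ₐ[K] Matrix (Fin n) (Fin n) Ω) (B : Basis (Fin M) k D)
    (T : Set (HeightOneSpectrum (𝓞 k))) (hT : T.Finite)
    (h : ∀ (q : HeightOneSpectrum (𝓞 k)) (φ : K →+* q.adicCompletion k)
      (f0 : D →+* Matrix (Fin n) (Fin n) (q.adicCompletion k)), q ∉ T → SplAt K D n q φ f0 →
      CoreAt f B q)
    (N : Subgroup (SUD f)) [N.Normal] (hi : N.index ≠ 0) : Group.IsSolvable (SUD f ⧸ N) := by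
  have := hS.fin
  have := hS.cen
  have hTd : (Sum.inl ⁻¹' Tdiv k K D : Set (HeightOneSpectrum (𝓞 k))).Finite :=
    (Vale.Agent.P011.Pow.tdiv_finite (by omega) hdeg).preimage Sum.inl_injective.injOn
  refine t1_of hS hn hdeg f B (T ∪ Sum.inl ⁻¹' Tdiv k K D) (hT.union hTd) (fun q φ f0 hq hs => ?_)
    N hi
  rw [Set.mem_union, not_or] at hq
  exact ⟨h q φ f0 hq.1 hs, saAt hS hn hdeg f B hq.2⟩

/-- **The normal subgroups of finite index which are not open, from the core.** -/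
theorem plus_of_core (hS : Setting k K D d s) (hn : 3 ≤ n) (hdeg : finrank K D = n ^ 2)
    (f : D →ₐ[K] Matrix (Fin n) (Fin n) Ω) (B : Basis (Fin M) k D)
    (T : Set (HeightOneSpectrum (𝓞 k))) (hT : T.Finite)
    (h : ∀ (q : HeightOneSpectrum (𝓞 k)) (φ : K →+* q.adicCompletion k)
      (f0 : D →+* Matrix (Fin n) (Fin n) (q.adicCompletion k)), q ∉ T → SplAt K D n q φ f0 →
      CoreAt f B q)
    (hRH : RHAt k f B) (N : Subgroup (SUD f)) [N.Normal] (hi : N.index ≠ 0) :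
    PF B (GU f) (Im N) (Tdiv k K D) ∨
      ∃ Q H : Subgroup (SUD f), Q.Normal ∧ H.Normal ∧ N ≤ Q ∧ Q ≤ H ∧
        PF B (GU f) (Im H) (Tdiv k K D) ∧ (Q.relIndex H).Prime ∧
        (∀ g : SUD f, ∀ x ∈ H, ⁅g, x⁆ ∈ Q) ∧
        ∀ V : Subgroup (SUD f), PF B (GU f) (Im V) (Tdiv k K D) → H ≤ Q ⊔ V := by
  have := hS.fin
  have := hS.cen
  have hTd : (Sum.inl ⁻¹' Tdiv k K D : Set (HeightOneSpectrum (𝓞 k))).Finite :=
    (Vale.Agent.P011.Pow.tdiv_finite (by omega) hdeg).preimage Sum.inl_injective.injOn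
  obtain ⟨q, hqT, φ, f0, hq⟩ := H63.exists_splAt hS (by omega) hdeg
    (T ∪ Sum.inl ⁻¹' Tdiv k K D) (hT.union hTd)
  rw [Set.mem_union, not_or] at hqT
  exact plus_of hS hn hdeg f B (ls_of_splAt hS hq) hqT.2 (h q φ f0 hqT.1 hq)
    (saAt hS hn hdeg f B hqT.2) hRH N hi

end Vale.Agent.P011.H976
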