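import Vale.Agent.P011.H976.T1Of
import Vale.Agent.P011.H976.Hyp

/-!
**Number fields: the normal subgroups of finite index of `SU_1(D, *)` which are not open**, from
the core, strong approximation and the triviality of the action on abelian quotients.
-/

open NumberField IsDedekindDomain Module Filter
open scoped commutatorElement

set_option linter.unusedSectionVars false

namespace Vale.Agent.P011.H976

open Vale.Agent.P011.Arith Vale.Agent.P011.Even Vale.Agent.P011.Two Vale.Agent.P011.One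
  Vale.Agent.P011.H182

variable {k K D : Type} [Field k] [NumberField k] [Field K] [NumberField K] [StarRing K]
  [DivisionRing D] [StarRing D] [Algebra k K] [Algebra k D] [Algebra K D] [IsScalarTower k K D]
  {d : kˣ} {s : K} {Ω : Type} [Field Ω] [Algebra K Ω] {n M : ℕ}

/-- The elements close to one at the places of `Tdiv` are a neighbourhood of one for the filter of
the levels. -/
theorem near_mem_Fc (f : D →ₐ[K] Matrix (Fin n) (Fin n) Ω) (B : Basis (Fin M) k D)
    {q : HeightOneSpectrum (𝓞 k)} (hqT : Sum.inl q ∉ Tdiv k K D) (hTf : (Tdiv k K D).Finite)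
    {η : Pl k → ℝ} (hη : ∀ p, 0 < η p) :
    {g : GD f | ∀ p ∈ Tdiv k K D, Even.nm B p ((((g : UD D) : Dˣ) : D) - 1) < η p} ∈
      Fc (GD f) (lvF f B {q}) := by
  have hTd : (Sum.inl ⁻¹' Tdiv k K D : Set (HeightOneSpectrum (𝓞 k))).Finite :=
    hTf.preimage Sum.inl_injective.injOn
  obtain ⟨ε, hε, hle⟩ : ∃ ε : ℝ, 0 < ε ∧ ∀ p ∈ Tdiv k K D, ε ≤ η p := by
    classical
    by_cases hne : (Tdiv k K D).Nonempty
    · obtain ⟨p0, hp0, hmin⟩ := Set.exists_min_image (Tdiv k K D) η hTf hne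
      exact ⟨η p0, hη p0, hmin⟩
    · exact ⟨1, one_pos, fun p hp => absurd ⟨p, hp⟩ hne⟩
  have h1 : {g : UD D | ∀ p ∈ Tdiv k K D, Even.nm B p (((g : Dˣ) : D) - 1) < η p} ∈
      lvF f B {q} := by
    refine ⟨Bad B ∪ Sum.inl ⁻¹' Tdiv k K D, (finite_Bad B).union hTd, Set.subset_union_left, ε, hε,
      fun g hg _ p hp => ?_⟩
    obtain ⟨v, rfl, hv⟩ : ∃ v : HeightOneSpectrum (𝓞 k), p = Sum.inl v ∧ Sum.inl v ∈ Tdiv k K D := by
      obtain ⟨v, h1, h2⟩ := hp
      exact ⟨v, h1, v, rfl, h2⟩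
    have hvq : v ∉ ({q} : Set (HeightOneSpectrum (𝓞 k))) := by
      intro h
      rw [Set.mem_singleton_iff] at h
      exact hqT (h ▸ hv)
    exact (hg.1 v (Or.inr hv) hvq).trans_le (hle _ hp)
  exact preimage_mem_Fc h1

/-- A normal subgroup of finite index which is a neighbourhood of one for the filter of the levels
contains the elements close to one at the places of `Tdiv`. -/
theorem pf_of_mem (hS : Setting k K D d s) (hn : 3 ≤ n) (hdeg : finrank K D = n ^ 2)
    (f : D →ₐ[K] Matrix (Fin n) (Fin n) Ω) (B : Basis (Fin M) k D)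
    {q : HeightOneSpectrum (𝓞 k)} (hSA : SAAt f B q)
    (hFG : ∃ X : Set (GD f), X.Finite ∧
      (Subgroup.closure X : Set (GD f)) ∈ Fc (GD f) (lvF f B {q}))
    (C : Subgroup (GD f)) [C.Normal] [C.FiniteIndex]
    (hC : (C : Set (GD f)) ∈ Fc (GD f) (lvF f B {q})) :
    PF B (GU f) (Im (C.map (eGD f : GD f →* SUD f))) (Tdiv k K D) := by
  have hst : ∀ (c : k) (x : D), star (c • x) = c • star x := fun c x => (Setting.sig hS).map_smul c x
  obtain ⟨Q, hQn, hQG, hQF, hQ1, hQC⟩ := mem_of_SA (F₁ := nrF f B) (GD f)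
    (lev_lvF f B hst {q}) (GD_mem_lvF f B {q}) hSA hFG C hC
  obtain ⟨T, hT, η, hη, h⟩ := hQ1
  have hPF : PF B (GU f) (Im (C.map (eGD f : GD f →* SUD f))) T := by
    refine ⟨η, hη, fun g hg hnear => ?_⟩
    have hg0 : g ≠ 0 := left_ne_zero_of_mul_eq_one hg.1
    let u : UD D := ⟨Units.mk0 g hg0, hg.1⟩
    have hu : u ∈ GD f := ⟨hg.1, hg.2⟩
    have h1 : u ∈ Q := h u hu hnear
    exact ⟨eGD f ⟨u, hu⟩, ⟨⟨u, hu⟩, hQC ⟨u, hu⟩ h1, rfl⟩, rfl⟩
  have hidx : (C.map (eGD f : GD f →* SUD f)).index ≠ 0 := by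
    have := Subgroup.index_map_of_bijective (f := (eGD f : GD f →* SUD f)) (eGD f).bijective C
    rw [this]
    exact (inferInstance : C.FiniteIndex).index_ne_zero
  have hnorm : (C.map (eGD f : GD f →* SUD f)).Normal :=
    Subgroup.Normal.map inferInstance _ (eGD f).surjective
  exact pf_tdiv hS hn hdeg f B im_sub one_im (fun _ ha _ hb => mul_im ha hb) hidx
    (fun x hx => pow_im (fun g => Subgroup.pow_index_mem _ g) hx) hT hPF

/-- The group acts trivially on the abelian quotients of open normal subgroups, near one. -/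
def RHAt (k : Type) {K D Ω : Type} [Field k] [NumberField k] [Field K] [DivisionRing D]
    [StarRing D] [Algebra k K] [Algebra k D] [Algebra K D] [Field Ω] [Algebra K Ω] {n M : ℕ}
    (f : D →ₐ[K] Matrix (Fin n) (Fin n) Ω) (B : Basis (Fin M) k D) : Prop :=
  ∀ H Q : Subgroup (SUD f), H.Normal → Q.Normal → Q ≤ H → PF B (GU f) (Im H) (Tdiv k K D) →
    ⁅H, H⁆ ≤ Q → (∃ m : ℕ, m ≠ 0 ∧ ∀ h ∈ H, h ^ m ∈ Q) →
    ∃ η : Pl k → ℝ, (∀ p, 0 < η p) ∧ ∀ v : SUD f,
      (∀ p ∈ Tdiv k K D, Even.nm B p (((v : Dˣ) : D) - 1) < η p) → ∀ g : SUD f, ⁅g, v⁆ ∈ Q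

/-- **The normal subgroups of finite index which are not open.** -/
theorem plus_of (hS : Setting k K D d s) (hn : 3 ≤ n) (hdeg : finrank K D = n ^ 2)
    (f : D →ₐ[K] Matrix (Fin n) (Fin n) Ω) (B : Basis (Fin M) k D)
    {q : HeightOneSpectrum (𝓞 k)} (hq : d ∈ LS (q.valuation k))
    (hqT : Sum.inl q ∉ Tdiv k K D) (hcore : CoreAt f B q) (hSA : SAAt f B q)
    (hRH : RHAt k f B) (N : Subgroup (SUD f)) [N.Normal] (hi : N.index ≠ 0) :
    PF B (GU f) (Im N) (Tdiv k K D) ∨
      ∃ Q H : Subgroup (SUD f), Q.Normal ∧ H.Normal ∧ N ≤ Q ∧ Q ≤ H ∧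
        PF B (GU f) (Im H) (Tdiv k K D) ∧ (Q.relIndex H).Prime ∧
        (∀ g : SUD f, ∀ x ∈ H, ⁅g, x⁆ ∈ Q) ∧
        ∀ V : Subgroup (SUD f), PF B (GU f) (Im V) (Tdiv k K D) → H ≤ Q ⊔ V := by
  have := hS.fin
  have := hS.cen
  have hst : ∀ (c : k) (x : D), star (c • x) = c • star x := fun c x => (Setting.sig hS).map_smul c x
  have hTf : (Tdiv k K D).Finite := Vale.Agent.P011.Pow.tdiv_finite (by omega) hdeg
  have hFG := fg_lvF hS (by omega) hdeg f B q hq hqT
  set e : GD f →* SUD f := (eGD f : GD f →* SUD f) with he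
  have hsur : Function.Surjective e := (eGD f).surjective
  have hinj : Function.Injective e := (eGD f).injective
  have hmapc : ∀ C : Subgroup (GD f), (C.map e).comap e = C := fun C =>
    Subgroup.comap_map_eq_self_of_injective hinj C
  have hcomapm : ∀ C : Subgroup (SUD f), (C.comap e).map e = C := fun C =>
    Subgroup.map_comap_eq_self_of_surjective hsur C
  set N' : Subgroup (GD f) := N.comap e with hN'
  have hN'n : N'.Normal := inferInstance
  have hN'i : N'.FiniteIndex := ⟨by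
    rw [hN', Subgroup.index_comap_of_surjective _ hsur]
    exact hi⟩
  by_cases hNF : (N' : Set (GD f)) ∈ Fc (GD f) (lvF f B {q})
  · left
    have h1 := pf_of_mem hS hn hdeg f B hSA hFG N' hNF
    rwa [hN', ← he, hcomapm] at h1
  · right
    obtain ⟨Q', H', hQ'n, hH'n, hNQ', hhull, -, hprime, hcomm⟩ := exists_central (GD f)
      (GD_mem_lvF f B {q}) (lev_lvF f B hst {q}) hFG hcore N' hNF (by
        intro Q' H' hQ'n hH'n hQ'f hH'F hQH' hab
        have hH'f : H'.FiniteIndex := Subgroup.finiteIndex_of_le hQH'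
        have hpf := pf_of_mem hS hn hdeg f B hSA hFG H' hH'F
        have hQn : (Q'.map e).Normal := Subgroup.Normal.map hQ'n _ hsur
        have hHn : (H'.map e).Normal := Subgroup.Normal.map hH'n _ hsur
        obtain ⟨η, hη, hV⟩ := hRH (H'.map e) (Q'.map e) hHn hQn (Subgroup.map_mono hQH') hpf (by
          rw [← Subgroup.map_commutator]
          exact Subgroup.map_mono hab) ⟨Q'.index, hQ'f.index_ne_zero, by
            rintro _ ⟨h, -, rfl⟩
            rw [← map_pow]
            exact ⟨_, Subgroup.pow_index_mem _ h, rfl⟩⟩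
        refine ⟨_, near_mem_Fc f B hqT hTf hη, fun g v hv => ?_⟩
        have h1 : ⁅e g, e v⁆ ∈ Q'.map e := hV (e v) hv (e g)
        rw [← map_commutatorElement] at h1
        obtain ⟨x, hx, hxe⟩ := h1
        rwa [← hinj hxe])
    have hH'f : H'.FiniteIndex := Subgroup.finiteIndex_of_le (hNQ'.trans hhull.le)
    refine ⟨Q'.map e, H'.map e, Subgroup.Normal.map hQ'n _ hsur, Subgroup.Normal.map hH'n _ hsur,
      ?_, Subgroup.map_mono hhull.le, pf_of_mem hS hn hdeg f B hSA hFG H' hhull.mem, ?_, ?_, ?_⟩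
    · rw [← hcomapm N]
      exact Subgroup.map_mono hNQ'
    · have h1 : (Q'.map e).relIndex (H'.map e) = Q'.relIndex H' := by
        rw [Subgroup.relIndex_map_map_of_injective _ _ hinj]
      rwa [h1]
    · rintro g _ ⟨x, hx, rfl⟩
      obtain ⟨g, rfl⟩ := hsur g
      rw [← map_commutatorElement]
      exact ⟨_, hcomm g x hx, rfl⟩
    · rintro V ⟨η, hη, hV⟩
      have h1 : ((V.comap e : Subgroup (GD f)) : Set (GD f)) ∈ Fc (GD f) (lvF f B {q}) := by
        refine Filter.mem_of_superset (near_mem_Fc f B hqT hTf hη) fun g hg => ?_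
        obtain ⟨x, hx, hxg⟩ := hV ((((g : UD D) : Dˣ)) : D) ⟨(g : UD D).2, (mem_GD f).mp g.2⟩ hg
        rw [SetLike.mem_coe, Subgroup.mem_comap]
        have h2 : x = e g := Subtype.ext (Units.ext hxg)
        rwa [← h2]
      have h2 : H' ≤ Q' ⊔ V.comap e := hhull.least _ le_sup_left
        (Filter.mem_of_superset h1 (SetLike.coe_subset_coe.mpr le_sup_right))
      refine (Subgroup.map_mono h2).trans ?_
      rw [Subgroup.map_sup, hcomapm]

end Vale.Agent.P011.H976
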