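import Vale.Agent.P011.Hey.H63.Hensel

/-!
A polynomial over a henselian valued field whose coefficients have strictly log-concave absolute
values splits, with roots of distinct absolute values.
-/

open Polynomial

namespace Vale.Agent.P011.H976.Newt

section abs

variable {L : Type*} [Field L] {Γ : Type*} [LinearOrderedCommGroupWithZero Γ] (w : Valuation L Γ)

/-- The valuation satisfies Hensel's lemma. -/
def Hen : Prop := ∀ Q : L[X], (∀ j, w (Q.coeff j) ≤ 1) → ∀ a : L, w a ≤ 1 → w (Q.eval a) < 1 →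
  w (Q.derivative.eval a) = 1 → ∃ z : L, Q.eval z = 0 ∧ w (z - a) < 1

variable {w}

theorem val_nat_le (m : ℕ) : w (m : L) ≤ 1 := by
  induction m with
  | zero => rw [Nat.cast_zero, map_zero]; exact zero_le_one
  | succ m ih =>
    rw [Nat.cast_succ]
    exact w.map_add_le ih (by rw [map_one])

/-- Values of polynomials with small coefficients. -/
theorem eval_lt {E : L[X]} (h : ∀ j, w (E.coeff j) < 1) {x : L} (hx : w x ≤ 1) :
    w (E.eval x) < 1 := by
  rw [eval_eq_sum_range]
  refine Valuation.map_sum_lt _ one_ne_zero fun j _ => ?_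
  rw [map_mul, map_pow]
  exact (mul_le_of_le_one_right' (pow_le_one' hx j)).trans_lt (h j)

/-- The derivative at `-1` of `X ^ i + X ^ (i + 1)`. -/
theorem eval_der (i : ℕ) : ((X ^ i + X ^ (i + 1) : L[X]).derivative).eval (-1) = (-1) ^ i := by
  rw [derivative_add, derivative_X_pow, derivative_X_pow]
  cases i with
  | zero => simp
  | succ i =>
    simp only [eval_add, eval_mul, eval_C, eval_pow, eval_X, Nat.add_sub_cancel]
    push_cast
    ring

/-- Two middle terms of absolute value one. -/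
theorem root_mid (hw : Hen w) {Q : L[X]} {i : ℕ} (hi : Q.coeff i = 1) (hi1 : Q.coeff (i + 1) = 1)
    (h : ∀ j, j ≠ i → j ≠ i + 1 → w (Q.coeff j) < 1) : ∃ z : L, Q.eval z = 0 ∧ w z = 1 := by
  obtain ⟨E, hE⟩ : ∃ E : L[X], E = Q - (X ^ i + X ^ (i + 1)) := ⟨_, rfl⟩
  have hQ : Q = (X ^ i + X ^ (i + 1)) + E := by rw [hE]; ring
  have hE1 : ∀ j, w (E.coeff j) < 1 := by
    intro j
    rw [hE, coeff_sub, coeff_add, coeff_X_pow, coeff_X_pow]
    by_cases h1 : j = i
    · subst h1
      rw [if_pos rfl, if_neg (by omega), add_zero, hi, sub_self, map_zero]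
      exact zero_lt_one
    · by_cases h2 : j = i + 1
      · subst h2
        rw [if_neg h1, if_pos rfl, zero_add, hi1, sub_self, map_zero]
        exact zero_lt_one
      · rw [if_neg h1, if_neg h2, add_zero, sub_zero]
        exact h j h1 h2
  have hn1 : w (-1 : L) ≤ 1 := by rw [Valuation.map_neg, map_one]
  obtain ⟨z, hz, hz1⟩ := hw Q (fun j => by
      by_cases h1 : j = i
      · rw [h1, hi, map_one]
      · by_cases h2 : j = i + 1
        · rw [h2, hi1, map_one]
        · exact (h j h1 h2).le) (-1) hn1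
    (by
      rw [hQ, eval_add]
      have e : (X ^ i + X ^ (i + 1) : L[X]).eval (-1) = 0 := by
        rw [eval_add, eval_pow, eval_pow, eval_X, pow_succ]
        ring
      rw [e, zero_add]
      exact eval_lt hE1 hn1)
    (by
      rw [hQ, derivative_add, eval_add, eval_der]
      have e1 : w (E.derivative.eval (-1)) < 1 := by
        refine eval_lt (fun j => ?_) hn1
        rw [coeff_derivative, map_mul]
        refine (mul_le_of_le_one_right' ?_).trans_lt (hE1 (j + 1))
        have := val_nat_le (w := w) (j + 1)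
        rwa [Nat.cast_succ] at this
      have e2 : w ((-1 : L) ^ i) = 1 := by rw [map_pow, Valuation.map_neg, map_one, one_pow]
      rw [Valuation.map_add_eq_of_lt_left _ (by rw [e2]; exact e1), e2])
  refine ⟨z, hz, ?_⟩
  have e : z = -1 + (z - -1) := by ring
  rw [e, Valuation.map_add_eq_of_lt_left _ (by rwa [Valuation.map_neg, map_one]),
    Valuation.map_neg, map_one]

/-- Log-concave sequences. -/
theorem cross {n : ℕ} {a : ℕ → Γ} (ha : ∀ i ≤ n, a i ≠ 0)
    (hc : ∀ i, 0 < i → i < n → a (i - 1) * a (i + 1) < a i ^ 2) {i : ℕ} (m : ℕ)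
    (hm : i + m + 1 < n) : a i * a (i + m + 2) < a (i + m + 1) * a (i + 1) := by
  induction m with
  | zero =>
    have h1 := hc (i + 1) (by omega) (by omega)
    rw [Nat.add_sub_cancel, sq] at h1
    exact h1
  | succ m ih =>
    have h1 := ih (by omega)
    have h2 := hc (i + m + 2) (by omega) (by omega)
    have e1 : i + m + 2 - 1 = i + m + 1 := by omega
    rw [e1] at h2
    have p1 : 0 < a (i + m + 1) := zero_lt_iff.mpr (ha _ (by omega))
    have p2 : 0 < a (i + m + 2) := zero_lt_iff.mpr (ha _ (by omega))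
    have p3 : 0 < a (i + 1) := zero_lt_iff.mpr (ha _ (by omega))
    have h3 : (a i * a (i + m + 2)) * (a (i + m + 1) * a (i + m + 3)) <
        (a (i + m + 1) * a (i + 1)) * a (i + m + 2) ^ 2 :=
      mul_lt_mul'' h1 h2 zero_le zero_le
    have h4 : (a (i + m + 2) * a (i + m + 1)) * (a i * a (i + m + 3)) <
        (a (i + m + 2) * a (i + m + 1)) * (a (i + m + 2) * a (i + 1)) := by
      calc _ = (a i * a (i + m + 2)) * (a (i + m + 1) * a (i + m + 3)) := by ac_rfl
        _ < (a (i + m + 1) * a (i + 1)) * a (i + m + 2) ^ 2 := h3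
        _ = _ := by rw [sq]; ac_rfl
    exact lt_of_mul_lt_mul_left h4 zero_le

/-- **Newton**: strictly log-concave coefficients. -/
theorem newt_root (hw : Hen w) {P : L[X]} {n : ℕ} (hP : ∀ i ≤ n, P.coeff i ≠ 0)
    (hn : P.natDegree ≤ n)
    (hc : ∀ i, 0 < i → i < n → w (P.coeff (i - 1)) * w (P.coeff (i + 1)) < w (P.coeff i) ^ 2)
    {i : ℕ} (hi : i < n) : ∃ r : L, P.eval r = 0 ∧ w r * w (P.coeff (i + 1)) = w (P.coeff i) := by
  obtain ⟨a, ha⟩ : ∃ a : ℕ → Γ, a = fun j => w (P.coeff j) := ⟨_, rfl⟩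
  have haj : ∀ j, w (P.coeff j) = a j := fun j => by rw [ha]
  have ha0 : ∀ j ≤ n, a j ≠ 0 := fun j hj => by
    rw [← haj]
    exact (Valuation.ne_zero_iff _).mpr (hP j hj)
  have hc' : ∀ i, 0 < i → i < n → a (i - 1) * a (i + 1) < a i ^ 2 := fun j h1 h2 => by
    rw [← haj, ← haj, ← haj]
    exact hc j h1 h2
  have hi0 := hP i hi.le
  have hi1 := hP (i + 1) hi
  obtain ⟨c, hcd⟩ : ∃ c : L, c = P.coeff i / P.coeff (i + 1) := ⟨_, rfl⟩
  have hc0 : c ≠ 0 := by
    rw [hcd]
    exact div_ne_zero hi0 hi1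
  have hcc : c * P.coeff (i + 1) = P.coeff i := by rw [hcd, div_mul_cancel₀ _ hi1]
  have hwc : w c * a (i + 1) = a i := by rw [← haj, ← haj, ← map_mul, hcc]
  have hwc0 : w c ≠ 0 := (Valuation.ne_zero_iff _).mpr hc0
  obtain ⟨b, hb⟩ : ∃ b : ℕ → Γ, b = fun j => a j * w c ^ j := ⟨_, rfl⟩
  have hbj : ∀ j, b j = a j * w c ^ j := fun j => by rw [hb]
  have hb0 : ∀ j ≤ n, b j ≠ 0 := fun j hj => by
    rw [hbj]
    exact mul_ne_zero (ha0 j hj) (pow_ne_zero _ hwc0)
  have hbi : b (i + 1) = b i := by
    rw [hbj, hbj, pow_succ, ← hwc]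
    ac_rfl
  -- decreasing to the right
  have hright : ∀ m, i + m + 2 ≤ n → b (i + m + 2) < b i := by
    intro m
    induction m with
    | zero =>
      intro hm
      have h1 := cross ha0 hc' (i := i) 0 (by omega)
      have h2 : a (i + 2) * w c < a (i + 1) := by
        have p1 : 0 < a (i + 1) := zero_lt_iff.mpr (ha0 _ (by omega))
        refine lt_of_mul_lt_mul_left (a := a (i + 1)) ?_ zero_le
        calc _ = (w c * a (i + 1)) * a (i + 2) := by ac_rfl
          _ = a i * a (i + 0 + 2) := by rw [hwc, add_zero]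
          _ < _ := h1
          _ = _ := by rw [add_zero]
      rw [add_zero, ← hbi, hbj, hbj, show i + 2 = (i + 1) + 1 from rfl, pow_succ,
        show a (i + 1 + 1) * (w c ^ (i + 1) * w c) = a (i + 2) * w c * w c ^ (i + 1) by ac_rfl]
      exact mul_lt_mul_of_pos_right h2 (pow_pos (zero_lt_iff.mpr hwc0) _)
    | succ m ih =>
      intro hm
      have h1 := cross ha0 hc' (i := i) (m + 1) (by omega)
      have h2 : a (i + m + 3) * w c < a (i + m + 2) := by
        refine lt_of_mul_lt_mul_left (a := a (i + 1)) ?_ zero_le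
        calc _ = (w c * a (i + 1)) * a (i + m + 3) := by ac_rfl
          _ = a i * a (i + (m + 1) + 2) := by rw [hwc]; rfl
          _ < _ := h1
          _ = _ := by rw [mul_comm]; rfl
      refine lt_trans ?_ (ih (by omega))
      rw [hbj, hbj, show i + (m + 1) + 2 = (i + m + 2) + 1 by omega, pow_succ,
        show a (i + m + 2 + 1) * (w c ^ (i + m + 2) * w c) =
          a (i + m + 3) * w c * w c ^ (i + m + 2) by
          rw [show i + m + 2 + 1 = i + m + 3 from rfl]; ac_rfl]
      exact mul_lt_mul_of_pos_right h2 (pow_pos (zero_lt_iff.mpr hwc0) _)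
  -- increasing to the left
  have hleft : ∀ m, m + 1 ≤ i → b (i - (m + 1)) < b i := by
    intro m
    induction m with
    | zero =>
      intro hm
      have h1 := hc' i (by omega) hi
      have h2 : a (i - 1) < a i * w c := by
        refine lt_of_mul_lt_mul_left (a := a (i + 1)) ?_ zero_le
        calc _ = a (i - 1) * a (i + 1) := mul_comm _ _
          _ < a i ^ 2 := h1
          _ = a i * (w c * a (i + 1)) := by rw [hwc, sq]
          _ = _ := by ac_rfl
      rw [zero_add, hbj, hbj]
      conv_rhs => rw [show i = (i - 1) + 1 by omega, pow_succ]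
      rw [show i - 1 + 1 = i by omega,
        show a i * (w c ^ (i - 1) * w c) = a i * w c * w c ^ (i - 1) by ac_rfl]
      exact mul_lt_mul_of_pos_right h2 (pow_pos (zero_lt_iff.mpr hwc0) _)
    | succ m ih =>
      intro hm
      have h1 := cross ha0 hc' (i := i - (m + 2)) m (by omega)
      have e1 : i - (m + 2) + m + 2 = i := by omega
      have e2 : i - (m + 2) + m + 1 = i - 1 := by omega
      have e3 : i - (m + 2) + 1 = i - (m + 1) := by omega
      rw [e1, e2, e3] at h1
      have h0 := hc' i (by omega) hi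
      -- `a (i-(m+2)) / a (i-(m+1)) < a (i-1) / a i < a i / a (i+1)`
      have h2 : a (i - (m + 2)) < a (i - (m + 1)) * w c := by
        have p1 : 0 < a i * a (i + 1) :=
          mul_pos (zero_lt_iff.mpr (ha0 _ (by omega))) (zero_lt_iff.mpr (ha0 _ (by omega)))
        refine lt_of_mul_lt_mul_left (a := a i * a (i + 1)) ?_ zero_le
        calc _ = (a (i - (m + 2)) * a i) * a (i + 1) := by ac_rfl
          _ < (a (i - 1) * a (i - (m + 1))) * a (i + 1) :=
            mul_lt_mul_of_pos_right h1 (zero_lt_iff.mpr (ha0 _ (by omega)))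
          _ = a (i - (m + 1)) * (a (i - 1) * a (i + 1)) := by ac_rfl
          _ < a (i - (m + 1)) * a i ^ 2 :=
            mul_lt_mul_of_pos_left h0 (zero_lt_iff.mpr (ha0 _ (by omega)))
          _ = a (i - (m + 1)) * (a i * (w c * a (i + 1))) := by rw [hwc, sq]
          _ = _ := by ac_rfl
      refine lt_trans ?_ (ih (by omega))
      rw [hbj, hbj]
      conv_rhs => rw [show i - (m + 1) = (i - (m + 2)) + 1 by omega, pow_succ]
      rw [show i - (m + 2) + 1 = i - (m + 1) by omega, show m + 1 + 1 = m + 2 from rfl,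
        show a (i - (m + 1)) * (w c ^ (i - (m + 2)) * w c) =
          a (i - (m + 1)) * w c * w c ^ (i - (m + 2)) by ac_rfl]
      exact mul_lt_mul_of_pos_right h2 (pow_pos (zero_lt_iff.mpr hwc0) _)
  -- the scaled polynomial
  obtain ⟨u, hu⟩ : ∃ u : L, u = P.coeff i * c ^ i := ⟨_, rfl⟩
  have hu0 : u ≠ 0 := by
    rw [hu]
    exact mul_ne_zero hi0 (pow_ne_zero _ hc0)
  have hwu : w u = b i := by rw [hu, map_mul, map_pow, haj, hbj]
  obtain ⟨Q, hQ⟩ : ∃ Q : L[X], Q = C u⁻¹ * P.comp (C c * X) := ⟨_, rfl⟩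
  have hQj : ∀ j, Q.coeff j = u⁻¹ * (P.coeff j * c ^ j) := fun j => by
    rw [hQ, coeff_C_mul, comp_C_mul_X_coeff]
  have hwQ : ∀ j, w (Q.coeff j) = (b i)⁻¹ * b j := fun j => by
    rw [hQj, map_mul, map_inv₀, hwu, map_mul, map_pow, haj, ← hbj]
  have hbip : 0 < b i := zero_lt_iff.mpr (hb0 i hi.le)
  obtain ⟨z, hz, hz1⟩ := root_mid hw (Q := Q) (i := i)
    (by rw [hQj, ← hu, inv_mul_cancel₀ hu0])
    (by
      rw [hQj, pow_succ, show P.coeff (i + 1) * (c ^ i * c) = (c * P.coeff (i + 1)) * c ^ i by ring,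
        hcc, ← hu, inv_mul_cancel₀ hu0])
    (fun j h1 h2 => by
      rw [hwQ]
      have key : b j < b i := by
        rcases lt_trichotomy j i with h3 | h3 | h3
        · have := hleft (i - j - 1) (by omega)
          rwa [show i - (i - j - 1 + 1) = j by omega] at this
        · exact absurd h3 h1
        · by_cases h4 : j ≤ n
          · have := hright (j - i - 2) (by omega)
            rwa [show i + (j - i - 2) + 2 = j by omega] at this
          · have h5 : P.coeff j = 0 := coeff_eq_zero_of_natDegree_lt (by omega)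
            rw [hbj, ← haj, h5, map_zero, zero_mul]
            exact hbip
      calc (b i)⁻¹ * b j < (b i)⁻¹ * b i :=
            mul_lt_mul_of_pos_left key (zero_lt_iff.mpr (inv_ne_zero hbip.ne'))
        _ = 1 := inv_mul_cancel₀ hbip.ne')
  refine ⟨c * z, ?_, ?_⟩
  · rw [hQ, eval_mul, eval_C, eval_comp, eval_mul, eval_C, eval_X] at hz
    exact (mul_eq_zero.mp hz).resolve_left (inv_ne_zero hu0)
  · rw [map_mul, hz1, mul_one, haj, haj, hwc]

/-- **Newton**: a monic polynomial with strictly log-concave coefficients is a product of linear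
factors, with roots of distinct absolute values. -/
theorem newt (hw : Hen w) {P : L[X]} {n : ℕ} (hm : P.Monic) (hn : P.natDegree = n)
    (h0 : P.coeff 0 ≠ 0)
    (hc : ∀ i, 0 < i → i < n → w (P.coeff (i - 1)) * w (P.coeff (i + 1)) < w (P.coeff i) ^ 2) :
    ∃ r : Fin n → L, (∀ i, w (r i) * w (P.coeff (i + 1)) = w (P.coeff i)) ∧
      (∀ i j, i < j → w (r i) < w (r j)) ∧ P = ∏ i, (X - C (r i)) := by
  have hP : ∀ i ≤ n, P.coeff i ≠ 0 := by
    intro i hi
    rcases Nat.eq_zero_or_pos i with h | h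
    · rw [h]
      exact h0
    · rcases hi.eq_or_lt with h' | h'
      · rw [h', ← hn]
        have : P.leadingCoeff ≠ 0 := by rw [hm.leadingCoeff]; exact one_ne_zero
        exact this
      · intro h1
        have h2 := hc i h h'
        rw [h1, map_zero, zero_pow two_ne_zero] at h2
        exact absurd h2 (not_lt.mpr zero_le)
  choose r hr hrw using fun i : Fin n => newt_root hw hP hn.le hc i.2
  have ha0 : ∀ j ≤ n, w (P.coeff j) ≠ 0 := fun j hj => (Valuation.ne_zero_iff _).mpr (hP j hj)
  have hlt : ∀ i j : Fin n, i < j → w (r i) < w (r j) := by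
    intro i j hij
    have hij' : (i : ℕ) < j := hij
    have p1 : 0 < w (P.coeff (i + 1)) := zero_lt_iff.mpr (ha0 _ (by omega))
    have p2 : 0 < w (P.coeff (j + 1)) := zero_lt_iff.mpr (ha0 _ (by omega))
    refine lt_of_mul_lt_mul_left (a := w (P.coeff (i + 1)) * w (P.coeff (j + 1))) ?_ zero_le
    have e1 : w (P.coeff (i + 1)) * w (P.coeff (j + 1)) * w (r i) =
        w (P.coeff i) * w (P.coeff (j + 1)) := by
      rw [← hrw i]
      ac_rfl
    have e2 : w (P.coeff (i + 1)) * w (P.coeff (j + 1)) * w (r j) =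
        w (P.coeff j) * w (P.coeff (i + 1)) := by
      rw [← hrw j]
      ac_rfl
    rw [e1, e2]
    have h1 := cross (a := fun j => w (P.coeff j)) ha0 hc (i := i) (j - i - 1) (by omega)
    rw [show (i : ℕ) + (j - i - 1) + 2 = j + 1 by omega,
      show (i : ℕ) + (j - i - 1) + 1 = j by omega] at h1
    exact h1
  have hinj : Function.Injective r := by
    intro i j hij
    rcases lt_trichotomy i j with h | h | h
    · exact absurd (hlt i j h) (by rw [hij]; exact lt_irrefl _)
    · exact h
    · exact absurd (hlt j i h) (by rw [hij]; exact lt_irrefl _)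
  refine ⟨r, hrw, hlt, ?_⟩
  have hdvd : (∏ i, (X - C (r i))) ∣ P := by
    refine Finset.prod_dvd_of_coprime ?_ fun i _ => dvd_iff_isRoot.mpr (hr i)
    intro i _ j _ hij
    exact pairwise_coprime_X_sub_C hinj hij
  have hpm : (∏ i, (X - C (r i))).Monic := monic_prod_of_monic _ _ fun i _ => monic_X_sub_C _
  exact (eq_of_monic_of_dvd_of_natDegree_le hpm hm hdvd (by
    rw [natDegree_prod_of_monic _ _ fun i _ => monic_X_sub_C _]
    simp only [natDegree_X_sub_C, Finset.sum_const, Finset.card_univ, Fintype.card_fin, smul_eq_mul,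
      mul_one]
    exact hn.le))

theorem newt_splits (hw : Hen w) {P : L[X]} {n : ℕ} (hm : P.Monic) (hn : P.natDegree = n)
    (h0 : P.coeff 0 ≠ 0)
    (hc : ∀ i, 0 < i → i < n → w (P.coeff (i - 1)) * w (P.coeff (i + 1)) < w (P.coeff i) ^ 2) :
    P.Splits ∧ P.Separable := by
  obtain ⟨r, -, hlt, hP⟩ := newt hw hm hn h0 hc
  have hinj : Function.Injective r := by
    intro i j hij
    rcases lt_trichotomy i j with h | h | h
    · exact absurd (hlt i j h) (by rw [hij]; exact lt_irrefl _)
    · exact h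
    · exact absurd (hlt j i h) (by rw [hij]; exact lt_irrefl _)
  constructor
  · rw [hP]
    exact Splits.prod fun i _ => Splits.X_sub_C _
  · rw [hP]
    exact separable_prod_X_sub_C_iff.mpr hinj

end abs

section norm

variable {L : Type*} [NormedField L] [IsUltrametricDist L] [CompleteSpace L]

open Vale.Agent.P011.Hey.H63 in
/-- Hensel's lemma for polynomials over the field. -/
theorem hen_norm (Q : L[X]) (hQ : ∀ j, ‖Q.coeff j‖ ≤ 1) (a : L) (ha : ‖a‖ ≤ 1)
    (h0 : ‖Q.eval a‖ < 1) (h1 : ‖Q.derivative.eval a‖ = 1) :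
    ∃ z : L, Q.eval z = 0 ∧ ‖z - a‖ < 1 := by
  obtain ⟨Q', hQ'⟩ : ∃ Q' : (OK L)[X], Q'.map (OK L).subtype = Q := by
    have : Q ∈ Polynomial.lifts (OK L).subtype := by
      rw [Polynomial.lifts_iff_coeff_lifts]
      intro j
      exact ⟨⟨Q.coeff j, hQ j⟩, rfl⟩
    exact (Polynomial.mem_lifts _).mp this
  obtain ⟨a', ha'⟩ : ∃ a' : OK L, (a' : L) = a := ⟨⟨a, ha⟩, rfl⟩
  have hev : ∀ (R : (OK L)[X]) (x : OK L), ((R.eval x : OK L) : L) =
      (R.map (OK L).subtype).eval (x : L) := by
    intro R x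
    rw [eval_map]
    exact (eval₂_at_apply (OK L).subtype x).symm
  obtain ⟨z, hz, hz0⟩ := hensel (taylor a' Q') (by
      rw [taylor_coeff_zero, hev, hQ', ha']
      exact h0) (by
      rw [taylor_coeff_one, hev, ← derivative_map, hQ', ha']
      exact h1)
  rw [taylor_eval] at hz0
  refine ⟨z + a, ?_, by rwa [add_sub_cancel_right]⟩
  have h2 := congrArg (fun x : OK L => (x : L)) hz0
  rw [hev, hQ'] at h2
  rw [← ha']
  simpa using h2

theorem hen_of_norm {Γ : Type*} [LinearOrderedCommGroupWithZero Γ] (w : Valuation L Γ)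
    (h : ∀ x : L, ‖x‖ ≤ 1 ↔ w x ≤ 1) : Hen w := by
  have hlt : ∀ x : L, ‖x‖ < 1 ↔ w x < 1 := by
    intro x
    rcases eq_or_ne x 0 with rfl | hx
    · simp
    · have hw0 : w x ≠ 0 := (Valuation.ne_zero_iff _).mpr hx
      have h2 := h x⁻¹
      rw [norm_inv, map_inv₀, inv_le_one₀ (norm_pos_iff.mpr hx),
        inv_le_one₀ (zero_lt_iff.mpr hw0)] at h2
      rw [← not_le, ← not_le, h2]
  intro Q hQ a ha h0 h1
  obtain ⟨z, hz, hz1⟩ := hen_norm Q (fun j => (h _).mpr (hQ j)) a ((h a).mpr ha)
    ((hlt _).mpr h0) (le_antisymm ((h _).mpr h1.le) (by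
      rw [← not_lt, hlt, not_lt]
      exact h1.ge))
  exact ⟨z, hz, (hlt _).mp hz1⟩

end norm

section adic

open NumberField IsDedekindDomain HeightOneSpectrum WithZero

open scoped Valued in
theorem hen_adic {K : Type*} [Field K] [NumberField K] (V : HeightOneSpectrum (𝓞 K)) :
    Hen (Valued.v : Valuation (V.adicCompletion K) ℤᵐ⁰) :=
  hen_of_norm (L := V.adicCompletion K) _ fun _ => Valued.toNormedField.norm_le_one_iff

/-- **Newton for a global polynomial** at a finite place. -/
theorem newt_adic {K : Type*} [Field K] [NumberField K] (V : HeightOneSpectrum (𝓞 K)) {P : K[X]}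
    {n : ℕ} (hm : P.Monic) (hn : P.natDegree = n) (h0 : P.coeff 0 ≠ 0)
    (hc : ∀ i, 0 < i → i < n →
      V.valuation K (P.coeff (i - 1)) * V.valuation K (P.coeff (i + 1)) <
        V.valuation K (P.coeff i) ^ 2) :
    (P.map (algebraMap K (V.adicCompletion K))).Splits ∧
      (P.map (algebraMap K (V.adicCompletion K))).Separable ∧
      ∃ r : Fin n → V.adicCompletion K, (∀ i j, i < j → Valued.v (r i) < Valued.v (r j)) ∧
        P.map (algebraMap K (V.adicCompletion K)) = ∏ i, (X - C (r i)) := by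
  have hval : ∀ x : K, Valued.v (algebraMap K (V.adicCompletion K) x) = V.valuation K x :=
    fun x => valuedAdicCompletion_eq_valuation' V x
  have hm' := hm.map (algebraMap K (V.adicCompletion K))
  have hn' : (P.map (algebraMap K (V.adicCompletion K))).natDegree = n := by
    rw [natDegree_map, hn]
  have h0' : (P.map (algebraMap K (V.adicCompletion K))).coeff 0 ≠ 0 := by
    rw [coeff_map]
    exact (_root_.map_ne_zero _).mpr h0
  have hc' : ∀ i, 0 < i → i < n →
      Valued.v ((P.map (algebraMap K (V.adicCompletion K))).coeff (i - 1)) *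
        Valued.v ((P.map (algebraMap K (V.adicCompletion K))).coeff (i + 1)) <
      Valued.v ((P.map (algebraMap K (V.adicCompletion K))).coeff i) ^ 2 := by
    intro i h1 h2
    rw [coeff_map, coeff_map, coeff_map, hval, hval, hval]
    exact hc i h1 h2
  obtain ⟨h1, h2⟩ := newt_splits (hen_adic V) hm' hn' h0' hc'
  obtain ⟨r, -, h3, h4⟩ := newt (hen_adic V) hm' hn' h0' hc'
  exact ⟨h1, h2, r, h3, h4⟩

end adic

end Vale.Agent.P011.H976.Newt
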