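import Vale.Agent.P011.H976.ProjY

/-!
The doubling step: the elements of the centralizer of a symmetric square root which are close to
one, from an element of the same reduced norm in the subgroup.
-/

open NumberField IsDedekindDomain Module Polynomial

set_option linter.unusedSectionVars false

namespace Vale.Agent.P011.H976.PY

open Vale.Agent.P011.Arith Vale.Agent.P011.Even Vale.Agent.P011.Two Vale.Agent.P011.One
open Vale.Agent.P011.Tpl Vale.Agent.P011.Tpl.H541 Vale.Agent.P011.Tpl.H359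
open Vale.Agent.P011.Pow hiding exists_x2 nrd_near exists_numbers
open Vale.Agent.P011.W (HasNrd)

/-- **The last step of the doubling.** -/
theorem abAt_of_y {m : ℕ} (hm : 3 ≤ m) (hMP : MP m) {k K D L K' C : Type} [Field k]
    [NumberField k] [Field K] [NumberField K] [StarRing K] [DivisionRing D] [StarRing D]
    [Algebra k K] [Algebra k D] [Algebra K D] [IsScalarTower k K D] [Field L] [NumberField L]
    [Algebra k L] [Field K'] [StarRing K'] [NumberField K'] [Algebra K K'] [DivisionRing C]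
    [StarRing C] [Algebra L K'] [Algebra L C] [Algebra K' C] [IsScalarTower L K' C] {d : kˣ}
    {s : K} {t : D} {a : kˣ} {T : L} {jC : C →+* D} (hS : Setting k K D d s)
    (hdeg : finrank K D = (2 * m) ^ 2)
    (hSC : Setting L K' C (inc k L d) (algebraMap K K' s)) (hdC : finrank K' C = m ^ 2)
    (h : IsCent k K D L K' C t a T jC) {Ω : Type} [Field Ω] [Algebra K Ω]
    (f : D →ₐ[K] Matrix (Fin (2 * m)) (Fin (2 * m)) Ω) {M : ℕ}
    (B : Basis (Fin M) k D) (Q : Subgroup (SUD f)) [Q.Normal] (hi : Q.index ≠ 0)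
    (hY : ∀ ε : HeightOneSpectrum (𝓞 k) → ℝ, (∀ v, 0 < ε v) →
      ∀ S0 : Set (HeightOneSpectrum (𝓞 k)), S0.Finite →
      ∃ S : Set (HeightOneSpectrum (𝓞 k)), S.Finite ∧
        ∃ η : HeightOneSpectrum (𝓞 k) → ℝ, (∀ v, 0 < η v) ∧ ∀ (x : C) (p u : k),
          x * star x = 1 → HasNrd K' m x (kk k K K' p + kk k K K' u * om K' s T) →
          p ^ 2 - (a * d : k) * u ^ 2 = 1 → (∀ v ∈ S, nm B (.inl v) (jC x - 1) < η v) →
          ∃ y : C, y * star y = 1 ∧ HasNrd K' m y (kk k K K' p + kk k K K' u * om K' s T) ∧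
            jC y ∈ Im Q ∧ ∀ v ∈ S0, nm B (.inl v) (jC y - 1) < ε v) :
    AbAt B f (Im Q) t := by
  classical
  have i1 := hS.fin
  have i2 := hS.cen
  have i3 := hSC.fin
  have i4 := hSC.cen
  have i5 := hSC.fin_k
  have hKc : CharZero K := charZero_of_injective_algebraMap (algebraMap k K).injective
  have hK'c : CharZero K' := charZero_of_injective_algebraMap (algebraMap K K').injective
  obtain ⟨g⟩ := Vale.Agent.P011S.exists_split (K := K') (D := C) hdC (AlgebraicClosure K')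
  obtain ⟨N', hN'n, hN'i, hN'⟩ := h.exists_trace f g rfl hdeg hdC Q hi
  obtain ⟨B', -⟩ : ∃ B' : Basis (Fin (finrank L C)) L C, B' = B' := ⟨finBasis L C, rfl⟩
  obtain ⟨η', hη', hPF⟩ := hMP.tdiv hSC hm hdC g B' N' hN'i
  have hTf : {w' : HeightOneSpectrum (𝓞 L) | (Sum.inl w' : Pl L) ∈ Tdiv L K' C}.Finite :=
    (tdiv_finite (by omega) hdC).preimage Sum.inl_injective.injOn
  choose ε₁ hε₁ hprod using fun w' : HeightOneSpectrum (𝓞 L) =>
    near_prod B' (.inl w' : Pl L) 1 (hη' (.inl w'))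
  choose ηd hηd hdown using fun v : HeightOneSpectrum (𝓞 k) =>
    h.near_down B B' v (ε := ε₁) hε₁
  obtain ⟨S0, hS0d⟩ : ∃ S0 : Set (HeightOneSpectrum (𝓞 k)),
      S0 = {v : HeightOneSpectrum (𝓞 k) | ∃ w ∈ {w' : HeightOneSpectrum (𝓞 L) |
      (Sum.inl w' : Pl L) ∈ Tdiv L K' C}, w.asIdeal.comap (algebraMap (𝓞 k) (𝓞 L)) = v.asIdeal} :=
    ⟨_, rfl⟩
  have hS0 : S0.Finite := by
    rw [hS0d]
    exact below_finite hTf
  obtain ⟨S, hSf, η, hη, hy⟩ := hY ηd hηd S0 hS0
  refine ⟨S ∪ S0, hSf.union hS0, fun v => min (η v) (ηd v), fun v => lt_min (hη v) (hηd v), ?_⟩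
  intro e₁ het hestar hedet hnear
  obtain ⟨x, rfl⟩ := (h.range e₁).mp het
  have hx1' : jC x * star (jC x) = 1 := mul_eq_one_comm.mp hestar
  have hx1 : x * star x = 1 := by
    apply h.inj
    rw [map_mul, h.star, map_one]
    exact hx1'
  obtain ⟨p, u, hpux, hpu1⟩ := exists_pu hS hSC h rfl hdeg hdC f hx1 hedet
  obtain ⟨y, hy1, hy2, hy3, hy4⟩ := hy x p u hx1 hpux hpu1 fun v hv =>
    (hnear v (Or.inl hv)).trans_le (min_le_left _ _)
  have hy0 : y ≠ 0 := left_ne_zero_of_mul_eq_one hy1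
  have hν0 : kk k K K' p + kk k K K' u * om K' s T ≠ 0 := by
    intro h0
    rw [h0] at hpux
    have h2 := hpux.mul (hpux.inv (left_ne_zero_of_mul_eq_one hx1))
    rw [mul_inv_cancel₀ (left_ne_zero_of_mul_eq_one hx1), zero_mul] at h2
    exact one_ne_zero (W.HasNrd.unique hdC W.HasNrd.one h2)
  have hyi : star y = y⁻¹ := eq_inv_of_mul_eq_one_right hy1
  have hzG : x * y⁻¹ ∈ GU g := by
    refine ⟨?_, ?_⟩
    · rw [← hyi, star_mul, star_star, mul_assoc, ← mul_assoc (star y), hyi,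
        inv_mul_cancel₀ hy0, one_mul, hx1]
    · have h2 := hpux.mul (hy2.inv hy0)
      rw [mul_inv_cancel₀ hν0] at h2
      have h3 := h2 _ g
      rwa [map_one] at h3
  have hzN : x * y⁻¹ ∈ Im N' := by
    refine hPF _ hzG fun q hq => ?_
    obtain ⟨w', rfl, -⟩ := id hq
    obtain ⟨v, hwv⟩ := Arith.exists_below (F := k) w'
    have hv : v ∈ S0 := by
      rw [hS0d]
      exact ⟨w', hq, hwv⟩
    have h1 : nm B (.inl v) (jC (x - 1)) < ηd v := by
      rw [map_sub, map_one]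
      exact (hnear v (Or.inr hv)).trans_le (min_le_right _ _)
    have h2 : nm B (.inl v) (jC (y - 1)) < ηd v := by
      rw [map_sub, map_one]
      exact hy4 v hv
    have h3 := hprod w' x y 1 (hdown v _ h1 w' hwv) (hdown v _ h2 w' hwv) (by
      rw [sub_self, nm_zero]
      exact hε₁ w')
    rwa [mul_one, pow_one] at h3
  obtain ⟨gz, hgz, hgze⟩ := ((hN' _).mp hzN).2
  obtain ⟨gy, hgy, hgye⟩ := hy3
  refine ⟨gz * gy, Q.mul_mem hgz hgy, ?_⟩
  change ((gz : Dˣ) : D) * ((gy : Dˣ) : D) = _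
  rw [hgze, hgye, ← map_mul, inv_mul_cancel_right₀ hy0]

end Vale.Agent.P011.H976.PY
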