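import Vale.Agent.P011.H976.Tgt
import Mathlib.GroupTheory.OrderOfElement
import Mathlib.Algebra.Order.BigOperators.Group.Finset

/-!
The action of a group on a section.
-/

open Filter Pointwise commutatorElement

namespace Vale.Agent.P011.H976

variable {U : Type*} [Group U]

section act

variable (M H : Subgroup U) [M.Normal] [H.Normal]

theorem map_conjNormal (u : U) :
    (M.subgroupOf H).map ((MulAut.conjNormal u : MulAut H) : H →* H) = M.subgroupOf H := by
  ext x
  constructor
  · rintro ⟨y, hy, rfl⟩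
    rw [Subgroup.mem_subgroupOf]
    change ((MulAut.conjNormal u y : H) : U) ∈ M
    rw [MulAut.conjNormal_apply]
    exact (inferInstance : M.Normal).conj_mem _ (Subgroup.mem_subgroupOf.mp hy) u
  · intro hx
    refine ⟨MulAut.conjNormal u⁻¹ x, ?_, ?_⟩
    · rw [SetLike.mem_coe, Subgroup.mem_subgroupOf]
      rw [MulAut.conjNormal_apply]
      exact (inferInstance : M.Normal).conj_mem _ (Subgroup.mem_subgroupOf.mp hx) u⁻¹
    · change MulAut.conjNormal u (MulAut.conjNormal u⁻¹ x) = x
      rw [map_inv, MulAut.apply_inv_self]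

/-- The action by conjugation on `H / M`. -/
noncomputable def act : U →* MulAut (H ⧸ M.subgroupOf H) where
  toFun u := QuotientGroup.congr _ _ (MulAut.conjNormal u) (map_conjNormal M H u)
  map_one' := by
    ext x
    obtain ⟨x, rfl⟩ := QuotientGroup.mk'_surjective _ x
    simp
  map_mul' u v := by
    ext x
    obtain ⟨x, rfl⟩ := QuotientGroup.mk'_surjective _ x
    simp

theorem act_apply (u : U) (x : H) :
    act M H u (QuotientGroup.mk' (M.subgroupOf H) x) =
      QuotientGroup.mk' (M.subgroupOf H) (MulAut.conjNormal u x) := rfl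

theorem act_eq_one {u : U} : act M H u = 1 ↔ ∀ h ∈ H, ⁅u, h⁆ ∈ M := by
  have key : ∀ x : H, QuotientGroup.mk' (M.subgroupOf H) (MulAut.conjNormal u x) =
      QuotientGroup.mk' (M.subgroupOf H) x ↔ ⁅u, (x : U)⁆ ∈ M := by
    intro x
    rw [eq_comm, QuotientGroup.mk'_apply, QuotientGroup.mk'_apply, QuotientGroup.eq,
      Subgroup.mem_subgroupOf]
    rw [Subgroup.coe_mul, Subgroup.coe_inv, MulAut.conjNormal_apply]
    constructor
    · intro h
      have h3 := (inferInstance : M.Normal).conj_mem _ h x
      have h4 : (x : U) * ((x : U)⁻¹ * (u * x * u⁻¹)) * (x : U)⁻¹ = ⁅u, (x : U)⁆ := by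
        rw [commutatorElement_def]; group
      rwa [h4] at h3
    · intro h
      have h3 := (inferInstance : M.Normal).conj_mem _ h (x : U)⁻¹
      have h4 : (x : U)⁻¹ * ⁅u, (x : U)⁆ * (x : U)⁻¹⁻¹ = (x : U)⁻¹ * (u * x * u⁻¹) := by
        rw [commutatorElement_def]; group
      rwa [h4] at h3
  constructor
  · intro h x hx
    rw [← key ⟨x, hx⟩, ← act_apply, h]
    rfl
  · intro h
    ext x
    obtain ⟨x, rfl⟩ := QuotientGroup.mk'_surjective _ x
    rw [act_apply, (key x).mpr (h x x.2)]
    rfl

end act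

/-- The target of the nonabelian part: `c : U → E` is onto the finite group `E`, and `R` is a
minimal normal subgroup of `E`, nonabelian and with trivial centralizer, which is the image of every
neighbourhood of one in the filter `F`. -/
structure Target (F : Filter U) {E : Type*} [Group E] (c : U →* E) (R : Subgroup E) : Prop where
  fin : Finite E
  surj : Function.Surjective c
  normal : R.Normal
  min : ∀ S : Subgroup E, S.Normal → S ≤ R → S = ⊥ ∨ S = R
  nonab : ∃ a ∈ R, ∃ b ∈ R, a * b ≠ b * a
  cent : Subgroup.centralizer (R : Set E) = ⊥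
  mem : (c ⁻¹' (R : Set E)) ∈ F
  full : ∀ L ∈ F, ∀ r ∈ R, ∃ g ∈ L, c g = r

/-- In a finite group the products of the elements of a set containing one. -/
theorem exists_pow_image {F : Filter U} (hF : Lev F) {E : Type*} [Group E] [Finite E] (c : U →* E)
    {R : Subgroup E} (h : ∀ L ∈ F, R ≤ Subgroup.closure (c '' L)) :
    ∀ L ∈ F, ∀ r ∈ R, ∃ g ∈ L, c g = r := by
  classical
  -- iterated products
  have h1 : ∀ n : ℕ, ∀ L ∈ F, ∃ L' ∈ F, ∀ l : List U, l.length ≤ n → (∀ x ∈ l, x ∈ L') →
      l.prod ∈ L := by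
    intro n
    induction n with
    | zero =>
      intro L hL
      refine ⟨L, hL, fun l hl _ => ?_⟩
      have : l = [] := List.length_eq_zero_iff.mp (Nat.le_zero.mp hl)
      rw [this, List.prod_nil]
      exact hF.one L hL
    | succ n ih =>
      intro L hL
      obtain ⟨L₁, hL₁, h1⟩ := hF.mul L hL
      obtain ⟨L₂, hL₂, h2⟩ := ih L₁ hL₁
      refine ⟨L₁ ∩ L₂, Filter.inter_mem hL₁ hL₂, fun l hl hx => ?_⟩
      cases l with
      | nil => rw [List.prod_nil]; exact hF.one L hL
      | cons a l =>
        rw [List.prod_cons]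
        refine h1 _ (hx a List.mem_cons_self).1 _ (h2 l ?_ fun x hxl => ?_)
        · rw [List.length_cons] at hl; omega
        · exact (hx x (List.mem_cons_of_mem _ hxl)).2
  intro L hL r hr
  -- a uniform bound for the length of the words
  have h2 : ∀ S : Set E, ∃ n : ℕ, ∀ x ∈ Subgroup.closure S, ∃ l : List E, l.length ≤ n ∧
      (∀ y ∈ l, y ∈ S) ∧ l.prod = x := by
    intro S
    have h3 : ∀ x : E, ∃ n : ℕ, x ∈ Subgroup.closure S → ∃ l : List E, l.length ≤ n ∧
        (∀ y ∈ l, y ∈ S) ∧ l.prod = x := by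
      intro x
      by_cases hx : x ∈ Subgroup.closure S
      · have hx' : x ∈ Submonoid.closure S := by
          have := Subgroup.closure_toSubmonoid_of_finite (s := S)
          rw [← this]
          exact hx
        obtain ⟨l, hl, hp⟩ := Submonoid.exists_list_of_mem_closure hx'
        exact ⟨l.length, fun _ => ⟨l, le_rfl, hl, hp⟩⟩
      · exact ⟨0, fun h => absurd h hx⟩
    choose n hn using h3
    have := Fintype.ofFinite E
    refine ⟨∑ x, n x, fun x hx => ?_⟩
    obtain ⟨l, hl, hl'⟩ := hn x hx
    exact ⟨l, hl.trans (Finset.single_le_sum (f := n) (fun _ _ => Nat.zero_le _)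
      (Finset.mem_univ x)), hl'⟩
  choose N hN using h2
  have := Fintype.ofFinite (Set E)
  obtain ⟨L', hL', h3⟩ := h1 (∑ S, N S) L hL
  obtain ⟨l, hl, hlS, hlp⟩ := hN (c '' L') r (h L' hL' hr)
  choose! f hf hcf using (fun y (hy : y ∈ c '' L') => hy)
  refine ⟨(l.map f).prod, h3 _ ?_ ?_, ?_⟩
  · rw [List.length_map]
    exact hl.trans (Finset.single_le_sum (f := N) (fun _ _ => Nat.zero_le _)
      (Finset.mem_univ (c '' L')))
  · intro x hx
    obtain ⟨y, hy, rfl⟩ := List.mem_map.mp hx
    exact hf y (hlS y hy)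
  · rw [map_list_prod, List.map_map, ← hlp]
    congr 1
    conv_rhs => rw [← List.map_id l]
    exact List.map_congr_left fun y hy => hcf y (hlS y hy)

end Vale.Agent.P011.H976
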