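import Vale.Agent.P011.H976.BGenAbs
import Vale.Agent.P011.One.TGlue
import Vale.Agent.P011.One.Final

/-!
The special unitary group is generated by its elements of bounded size at a place which splits and
at which the algebra is not a division algebra.
-/

open Filter Topology Module TensorProduct NumberField IsDedekindDomain

set_option linter.unusedSectionVars false

namespace Vale.Agent.P011.H976

open Vale.Agent.P011.Arith Vale.Agent.P011.Even Vale.Agent.P011.Two Vale.Agent.P011.One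

section seq

variable {D : Type} [DivisionRing D] [StarRing D] [CharZero D]
  {R : Type} [NormedRing R] [CompleteSpace R] {A : Type} [Ring A]

/-- Commutators of units are limits of images of commutators of Cayley elements. -/
theorem exists_comm_seq (κ : D →+* R) (ρ : A →+* R)
    (hd : ∀ a : A, ρ a ∈ closure (κ '' {y | star y = -y})) (h2 : IsUnit (2 : A))
    (ht : ∀ a : Aˣ, ∃ t : Aˣ, (∀ x : Aˣ, t * x = x * t) ∧ IsUnit (1 + ((t * a : Aˣ) : A)))
    (a b : Aˣ) : ∃ (Y Z : ℕ → D) (c : ℕ → Rˣ), (∀ j, star (Y j) = -Y j) ∧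
      (∀ j, star (Z j) = -Z j) ∧ (∀ j, (c j : R) = κ (cq 1 (Y j) (Z j))) ∧
      Tendsto c atTop (𝓝 (Units.map (ρ : A →* R) (a * b * a⁻¹ * b⁻¹))) := by
  obtain ⟨t, ht1, ht2⟩ := ht a
  obtain ⟨t', ht1', ht2'⟩ := ht b
  have h1 : a * b * a⁻¹ * b⁻¹ = (t * a) * (t' * b) * (t * a)⁻¹ * (t' * b)⁻¹ := by
    have c1 : t * a * (t' * b) * (t * a)⁻¹ = a * (t' * b) * a⁻¹ := by
      rw [ht1 a, mul_inv_rev, mul_assoc a t, ht1 (t' * b)]
      group
    have c2 : a * (t' * b) * a⁻¹ = t' * (a * b * a⁻¹) := by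
      rw [← mul_assoc a t' b, ← ht1' a]
      group
    rw [c1, c2, ht1' b, mul_inv_rev, ht1' (a * b * a⁻¹)]
    group
  obtain ⟨Y, u, hY, hu, hlu⟩ := exists_cay κ ρ hd h2 (t * a) ht2
  obtain ⟨Z, w, hZ, hw, hlw⟩ := exists_cay κ ρ hd h2 (t' * b) ht2'
  have hlim : Tendsto (fun j => u j * w j * (u j)⁻¹ * (w j)⁻¹) atTop
      (𝓝 (Units.map (ρ : A →* R) (a * b * a⁻¹ * b⁻¹))) := by
    rw [h1, map_mul, map_mul, map_mul, map_inv, map_inv]
    exact ((hlu.mul hlw).mul hlu.inv).mul hlw.inv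
  refine ⟨Y, Z, _, hY, hZ, fun j => ?_, hlim⟩
  have hiu : (((u j)⁻¹ : Rˣ) : R) = κ (cy (Y j))⁻¹ := by
    apply Units.inv_eq_of_mul_eq_one_right
    rw [hu, ← map_mul, mul_inv_cancel₀ (cy_ne (hY j)), map_one]
  have hiw : (((w j)⁻¹ : Rˣ) : R) = κ (cy (Z j))⁻¹ := by
    apply Units.inv_eq_of_mul_eq_one_right
    rw [hw, ← map_mul, mul_inv_cancel₀ (cy_ne (hZ j)), map_one]
  rw [Units.val_mul, Units.val_mul, Units.val_mul, hu, hw, hiu, hiw, cq, pow_one,
    map_mul, map_mul, map_mul]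

end seq

section bgen

attribute [local instance] Matrix.linftyOpNormedRing Matrix.linftyOpNormedAlgebra

variable {k K D F : Type} [Field k] [NumberField k] [Field K] [NumberField K] [StarRing K]
  [DivisionRing D] [StarRing D] [Algebra k K] [Algebra k D] [Algebra K D] [IsScalarTower k K D]
  {d : kˣ} {s : K} [NontriviallyNormedField F] [CompleteSpace F] [Algebra K F]

/-- Elements of bounded size in the regular representation, together with their conjugates, have
bounded coordinates. -/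
theorem nm_bdd (hS : Setting k K D d s) {M : ℕ} (b : Basis (Fin M) K D) {N : ℕ}
    (B : Basis (Fin N) k D) (p : Pl k)
    (hden : DenseRange fun c : k => algebraMap K F (algebraMap k K c))
    (h3 : ∀ ε : ℝ, 0 < ε → ∃ δ : ℝ, 0 < δ ∧ ∀ c : k, ‖algebraMap K F (algebraMap k K c)‖ < δ →
      plAbv p c < ε) (m : ℝ) : ∃ C : ℝ, ∀ x : D,
      ‖(kap b x : Matrix (Fin M) (Fin M) F)‖ ≤ m →
      ‖(kap b (star x) : Matrix (Fin M) (Fin M) F)‖ ≤ m → Even.nm B p x ≤ C := by
  obtain ⟨δ, hδ, h⟩ := nm_small hS b B p h3 1 one_pos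
  obtain ⟨y, hy0, hy⟩ := NormedField.exists_norm_lt F
    (show 0 < δ / (2 * (|m| + 1)) by positivity)
  obtain ⟨c, hc⟩ := hden.exists_mem_open (Metric.isOpen_ball (x := y) (ε := ‖y‖))
    ⟨y, Metric.mem_ball_self hy0⟩
  rw [Metric.mem_ball, dist_eq_norm] at hc
  have hc0 : c ≠ 0 := by
    rintro rfl
    rw [map_zero, map_zero, zero_sub, norm_neg] at hc
    exact lt_irrefl _ hc
  have hcn : ‖algebraMap K F (algebraMap k K c)‖ * (|m| + 1) < δ := by
    have h4 : ‖algebraMap K F (algebraMap k K c)‖ ≤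
        ‖algebraMap K F (algebraMap k K c) - y‖ + ‖y‖ := by
      have := norm_add_le (algebraMap K F (algebraMap k K c) - y) y
      rwa [sub_add_cancel] at this
    have h5 : ‖algebraMap K F (algebraMap k K c)‖ < 2 * (δ / (2 * (|m| + 1))) := by linarith
    have h6 : 0 < |m| + 1 := by positivity
    calc ‖algebraMap K F (algebraMap k K c)‖ * (|m| + 1) <
        2 * (δ / (2 * (|m| + 1))) * (|m| + 1) := mul_lt_mul_of_pos_right h5 h6
      _ = δ := by field_simp
  have hpc : 0 < plAbv p c := (AbsoluteValue.pos_iff _).mpr hc0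
  refine ⟨(plAbv p c)⁻¹, fun x hx hx' => ?_⟩
  have hsm : ∀ x : D, ‖(kap b x : Matrix (Fin M) (Fin M) F)‖ ≤ m →
      ‖(kap b (c • x) : Matrix (Fin M) (Fin M) F)‖ < δ := by
    intro x hx
    have h4 : c • x = (algebraMap k K c) • x := (algebraMap_smul K c x).symm
    rw [h4, kap_smul, norm_smul]
    refine lt_of_le_of_lt (mul_le_mul_of_nonneg_left ?_ (norm_nonneg _)) hcn
    have := le_abs_self m
    linarith
  have hst : star (c • x) = c • star x := hS.sig.map_smul c x
  have h4 := h (c • x) (hsm x hx) (by rw [hst]; exact hsm _ hx')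
  rw [nm_smul] at h4
  rw [← one_div, le_div_iff₀ hpc, mul_comm]
  exact h4.le

/-- The map of the group to the units of the regular representation. -/
noncomputable def jR {M : ℕ} (b : Basis (Fin M) K D) {Ω : Type} [Field Ω] [Algebra K Ω] {n : ℕ}
    (f : D →ₐ[K] Matrix (Fin n) (Fin n) Ω) : SUD f →* (Matrix (Fin M) (Fin M) F)ˣ :=
  (Units.map ((kap b : D →+* Matrix (Fin M) (Fin M) F) : D →* Matrix (Fin M) (Fin M) F)).comp
    (SUD f).subtype

/-- **Bounded generation.** -/
theorem bgen_split [StarModule K D] [Algebra.IsCentral K D] [FiniteDimensional K D]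
    (hS : Setting k K D d s) {n : ℕ}
    (hdeg : finrank K D = n ^ 2) {Ω : Type} [Field Ω] [Algebra K Ω]
    (f : D →ₐ[K] Matrix (Fin n) (Fin n) Ω) {N : ℕ} (B : Basis (Fin N) k D) (p : Pl k)
    (hden : DenseRange fun c : k => algebraMap K F (algebraMap k K c))
    (h3 : ∀ ε : ℝ, 0 < ε → ∃ δ : ℝ, 0 < δ ∧ ∀ c : k, ‖algebraMap K F (algebraMap k K c)‖ < δ →
      plAbv p c < ε) {r : ℕ} (hr : 2 ≤ r) {E : Type} [DivisionRing E] [Algebra F E]
    (ψ : F ⊗[K] D ≃ₐ[F] Matrix (Fin r) (Fin r) E) :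
    ∃ C : ℝ, ∀ g : SUD f,
      g ∈ Subgroup.closure {s : SUD f | Even.nm B p (((s : SUD f) : Dˣ) : D) ≤ C} := by
  classical
  have hcharD : CharZero D := charZero_of_injective_algebraMap (algebraMap K D).injective
  have hcharF : CharZero F := charZero_of_injective_algebraMap (algebraMap K F).injective
  have hcharE : CharZero E := charZero_of_injective_algebraMap (algebraMap F E).injective
  have hfinQ : FiniteDimensional ℚ D := FiniteDimensional.trans ℚ K D
  have hne : ∃ z : K, star z ≠ z := by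
    refine ⟨s, fun h => ?_⟩
    rw [hS.star_s] at h
    exact hS.s_ne (self_eq_neg.mp h.symm)
  let b : Basis (Fin (finrank K D)) K D := Module.finBasis K D
  have hcs := complete_mat (F := F) (finrank K D)
  let ρ : F ⊗[K] D →ₐ[F] Matrix (Fin (finrank K D)) (Fin (finrank K D)) F :=
    Algebra.leftMulMatrix (Algebra.TensorProduct.basis F b)
  have hjs : ∀ g : SUD f, (((jR (F := F) b f g)⁻¹ : (Matrix _ _ F)ˣ) : Matrix _ _ F) =
      kap b (star (((g : SUD f) : Dˣ) : D)) := by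
    intro g
    apply Units.inv_eq_of_mul_eq_one_right
    change (kap b (((g : SUD f) : Dˣ) : D) : Matrix _ _ F) * kap b (star (((g : SUD f) : Dˣ) : D)) = 1
    rw [← map_mul, g.2.1, map_one]
  have hloc : ∀ u : (Matrix (Fin (finrank K D)) (Fin (finrank K D)) F)ˣ, ∃ C : ℝ, ∃ V ∈ 𝓝 u,
      ∀ g, jR (F := F) b f g ∈ V → Even.nm B p (((g : SUD f) : Dˣ) : D) ≤ C := by
    intro u
    obtain ⟨u1, hu1⟩ : ∃ u1 : ℝ, u1 = ‖u.val‖ := ⟨_, rfl⟩
    obtain ⟨u2, hu2⟩ : ∃ u2 : ℝ, u2 = ‖(u⁻¹).val‖ := ⟨_, rfl⟩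
    obtain ⟨C, hC⟩ := nm_bdd hS b B p hden h3 (max u1 u2 + 1)
    refine ⟨C, {w | ‖w.val‖ < u1 + 1 ∧ ‖(w⁻¹).val‖ < u2 + 1}, ?_, ?_⟩
    · refine IsOpen.mem_nhds ?_ ⟨by rw [hu1]; linarith, by rw [hu2]; linarith⟩
      apply IsOpen.inter
      · exact isOpen_lt Units.continuous_val.norm continuous_const
      · exact isOpen_lt (Units.continuous_val.comp continuous_inv).norm continuous_const
    · rintro g ⟨hg1, hg2⟩
      rw [hjs] at hg2
      apply hC
      · exact hg1.le.trans (by have := le_max_left u1 u2; linarith)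
      · exact hg2.le.trans (by have := le_max_right u1 u2; linarith)
  have hcom : ∀ x y : (F ⊗[K] D)ˣ, Units.map (ρ : F ⊗[K] D →* Matrix _ _ F)
      (x * y * x⁻¹ * y⁻¹) ∈ closure (Set.range (jR (F := F) b f)) := by
    intro x y
    obtain ⟨Y, Z, c, hY, hZ, hc, hlim⟩ := exists_comm_seq (kap b : D →+* Matrix _ _ F)
      (ρ : F ⊗[K] D →+* Matrix _ _ F) (fun a => skew_dense hS b hden a) (by
        have : IsUnit (algebraMap F (F ⊗[K] D) 2) :=
          (isUnit_iff_ne_zero.mpr two_ne_zero).map _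
        rwa [map_ofNat] at this) (fun a => exists_shift (F := F) a) x y
    refine mem_closure_of_tendsto hlim (Eventually.of_forall fun i => ?_)
    have h0 := cq_ne 1 (hY i) (hZ i)
    have hdet : ∀ x : D, x ≠ 0 → (f x).det * (f x⁻¹).det = 1 := by
      intro x hx
      rw [← Matrix.det_mul, ← map_mul, mul_inv_cancel₀ hx, map_one, Matrix.det_one]
    have hmem : Units.mk0 _ h0 ∈ SUD f := by
      refine ⟨cq_star (hY i) (hZ i), ?_⟩
      change (f (cq 1 (Y i) (Z i))).det = 1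
      rw [cq, pow_one, map_mul, map_mul, map_mul, Matrix.det_mul, Matrix.det_mul, Matrix.det_mul]
      have h1 := hdet _ (cy_ne (hY i))
      have h2 := hdet _ (cy_ne (hZ i))
      calc (f (cy (Y i))).det * (f (cy (Z i))).det * (f (cy (Y i))⁻¹).det *
            (f (cy (Z i))⁻¹).det
          = ((f (cy (Y i))).det * (f (cy (Y i))⁻¹).det) *
            ((f (cy (Z i))).det * (f (cy (Z i))⁻¹).det) := by ring
        _ = 1 := by rw [h1, h2, one_mul]
    exact ⟨⟨Units.mk0 _ h0, hmem⟩, Units.ext (hc i).symm⟩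
  obtain ⟨C, hC⟩ := bgen_abs (jR (F := F) b f) (fun g => Even.nm B p (((g : SUD f) : Dˣ) : D))
    hloc ρ hr ψ two_ne_zero hcom
  refine ⟨C, fun g => hC g ?_⟩
  have hcomm : ((g : SUD f) : Dˣ) ∈ commutator Dˣ := mem_commutator hdeg hne f g.2.1 g.2.2
  let ι : D →+* F ⊗[K] D :=
    ((Algebra.TensorProduct.includeRight : D →ₐ[K] F ⊗[K] D) : D →+* F ⊗[K] D)
  refine ⟨Units.map (ι : D →* F ⊗[K] D) g, ?_, Units.ext rfl⟩
  have h2 : commutator Dˣ ≤ (commutator (F ⊗[K] D)ˣ).comap (Units.map (ι : D →* F ⊗[K] D)) := by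
    rw [commutator_def, Subgroup.commutator_le]
    intro a _ b _
    rw [Subgroup.mem_comap, map_commutatorElement]
    exact Subgroup.commutator_mem_commutator (Subgroup.mem_top _) (Subgroup.mem_top _)
  exact h2 hcomm

end bgen

section places

variable {k K D : Type} [Field k] [NumberField k] [Field K] [NumberField K] [StarRing K]
  [DivisionRing D] [StarRing D] [Algebra k K] [Algebra k D] [Algebra K D] [IsScalarTower k K D]
  {d : kˣ} {s : K}

/-- **Bounded generation at a finite place which splits.** -/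
theorem bgen_fin (hS : Setting k K D d s) {n : ℕ} (hdeg : finrank K D = n ^ 2) {Ω : Type}
    [Field Ω] [Algebra K Ω] (f : D →ₐ[K] Matrix (Fin n) (Fin n) Ω) {N : ℕ}
    (B : Basis (Fin N) k D) (v : HeightOneSpectrum (𝓞 k)) (hv : d ∈ LS (v.valuation k))
    (hT : (Sum.inl v : Pl k) ∉ Tdiv k K D) :
    ∃ C : ℝ, ∀ g : SUD f,
      g ∈ Subgroup.closure {s : SUD f | Even.nm B (Sum.inl v) (((s : SUD f) : Dˣ) : D) ≤ C} := by
  have := hS.fin
  have := hS.cen
  have hsm : StarModule K D := ⟨hS.star_smul⟩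
  obtain ⟨θ, hθ⟩ := (isSquare_iff v d).mpr hv
  obtain ⟨φ, -⟩ := exists_lift hS (F := v.adicCompletion k) (θ := θ) (by rw [hθ, sq])
  let _ : NontriviallyNormedField (v.adicCompletion k) := nnf v
  let _ : Algebra K (v.adicCompletion k) := (φ : K →+* v.adicCompletion k).toAlgebra
  have hφ : ∀ c : k, algebraMap K (v.adicCompletion k) (algebraMap k K c) =
      algebraMap k (v.adicCompletion k) c := fun c => φ.commutes c
  obtain ⟨r, hr0, E, _, _, _, _, ψ, -⟩ := P011S.exists_wed (E := v.adicCompletion k) hdeg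
  have hnu : ∃ x : v.adicCompletion k ⊗[K] D, x ≠ 0 ∧ ¬ IsUnit x := by
    by_contra hcon
    push Not at hcon
    exact hT ⟨v, rfl, φ, hcon⟩
  have hr := two_le_of_not_unit (ψ : v.adicCompletion k ⊗[K] D ≃+* Matrix (Fin r) (Fin r) E) hnu
  refine bgen_split (F := v.adicCompletion k) hS hdeg f B (Sum.inl v) ?_ ?_ hr ψ
  · rw [funext hφ]
    exact HeightOneSpectrum.denseRange_algebraMap k v
  · intro ε hε
    refine ⟨ε, hε, fun c hc => ?_⟩
    have h1 : plAbv (Sum.inl v) c = ‖algebraMap k (v.adicCompletion k) c‖ := by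
      rw [norm_eq, valued_alg]
      rfl
    rw [h1, ← hφ]
    exact hc

end places

end Vale.Agent.P011.H976
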