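import Vale.Agent.P011.H976.GLComm

/-!
A group with a homomorphism to the units of a normed algebra whose closure contains the
commutators of `GL_r(E)`, `r ≥ 2`: the elements over the commutator subgroup are products of
elements of bounded size.
-/

open Matrix Topology Filter

namespace Vale.Agent.P011.H976

open Vale.Agent.P011.One

theorem bgen_abs {Γ : Type} [Group Γ] {R : Type} [NormedRing R] [CompleteSpace R] (j : Γ →* Rˣ)
    (nmg : Γ → ℝ) (hloc : ∀ u : Rˣ, ∃ C : ℝ, ∃ V ∈ 𝓝 u, ∀ s, j s ∈ V → nmg s ≤ C)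
    {F A E : Type} [NontriviallyNormedField F] [Ring A] [Algebra F A] [NormedAlgebra F R]
    (ρ : A →ₐ[F] R) {r : ℕ} (hr : 2 ≤ r) [DivisionRing E] [Algebra F E]
    (ψ : A ≃ₐ[F] Matrix (Fin r) (Fin r) E) (h2 : (2 : E) ≠ 0)
    (hcom : ∀ a b : Aˣ, Units.map (ρ : A →* R) (a * b * a⁻¹ * b⁻¹) ∈ closure (Set.range j)) :
    ∃ C : ℝ, ∀ g : Γ, (∃ a ∈ commutator Aˣ, Units.map (ρ : A →* R) a = j g) →
      g ∈ Subgroup.closure {s | nmg s ≤ C} := by
  classical
  let ψu : (Matrix (Fin r) (Fin r) E)ˣ →* Aˣ := Units.map (ψ.symm : Matrix (Fin r) (Fin r) E →* A)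
  let θ : (Matrix (Fin r) (Fin r) E)ˣ →* Rˣ := (Units.map (ρ : A →* R)).comp ψu
  have hθ : ∀ a b : (Matrix (Fin r) (Fin r) E)ˣ, θ (a * b * a⁻¹ * b⁻¹) ∈ closure (Set.range j) := by
    intro a b
    have := hcom (ψu a) (ψu b)
    rw [← map_inv, ← map_inv, ← map_mul, ← map_mul, ← map_mul] at this
    exact this
  obtain ⟨ϖ, hϖ0, hϖ1⟩ := NormedField.exists_norm_lt_one F
  have hϖ : ϖ ≠ 0 := norm_pos_iff.mp hϖ0
  have hϖE : algebraMap F E ϖ ≠ 0 := (_root_.map_ne_zero _).mpr hϖ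
  let x : Eˣ := (Units.mk0 _ hϖE)⁻¹
  obtain ⟨C0, V0', hV0', hC0'⟩ := hloc 1
  obtain ⟨V0, hV0V, hV0o, hV01⟩ := mem_nhds_iff.mp hV0'
  have hC0 : ∀ s, j s ∈ V0 → nmg s ≤ C0 := fun s hs => hC0' s (hV0V hs)
  choose Cf Vf hVf hCf using hloc
  let hh : Fin r → Fin r → (Matrix (Fin r) (Fin r) E)ˣ := fun i l =>
    dgU (Pi.mulSingle i x * Pi.mulSingle l x⁻¹)
  obtain ⟨C, hCd⟩ : ∃ C : ℝ, C = |C0| + ∑ i, ∑ l, |Cf (θ (hh i l))| := ⟨_, rfl⟩
  have hC0C : C0 ≤ C := by
    rw [hCd]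
    have := Finset.sum_nonneg fun i (_ : i ∈ (Finset.univ : Finset (Fin r))) =>
      Finset.sum_nonneg fun l (_ : l ∈ (Finset.univ : Finset (Fin r))) =>
        abs_nonneg (Cf (θ (hh i l)))
    have := le_abs_self C0
    linarith
  have hCfC : ∀ i l, Cf (θ (hh i l)) ≤ C := by
    intro i l
    rw [hCd]
    have h1 := Finset.single_le_sum (f := fun l => |Cf (θ (hh i l))|)
      (fun l _ => abs_nonneg _) (Finset.mem_univ l)
    have h3 := Finset.single_le_sum (f := fun i => ∑ l, |Cf (θ (hh i l))|)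
      (fun i _ => Finset.sum_nonneg fun l _ => abs_nonneg _) (Finset.mem_univ i)
    have := le_abs_self (Cf (θ (hh i l)))
    have := abs_nonneg C0
    linarith
  let P : Subgroup Γ := Subgroup.closure {s | nmg s ≤ C}
  let G : Subgroup Rˣ := (P.map j).topologicalClosure
  have key : ∀ u ∈ closure (Set.range j), ∀ C' ≤ C, ∀ V ∈ 𝓝 u, (∀ s, j s ∈ V → nmg s ≤ C') →
      u ∈ G := by
    intro u hu C' hC' V hV h
    change u ∈ closure ((P.map j : Subgroup Rˣ) : Set Rˣ)
    rw [mem_closure_iff_nhds] at hu ⊢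
    intro O hO
    obtain ⟨_, ⟨h3, h4⟩, s, rfl⟩ := hu (O ∩ V) (inter_mem hO hV)
    exact ⟨j s, h3, ⟨s, Subgroup.subset_closure ((h s h4).trans hC'), rfl⟩⟩
  have hhG : ∀ i l, i ≠ l → θ (hh i l) ∈ G := by
    intro i l hil
    refine key _ ?_ _ (hCfC i l) _ (hVf _) (hCf _)
    obtain ⟨w, hw⟩ := dgu_comm hil x
    change θ (dgU (Pi.mulSingle i x * Pi.mulSingle l x⁻¹)) ∈ _
    rw [← hw]
    exact hθ _ _
  -- the transvections
  have htv : ∀ (i l : Fin r) (hil : i ≠ l) (c : E), θ (tvu hil c) ∈ G := by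
    intro i l hil c
    have hval : ∀ c : E, ((θ (tvu hil c) : Rˣ) : R) =
        1 + ρ (ψ.symm (Matrix.single i l c)) := by
      intro c
      change ρ (ψ.symm (1 + Matrix.single i l c)) = _
      rw [map_add, map_one, map_add, map_one]
    have hinv : ∀ c : E, (((θ (tvu hil c))⁻¹ : Rˣ) : R) =
        1 - ρ (ψ.symm (Matrix.single i l c)) := by
      intro c
      rw [← map_inv, tvu_inv, hval]
      have h3 : Matrix.single i l (-c) = -Matrix.single i l c := by rw [← Matrix.single_neg]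
      rw [h3, map_neg, map_neg, sub_eq_add_neg]
    let y : ℕ → E := fun m => algebraMap F E (ϖ ^ (2 * m)) * c
    have hy : ∀ m, ρ (ψ.symm (Matrix.single i l (y m))) =
        ϖ ^ (2 * m) • ρ (ψ.symm (Matrix.single i l c)) := by
      intro m
      have h3 : Matrix.single i l (y m) = ϖ ^ (2 * m) • Matrix.single i l c := by
        rw [Matrix.smul_single, Algebra.smul_def]
      rw [h3, map_smul, map_smul]
    have hlim0 : Tendsto (fun m : ℕ => ϖ ^ (2 * m)) atTop (𝓝 0) := by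
      have h3 := tendsto_pow_atTop_nhds_zero_of_norm_lt_one (x := ϖ ^ 2) (by
        rw [norm_pow]
        exact pow_lt_one₀ (norm_nonneg _) hϖ1 (by norm_num))
      refine h3.congr fun m => ?_
      rw [pow_mul]
    have hlim1 : Tendsto (fun m => ρ (ψ.symm (Matrix.single i l (y m)))) atTop (𝓝 0) := by
      have h3 := hlim0.smul_const (ρ (ψ.symm (Matrix.single i l c)))
      rw [zero_smul] at h3
      exact h3.congr fun m => (hy m).symm
    have hlim : Tendsto (fun m => θ (tvu hil (y m))) atTop (𝓝 1) := by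
      rw [Units.isOpenEmbedding_val.isEmbedding.tendsto_nhds_iff]
      have h3 := (tendsto_const_nhds (x := (1 : R)) (f := atTop (α := ℕ))).add hlim1
      rw [add_zero] at h3
      exact h3.congr fun m => (hval _).symm
    obtain ⟨m, hm⟩ := (hlim.eventually (hV0o.mem_nhds hV01)).exists
    have h3 : θ (tvu hil (y m)) ∈ G := by
      refine key _ ?_ _ hC0C V0 (hV0o.mem_nhds hm) hC0
      rw [← tvu_comm hil h2]
      exact hθ _ _
    have h4 : (hh i l) ^ m * tvu hil (y m) * ((hh i l) ^ m)⁻¹ = tvu hil c := by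
      change dgU (Pi.mulSingle i x * Pi.mulSingle l x⁻¹) ^ m * tvu hil (y m) *
        (dgU (Pi.mulSingle i x * Pi.mulSingle l x⁻¹) ^ m)⁻¹ = tvu hil c
      rw [dgU_pow, dgU_conj]
      congr 1
      rw [Pi.pow_apply, Pi.pow_apply, Pi.mul_apply, Pi.mul_apply, Pi.mulSingle_eq_same,
        Pi.mulSingle_eq_same, Pi.mulSingle_eq_of_ne hil, Pi.mulSingle_eq_of_ne hil.symm, mul_one,
        one_mul, inv_pow, inv_inv]
      have h5 : ((x ^ m : Eˣ) : E) * algebraMap F E (ϖ ^ m) = 1 := by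
        have h6 : ((x ^ m : Eˣ) : E) * (((Units.mk0 _ hϖE) ^ m : Eˣ) : E) = 1 := by
          rw [← Units.val_mul]
          change (((Units.mk0 _ hϖE)⁻¹ ^ m * Units.mk0 _ hϖE ^ m : Eˣ) : E) = (1 : E)
          rw [inv_pow, inv_mul_cancel, Units.val_one]
        rwa [Units.val_pow_eq_pow_val (Units.mk0 _ hϖE), Units.val_mk0, ← map_pow] at h6
      have h7 : y m = algebraMap F E (ϖ ^ m) * (c * algebraMap F E (ϖ ^ m)) := by
        change algebraMap F E (ϖ ^ (2 * m)) * c = _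
        rw [← Algebra.commutes (ϖ ^ m) c, ← mul_assoc, ← map_mul, two_mul, pow_add]
      have h8 : algebraMap F E (ϖ ^ m) * ((x ^ m : Eˣ) : E) = 1 := by
        rw [Algebra.commutes, h5]
      rw [h7]
      calc ((x ^ m : Eˣ) : E) * (algebraMap F E (ϖ ^ m) * (c * algebraMap F E (ϖ ^ m))) *
            ((x ^ m : Eˣ) : E)
          = (((x ^ m : Eˣ) : E) * algebraMap F E (ϖ ^ m)) * c *
              (algebraMap F E (ϖ ^ m) * ((x ^ m : Eˣ) : E)) := by simp only [mul_assoc]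
        _ = c := by rw [h5, h8, one_mul, mul_one]
    have h5 := hhG i l hil
    rw [← h4, map_mul, map_mul, map_inv, map_pow]
    exact G.mul_mem (G.mul_mem (G.pow_mem h5 m) h3) (G.inv_mem (G.pow_mem h5 m))
  -- the commutators
  have hT : commutator (Matrix (Fin r) (Fin r) E)ˣ ≤ G.comap θ := by
    refine (comm_le_Tv hr).trans ?_
    rw [Tv, Subgroup.closure_le]
    rintro _ ⟨i, l, hil, c, rfl⟩
    exact htv i l hil c
  refine ⟨C, ?_⟩
  rintro g ⟨a, ha, hag⟩
  have h3 : Units.map (ψ : A →* Matrix (Fin r) (Fin r) E) a ∈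
      commutator (Matrix (Fin r) (Fin r) E)ˣ := by
    have h4 : commutator Aˣ ≤ (commutator (Matrix (Fin r) (Fin r) E)ˣ).comap
        (Units.map (ψ : A →* Matrix (Fin r) (Fin r) E)) := by
      rw [commutator_def, Subgroup.commutator_le]
      intro a _ b _
      rw [Subgroup.mem_comap, map_commutatorElement]
      exact Subgroup.commutator_mem_commutator (Subgroup.mem_top _) (Subgroup.mem_top _)
    exact h4 ha
  have h4 : j g ∈ G := by
    have h5 := hT h3
    rw [Subgroup.mem_comap] at h5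
    have h6 : θ (Units.map (ψ : A →* Matrix (Fin r) (Fin r) E) a) = j g := by
      rw [← hag]
      apply Units.ext
      change ρ (ψ.symm (ψ (a : A))) = ρ (a : A)
      rw [AlgEquiv.symm_apply_apply]
    rwa [h6] at h5
  have h5 : {u : Rˣ | u⁻¹ * j g ∈ V0} ∈ 𝓝 (j g) := by
    have hc : Continuous fun u : Rˣ => u⁻¹ * j g := by fun_prop
    refine hc.continuousAt (hV0o.mem_nhds ?_)
    rw [inv_mul_cancel]
    exact hV01
  obtain ⟨_, h6, s, hs, rfl⟩ := (mem_closure_iff_nhds.mp h4) _ h5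
  have h7 : j (s⁻¹ * g) ∈ V0 := by
    rw [map_mul, map_inv]
    exact h6
  have h8 : s⁻¹ * g ∈ P := Subgroup.subset_closure ((hC0 _ h7).trans hC0C)
  have h9 := P.mul_mem hs h8
  rwa [mul_inv_cancel_left] at h9

end Vale.Agent.P011.H976
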