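import Vale.Agent.P011.H976.Full
import Mathlib.GroupTheory.Subgroup.Centralizer
import Mathlib.Tactic.Linarith
import Mathlib.Tactic.NormNum

/-!
Nonabelian chief factors next to one.
-/

open Filter Pointwise commutatorElement

namespace Vale.Agent.P011.H976

variable {Γ : Type*} [Group Γ] {F : Filter Γ}

/-- `H` is the smallest subgroup containing `M` and a neighbourhood of one. -/
structure IsHull (F : Filter Γ) (M H : Subgroup Γ) : Prop where
  le : M ≤ H
  mem : (H : Set Γ) ∈ F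
  least : ∀ H' : Subgroup Γ, M ≤ H' → (H' : Set Γ) ∈ F → H ≤ H'

theorem relIndex_ne (M K : Subgroup Γ) [M.FiniteIndex] : M.relIndex K ≠ 0 := by
  have := Subgroup.isFiniteRelIndex_of_finiteIndex (H := M) (K := K)
  exact Subgroup.relIndex_ne_zero

theorem exists_min_subgroup (M : Subgroup Γ) (P : Subgroup Γ → Prop) (hP : ∃ H, P H) :
    ∃ H, P H ∧ ∀ H', P H' → M.relIndex H ≤ M.relIndex H' := by
  obtain ⟨H, hH, h⟩ := WellFounded.has_min (measure (fun H : Subgroup Γ => M.relIndex H)).wf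
    {H | P H} hP
  exact ⟨H, hH, fun H' h' => not_lt.mp (h H' h')⟩

theorem exists_hull (F : Filter Γ) (M : Subgroup Γ) [M.FiniteIndex] : ∃ H, IsHull F M H := by
  obtain ⟨H, ⟨h1, h2⟩, h3⟩ := exists_min_subgroup M (fun H => M ≤ H ∧ (H : Set Γ) ∈ F)
    ⟨⊤, le_top, by simp⟩
  refine ⟨H, h1, h2, fun H' h4 h5 => ?_⟩
  have h6 : (((H ⊓ H' : Subgroup Γ)) : Set Γ) ∈ F := by
    rw [Subgroup.coe_inf]; exact Filter.inter_mem h2 h5
  have h7 := h3 (H ⊓ H') ⟨le_inf h1 h4, h6⟩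
  have h8 := Subgroup.relIndex_mul_relIndex M (H ⊓ H') H (le_inf h1 h4) inf_le_left
  have h9 : M.relIndex (H ⊓ H') ≠ 0 := relIndex_ne _ _
  have h10 : (H ⊓ H').relIndex H = 1 := by
    have h11 : (H ⊓ H').relIndex H ≤ 1 := by
      have : M.relIndex (H ⊓ H') * (H ⊓ H').relIndex H ≤ M.relIndex (H ⊓ H') * 1 := by
        rw [h8, mul_one]; exact h7
      exact Nat.le_of_mul_le_mul_left this (Nat.pos_of_ne_zero h9)
    have h12 : (H ⊓ H').relIndex H ≠ 0 := by
      intro h0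
      rw [h0, mul_zero] at h8
      exact relIndex_ne _ _ h8.symm
    omega
  exact (Subgroup.relIndex_eq_one.mp h10).trans inf_le_right

theorem exists_max_subgroup (P : Subgroup Γ → Prop) {M H : Subgroup Γ} [M.FiniteIndex]
    (hM : P M) (hMH : M ≤ H) (hne : M ≠ H) :
    ∃ M', P M' ∧ M ≤ M' ∧ M' ≤ H ∧ M' ≠ H ∧
      ∀ K, P K → M' ≤ K → K ≤ H → K = M' ∨ K = H := by
  obtain ⟨M', ⟨h1, h2, h3, h4⟩, h5⟩ := WellFounded.has_min
    (measure (fun K : Subgroup Γ => K.relIndex H)).wf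
    {K | P K ∧ M ≤ K ∧ K ≤ H ∧ K ≠ H} ⟨M, hM, le_rfl, hMH, hne⟩
  refine ⟨M', h1, h2, h3, h4, fun K hK h6 h7 => ?_⟩
  by_contra h8
  rw [not_or] at h8
  refine h5 K ⟨hK, h2.trans h6, h7, h8.2⟩ ?_
  change K.relIndex H < M'.relIndex H
  have h9 := Subgroup.relIndex_mul_relIndex M' K H h6 h7
  have hfi : M'.FiniteIndex := Subgroup.finiteIndex_of_le h2
  have h10 : K.relIndex H ≠ 0 := by
    have : K.FiniteIndex := Subgroup.finiteIndex_of_le h6
    exact relIndex_ne _ _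
  have h11 : M'.relIndex K ≠ 1 := fun h => h8.1 (le_antisymm (Subgroup.relIndex_eq_one.mp h) h6)
  have h12 : M'.relIndex K ≠ 0 := relIndex_ne _ _
  rw [← h9]
  have h13 : 2 ≤ M'.relIndex K := by omega
  have h14 := Nat.pos_of_ne_zero h10
  calc K.relIndex H < 2 * K.relIndex H := by omega
    _ ≤ M'.relIndex K * K.relIndex H := Nat.mul_le_mul_right _ h13

/-- An automorphism preserving the neighbourhoods of one. -/
def Pres (F : Filter Γ) (a : MulAut Γ) : Prop := ∀ L ∈ F, {x | a x ∈ L} ∈ F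

theorem IsHull.comap {M H : Subgroup Γ} (h : IsHull F M H) {a : MulAut Γ} (ha : Pres F a)
    (ha' : Pres F a⁻¹) :
    IsHull F (M.comap (a : Γ →* Γ)) (H.comap (a : Γ →* Γ)) := by
  refine ⟨Subgroup.comap_mono h.le, ha _ h.mem, fun H' h1 h2 => ?_⟩
  have h3 : H ≤ H'.comap ((a⁻¹ : MulAut Γ) : Γ →* Γ) := by
    refine h.least _ (fun x hx => ?_) (ha' _ h2)
    refine h1 ?_
    change a (a⁻¹ x) ∈ M
    rwa [MulAut.apply_inv_self]
  intro x hx
  have h4 : a⁻¹ (a x) ∈ H' := h3 hx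
  rwa [MulAut.inv_apply_self] at h4

theorem IsHull.inv {M H : Subgroup Γ} (h : IsHull F M H) {a : MulAut Γ} (ha : Pres F a)
    (hM : ∀ x ∈ M, a x ∈ M) : ∀ x ∈ H, a x ∈ H :=
  h.least (H.comap (a : Γ →* Γ)) (fun x hx => h.le (hM x hx)) (ha _ h.mem)

theorem Lev.pres (hF : Lev F) (g : Γ) : Pres F (MulAut.conj g) := fun L hL => hF.conj g L hL

theorem IsHull.normal (hF : Lev F) {M H : Subgroup Γ} [M.Normal] (h : IsHull F M H) :
    H.Normal :=
  ⟨fun x hx g => h.inv (hF.pres g) (fun y hy => Subgroup.Normal.conj_mem ‹_› y hy g) x hx⟩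

/-- The elements of `Γ` acting trivially on `H / M`. -/
def Cent (M H : Subgroup Γ) [M.Normal] : Subgroup Γ :=
  (Subgroup.centralizer (H.map (QuotientGroup.mk' M) : Set (Γ ⧸ M))).comap (QuotientGroup.mk' M)

theorem mem_Cent {M H : Subgroup Γ} [M.Normal] {g : Γ} :
    g ∈ Cent M H ↔ ∀ h ∈ H, ⁅g, h⁆ ∈ M := by
  rw [Cent, Subgroup.mem_comap, Subgroup.mem_centralizer_iff]
  constructor
  · intro h x hx
    have h1 := h (QuotientGroup.mk' M x) (Subgroup.mem_map_of_mem _ hx)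
    rw [← map_mul, ← map_mul] at h1
    have h2 := QuotientGroup.eq.mp h1
    have h3 := (inferInstance : M.Normal).conj_mem _ h2 (x * g)
    have h4 : x * g * ((x * g)⁻¹ * (g * x)) * (x * g)⁻¹ = ⁅g, x⁆ := by
      rw [commutatorElement_def]; group
    rwa [h4] at h3
  · rintro h _ ⟨x, hx, rfl⟩
    rw [← map_mul, ← map_mul]
    refine QuotientGroup.eq.mpr ?_
    have h3 := (inferInstance : M.Normal).conj_mem _ (h x hx) (x * g)⁻¹
    have h4 : (x * g)⁻¹ * ⁅g, x⁆ * (x * g)⁻¹⁻¹ = (x * g)⁻¹ * (g * x) := by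
      rw [commutatorElement_def]; group
    rwa [h4] at h3

instance (M H : Subgroup Γ) [M.Normal] [H.Normal] : (Cent M H).Normal := by
  have : (H.map (QuotientGroup.mk' M)).Normal :=
    Subgroup.Normal.map inferInstance _ (QuotientGroup.mk'_surjective M)
  unfold Cent
  infer_instance

theorem le_Cent {M H : Subgroup Γ} [M.Normal] : M ≤ Cent M H := fun m hm =>
  mem_Cent.mpr fun h _ => by
    rw [commutatorElement_def, mul_assoc, mul_assoc, ← mul_assoc h]
    exact M.mul_mem hm ((inferInstance : M.Normal).conj_mem _ (M.inv_mem hm) h)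

/-- `H / M` is a nonabelian chief factor of `Γ`, and `H` is the smallest neighbourhood subgroup
containing `M`. -/
structure Chief (F : Filter Γ) (M H : Subgroup Γ) : Prop where
  nM : M.Normal
  nH : H.Normal
  fin : M.FiniteIndex
  hull : IsHull F M H
  max : ∀ K : Subgroup Γ, K.Normal → M ≤ K → K ≤ H → K = M ∨ K = H
  nonab : ¬ ⁅H, H⁆ ≤ M

theorem Chief.comap {M H : Subgroup Γ} (h : Chief F M H) {a : MulAut Γ} (ha : Pres F a)
    (ha' : Pres F a⁻¹) :
    Chief F (M.comap (a : Γ →* Γ)) (H.comap (a : Γ →* Γ)) := by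
  have h1 := h.nM
  have h2 := h.nH
  have h3 := h.fin
  refine ⟨inferInstance, inferInstance, ?_, h.hull.comap ha ha', ?_, ?_⟩
  · exact ⟨by
      rw [Subgroup.index_comap_of_surjective _ (MulEquiv.surjective a)]
      exact h3.index_ne_zero⟩
  · intro K hK h4 h5
    have h6 : (K.comap ((a⁻¹ : MulAut Γ) : Γ →* Γ)).Normal := inferInstance
    have h7 : M ≤ K.comap ((a⁻¹ : MulAut Γ) : Γ →* Γ) := by
      intro x hx
      refine h4 ?_
      change a (a⁻¹ x) ∈ M
      rwa [MulAut.apply_inv_self]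
    have h8 : K.comap ((a⁻¹ : MulAut Γ) : Γ →* Γ) ≤ H := by
      intro x hx
      have h9 : a (a⁻¹ x) ∈ H := h5 hx
      rwa [MulAut.apply_inv_self] at h9
    have h10 : ∀ x, a x ∈ K.comap ((a⁻¹ : MulAut Γ) : Γ →* Γ) ↔ x ∈ K := fun x => by
      change a⁻¹ (a x) ∈ K ↔ x ∈ K
      rw [MulAut.inv_apply_self]
    rcases h.max _ h6 h7 h8 with h9 | h9
    · left; ext x; rw [← h10 x, h9]; rfl
    · right; ext x; rw [← h10 x, h9]; rfl
  · intro h4
    refine h.nonab ?_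
    rw [Subgroup.commutator_le] at h4 ⊢
    intro x hx y hy
    have h5 := h4 (a⁻¹ x) (by change a (a⁻¹ x) ∈ H; rwa [MulAut.apply_inv_self])
      (a⁻¹ y) (by change a (a⁻¹ y) ∈ H; rwa [MulAut.apply_inv_self])
    change a ⁅a⁻¹ x, a⁻¹ y⁆ ∈ M at h5
    rwa [map_commutatorElement, MulAut.apply_inv_self, MulAut.apply_inv_self] at h5

end Vale.Agent.P011.H976
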