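import Vale.Agent.P011.H976.Act

/-!
**The reduction to the ambient group.** `G` is a normal subgroup of `U`, `F` a filter of
neighbourhoods of one in `U` containing `G` (`levels`), and finitely many elements of `G` generate a
neighbourhood of one. A normal subgroup `N` of finite index of `G` which does not contain a
neighbourhood of one gives either a homomorphism `c` of the whole group `U` to a finite group, with
a nonabelian minimal normal subgroup `R` with trivial centralizer, such that every neighbourhood of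
one has image containing `R`, or an abelian chief factor of `G` next to one. No finite generation
of `G` and no commensurability is used.
-/

open Filter Pointwise commutatorElement

namespace Vale.Agent.P011.H976

universe u

section comap

variable {U : Type u} [Group U] {G : Subgroup U} {F : Filter U}

/-- The filter on the subgroup. -/
def Fc (G : Subgroup U) (F : Filter U) : Filter G := F.comap Subtype.val

theorem mem_Fc (hG : (G : Set U) ∈ F) {L : Set G} : L ∈ Fc G F ↔ Subtype.val '' L ∈ F := by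
  rw [Fc, Filter.mem_comap]
  constructor
  · rintro ⟨t, ht, h⟩
    refine Filter.mem_of_superset (Filter.inter_mem ht hG) ?_
    rintro x ⟨hx, hxG⟩
    exact ⟨⟨x, hxG⟩, h hx, rfl⟩
  · intro h
    refine ⟨_, h, ?_⟩
    rintro x ⟨y, hy, hxy⟩
    rwa [← Subtype.ext hxy]

theorem preimage_mem_Fc {L : Set U} (hL : L ∈ F) : (Subtype.val ⁻¹' L : Set G) ∈ Fc G F :=
  ⟨L, hL, Set.Subset.rfl⟩

theorem map_mem (hG : (G : Set U) ∈ F) {M : Subgroup G} :
    (M : Set G) ∈ Fc G F ↔ ((M.map G.subtype : Subgroup U) : Set U) ∈ F := by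
  rw [mem_Fc hG]
  rfl

theorem lev_Fc (hF : Lev F) : Lev (Fc G F) where
  one := by
    rintro L ⟨t, ht, h⟩
    exact h (hF.one t ht)
  mul := by
    rintro L ⟨t, ht, h⟩
    obtain ⟨t', ht', h'⟩ := hF.mul t ht
    exact ⟨_, preimage_mem_Fc ht', fun x hx y hy => h (h' _ hx _ hy)⟩
  conj := by
    rintro g L ⟨t, ht, h⟩
    exact Filter.mem_of_superset (preimage_mem_Fc (hF.conj g t ht)) fun x hx => h hx

theorem pres_Fc [G.Normal] (hF : Lev F) (u : U) : Pres (Fc G F) (MulAut.conjNormal u) := by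
  rintro L ⟨t, ht, h⟩
  exact Filter.mem_of_superset (preimage_mem_Fc (hF.conj u t ht)) fun x hx =>
    h (by rw [Set.mem_preimage, MulAut.conjNormal_apply]; exact hx)

end comap

variable {U : Type u} [Group U] (G : Subgroup U) [G.Normal] {F : Filter U}

/-- **From a nonabelian chief factor of `G` next to one to a homomorphism of `U`.** -/
theorem exists_target_of_chief (hG : (G : Set U) ∈ F) (hF : Lev F)
    (hX : ∃ X : Set G, X.Finite ∧ (Subgroup.closure X : Set G) ∈ Fc G F)
    {M H : Subgroup G} (h : Chief (Fc G F) M H) :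
    ∃ (E : Type u) (_ : Group E) (c : U →* E) (R : Subgroup E), Target F c R ∧
      ∀ u : U, (∀ g ∈ G, u * g = g * u) → c u = 1 := by
  classical
  have hMn := h.nM
  have hHn := h.nH
  have hMf := h.fin
  have hF' := lev_Fc (G := G) hF
  set C := Cent M H with hC
  have hCn : C.Normal := inferInstance
  have hCf : C.FiniteIndex := Subgroup.finiteIndex_of_le le_Cent
  let a : U → MulAut G := fun u => MulAut.conjNormal u
  have ha : ∀ u, Pres (Fc G F) (a u) := fun u => pres_Fc hF u
  have hainv : ∀ u, (a u)⁻¹ = a u⁻¹ := fun u => (map_inv MulAut.conjNormal u).symm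
  have ha' : ∀ u, Pres (Fc G F) (a u)⁻¹ := fun u => by rw [hainv]; exact ha u⁻¹
  let Cu : U → Subgroup G := fun u => C.comap ((a u : MulAut G) : G →* G)
  -- the conjugates of `C` are finite in number
  have hfin : (Set.range Cu).Finite := by
    have h1 : ∀ u, Cu u = ((QuotientGroup.mk' C).comp ((a u : MulAut G) : G →* G)).ker := by
      intro u
      ext x
      rw [MonoidHom.mem_ker, MonoidHom.comp_apply, QuotientGroup.mk'_apply,
        QuotientGroup.eq_one_iff]
      rfl
    have h2 : ∀ u, IsFull (Fc G F) ((QuotientGroup.mk' C).comp ((a u : MulAut G) : G →* G)) := by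
      intro u L hL b hb
      refine h.full _ (ha u⁻¹ L hL) b fun g hg => ?_
      have h3 := hb _ hg
      rw [MonoidHom.comp_apply] at h3
      have h4 : ((a u : MulAut G) : G →* G) (a u⁻¹ g) = g := by
        change a u (a u⁻¹ g) = g
        rw [← hainv, MulAut.apply_inv_self]
      rwa [h4] at h3
    refine ((finite_full (A := G ⧸ C) hF' hX).image MonoidHom.ker).subset ?_
    rintro _ ⟨u, rfl⟩
    exact ⟨_, h2 u, (h1 u).symm⟩
  set s : Finset (Subgroup G) := hfin.toFinset with hs
  set M₁ : Subgroup G := s.inf id with hM₁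
  have hCun : ∀ u, (Cu u).Normal := fun u => inferInstance
  have hCuf : ∀ u, (Cu u).FiniteIndex := fun u => ⟨by
    have h1 := Subgroup.index_comap_of_surjective C (f := ((a u : MulAut G) : G →* G))
      (MulEquiv.surjective (a u))
    exact h1 ▸ hCf.index_ne_zero⟩
  have hmem : ∀ x, x ∈ M₁ ↔ ∀ u, a u x ∈ C := by
    intro x
    rw [hM₁, Finset.inf_eq_iInf, Subgroup.mem_iInf]
    simp only [Subgroup.mem_iInf, id, hs, Set.Finite.mem_toFinset, Set.mem_range,
      forall_exists_index, forall_apply_eq_imp_iff]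
    rfl
  have hM₁le : ∀ u, M₁ ≤ Cu u := fun u x hx => (hmem x).mp hx u
  have hM₁n : M₁.Normal := by
    refine ⟨fun x hx g => (hmem _).mpr fun u => ?_⟩
    rw [map_mul, map_mul, map_inv]
    exact hCn.conj_mem _ ((hmem x).mp hx u) _
  have hM₁inv : ∀ u, ∀ x ∈ M₁, a u x ∈ M₁ := by
    intro u x hx
    refine (hmem _).mpr fun v => ?_
    have : a v (a u x) = a (v * u) x := by
      change (a v * a u) x = a (v * u) x
      rw [show a (v * u) = a v * a u from map_mul MulAut.conjNormal v u]
    rw [this]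
    exact (hmem x).mp hx _
  have hM₁f : M₁.FiniteIndex := by
    have : ∀ t : Finset (Subgroup G), (∀ K ∈ t, K.FiniteIndex) → (t.inf id).FiniteIndex := by
      intro t
      induction t using Finset.induction_on with
      | empty => intro _; rw [Finset.inf_empty]; infer_instance
      | insert K t hK ih =>
        intro ht
        rw [Finset.inf_insert, id]
        have h1 := ht K (Finset.mem_insert_self _ _)
        have h2 := ih fun K' hK' => ht K' (Finset.mem_insert_of_mem hK')
        infer_instance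
    refine this s fun K hK => ?_
    rw [hs, Set.Finite.mem_toFinset] at hK
    obtain ⟨u, rfl⟩ := hK
    exact hCuf u
  have hM₁F : (M₁ : Set G) ∉ Fc G F := by
    intro h1
    have h2 : ((C ⊓ H : Subgroup G) : Set G) ∈ Fc G F := by
      rw [Subgroup.coe_inf]
      refine Filter.inter_mem (Filter.mem_of_superset h1 fun x hx => ?_) h.hull.mem
      have := (hmem x).mp hx 1
      rwa [show a 1 = 1 from map_one MulAut.conjNormal] at this
    rw [h.cent_inf] at h2
    exact h.ne (le_antisymm h.hull.le (h.hull.least M le_rfl h2))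
  obtain ⟨H₁, hH₁⟩ := exists_hull (Fc G F) M₁
  have hH₁n : H₁.Normal := hH₁.normal hF'
  have hH₁inv : ∀ u, ∀ x ∈ H₁, a u x ∈ H₁ := fun u => hH₁.inv (ha u) (hM₁inv u)
  have hperf : H₁ ≤ ⁅H₁, H₁⁆ ⊔ M₁ := by
    have h1 := (perfect_of_pair hH₁n s fun K hK => by
      rw [hs, Set.Finite.mem_toFinset] at hK
      obtain ⟨u, rfl⟩ := hK
      have h2 := h.comap (ha u) (ha' u)
      refine ⟨hCun u, h2.pair ?_ (hM₁le u) hH₁n hM₁n hH₁⟩
      rw [← Subgroup.comap_inf, h.cent_inf]).2
    rwa [← hM₁, inf_eq_right.mpr hH₁.le] at h1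
  have hne₁ : M₁ ≠ H₁ := fun h1 => hM₁F (h1 ▸ hH₁.mem)
  obtain ⟨M₂, hP, hM₁₂, hM₂H, hM₂ne, hmax⟩ := exists_max_subgroup
    (fun K : Subgroup G => ∀ u, ∀ x ∈ K, a u x ∈ K) hM₁inv hH₁.le hne₁
  have hM₂f : M₂.FiniteIndex := Subgroup.finiteIndex_of_le hM₁₂
  -- the corresponding subgroups of `U`
  have hnU : ∀ K : Subgroup G, (∀ u, ∀ x ∈ K, a u x ∈ K) → (K.map G.subtype).Normal := by
    intro K hK
    refine ⟨?_⟩
    rintro _ ⟨x, hx, rfl⟩ u
    exact ⟨a u x, hK u x hx, MulAut.conjNormal_apply u x⟩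
  set HU : Subgroup U := H₁.map G.subtype with hHU
  set MU : Subgroup U := M₂.map G.subtype with hMU
  have hHUn : HU.Normal := hnU _ hH₁inv
  have hMUn : MU.Normal := hnU _ hP
  have hMHU : MU ≤ HU := Subgroup.map_mono hM₂H
  have hHG : HU ≤ G := by
    rintro _ ⟨x, -, rfl⟩
    exact x.2
  have hHUF : (HU : Set U) ∈ F := (map_mem hG).mp hH₁.mem
  have hmaxU : ∀ K : Subgroup U, K.Normal → MU ≤ K → K ≤ HU → K = MU ∨ K = HU := by
    intro K hK h1 h2
    have hKG : K ≤ G := h2.trans hHG
    have h3 : (K.subgroupOf G).map G.subtype = K := by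
      rw [Subgroup.subgroupOf_map_subtype, inf_eq_left.mpr hKG]
    have h4 : ∀ u, ∀ x ∈ K.subgroupOf G, a u x ∈ K.subgroupOf G := by
      intro u x hx
      rw [Subgroup.mem_subgroupOf] at hx ⊢
      change ((MulAut.conjNormal u x : G) : U) ∈ K
      rw [MulAut.conjNormal_apply]
      exact hK.conj_mem _ hx u
    have h5 : M₂ ≤ K.subgroupOf G := fun x hx => h1 ⟨x, hx, rfl⟩
    have h6 : K.subgroupOf G ≤ H₁ := by
      intro x hx
      obtain ⟨y, hy, hxy⟩ := h2 hx
      rwa [← Subtype.ext hxy]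
    rcases hmax _ h4 h5 h6 with h7 | h7
    · left; rw [← h3, h7]
    · right; rw [← h3, h7]
  have hnonab : ¬ ⁅HU, HU⁆ ≤ MU := by
    intro h1
    have h2 : ⁅H₁, H₁⁆ ≤ M₂ := by
      rw [Subgroup.commutator_le] at h1 ⊢
      intro x hx y hy
      obtain ⟨z, hz, hzy⟩ := h1 (x : U) ⟨x, hx, rfl⟩ (y : U) ⟨y, hy, rfl⟩
      have : z = ⁅x, y⁆ := Subtype.ext hzy
      rwa [← this]
    exact hM₂ne (le_antisymm hM₂H (hperf.trans (sup_le h2 hM₁₂)))
  have hhull : ∀ K : Subgroup U, MU ≤ K → (K : Set U) ∈ F → HU ≤ K := by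
    intro K h1 h2
    have h3 : H₁ ≤ K.subgroupOf G := by
      refine hH₁.least _ (fun x hx => h1 ⟨x, hM₁₂ hx, rfl⟩) ?_
      exact preimage_mem_Fc h2
    rintro _ ⟨x, hx, rfl⟩
    exact h3 hx
  -- the action
  let c₀ : U →* MulAut (HU ⧸ MU.subgroupOf HU) := act MU HU
  have hfi : (MU.subgroupOf HU).FiniteIndex := by
    refine ⟨?_⟩
    change MU.relIndex HU ≠ 0
    rw [hMU, hHU, Subgroup.relIndex_map_map_of_injective _ _ (Subgroup.subtype_injective G)]
    exact relIndex_ne _ _
  have hker : ∀ u, c₀ u = 1 ↔ ∀ x ∈ HU, ⁅u, x⁆ ∈ MU := fun u => act_eq_one MU HU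
  have hkerH : ∀ x ∈ HU, c₀ x = 1 ↔ x ∈ MU := by
    have hCC : (Cent MU HU ⊓ HU : Subgroup U) = MU := by
      rcases hmaxU (Cent MU HU ⊓ HU) inferInstance (le_inf le_Cent hMHU) inf_le_right
        with h1 | h1
      · exact h1
      · refine absurd ?_ hnonab
        rw [Subgroup.commutator_le]
        intro x hx y hy
        rw [← h1] at hx
        exact mem_Cent.mp hx.1 y hy
    intro x hx
    rw [hker, ← mem_Cent]
    constructor
    · intro h1
      have h2 : x ∈ Cent MU HU ⊓ HU := ⟨h1, hx⟩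
      rwa [hCC] at h2
    · intro h1
      exact le_Cent h1
  have : Finite (HU ⧸ MU.subgroupOf HU) := inferInstance
  have hfinA : Finite (MulAut (HU ⧸ MU.subgroupOf HU)) := inferInstance
  let c : U →* c₀.range := c₀.rangeRestrict
  have hcsurj : Function.Surjective c := MonoidHom.rangeRestrict_surjective c₀
  have hc1 : ∀ u, c u = 1 ↔ c₀ u = 1 := fun u => Subtype.ext_iff
  refine ⟨c₀.range, inferInstance, c, HU.map c, ?_, ?_⟩
  · refine ⟨inferInstance, hcsurj, Subgroup.Normal.map hHUn c hcsurj, ?_, ?_, ?_, ?_, ?_⟩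
    · intro S hS hSR
      have h1 : (S.comap c ⊓ HU).Normal := inferInstance
      have h2 : S = (S.comap c ⊓ HU).map c := by
        apply le_antisymm
        · intro x hx
          obtain ⟨y, hy, rfl⟩ := hSR hx
          exact ⟨y, ⟨hx, hy⟩, rfl⟩
        · rintro _ ⟨y, hy, rfl⟩
          exact hy.1
      have h3 : MU ≤ S.comap c ⊓ HU := by
        intro x hx
        refine ⟨?_, hMHU hx⟩
        change c x ∈ S
        rw [(hc1 x).mpr ((hkerH x (hMHU hx)).mpr hx)]
        exact S.one_mem
      rcases hmaxU _ h1 h3 inf_le_right with h4 | h4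
      · left
        rw [h2, h4, Subgroup.eq_bot_iff_forall]
        rintro _ ⟨x, hx, rfl⟩
        exact (hc1 x).mpr ((hkerH x (hMHU hx)).mpr hx)
      · right
        rw [h2, h4]
    · by_contra hcon
      push Not at hcon
      refine hnonab ?_
      rw [Subgroup.commutator_le]
      intro x hx y hy
      have h1 := hcon (c x) ⟨x, hx, rfl⟩ (c y) ⟨y, hy, rfl⟩
      have h2 : ⁅x, y⁆ ∈ HU := by
        rw [commutatorElement_def]
        exact HU.mul_mem (HU.mul_mem (HU.mul_mem hx hy) (HU.inv_mem hx)) (HU.inv_mem hy)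
      rw [← hkerH _ h2, ← hc1, map_commutatorElement, commutatorElement_eq_one_iff_mul_comm]
      exact h1
    · rw [Subgroup.eq_bot_iff_forall]
      intro e he
      obtain ⟨u, rfl⟩ := hcsurj e
      rw [hc1, hker]
      intro x hx
      have h1 := Subgroup.mem_centralizer_iff.mp he (c x) ⟨x, hx, rfl⟩
      have h2 : ⁅u, x⁆ ∈ HU := by
        rw [commutatorElement_def]
        exact HU.mul_mem (hHUn.conj_mem _ hx u) (HU.inv_mem hx)
      rw [← hkerH _ h2, ← hc1, map_commutatorElement, commutatorElement_eq_one_iff_mul_comm]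
      exact h1.symm
    · exact Filter.mem_of_superset hHUF fun x hx => ⟨x, hx, rfl⟩
    · refine exists_pow_image hF c fun L hL => ?_
      have h1 : HU ≤ (Subgroup.closure L) ⊔ MU :=
        hhull _ le_sup_right (Filter.mem_of_superset hL fun x hx =>
          Subgroup.mem_sup_left (Subgroup.subset_closure hx))
      rw [← MonoidHom.map_closure]
      rintro _ ⟨x, hx, rfl⟩
      obtain ⟨y, hy, m, hm, rfl⟩ := Subgroup.mem_sup_of_normal_right.mp (h1 hx)
      refine ⟨y, hy, ?_⟩
      have h2 : c m = 1 := (hc1 m).mpr ((hkerH m (hMHU hm)).mpr hm)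
      rw [map_mul, h2, mul_one]
  · intro u hu
    rw [hc1, hker]
    intro x hx
    have h1 : ⁅u, x⁆ = 1 := commutatorElement_eq_one_iff_mul_comm.mpr (hu x (hHG hx))
    rw [h1]
    exact MU.one_mem

/-- **The reduction.** Either a homomorphism of `U` as in `Target`, or an abelian chief factor of
`G` next to one. -/
theorem exists_target (hG : (G : Set U) ∈ F) (hF : Lev F)
    (hX : ∃ X : Set G, X.Finite ∧ (Subgroup.closure X : Set G) ∈ Fc G F)
    (N : Subgroup G) [N.Normal] [N.FiniteIndex] (hN : (N : Set G) ∉ Fc G F) :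
    (∃ (E : Type u) (_ : Group E) (c : U →* E) (R : Subgroup E), Target F c R ∧
      ∀ u : U, (∀ g ∈ G, u * g = g * u) → c u = 1) ∨
    ∃ M H : Subgroup G, M.Normal ∧ H.Normal ∧ N ≤ M ∧ M.FiniteIndex ∧ IsHull (Fc G F) M H ∧
      (M : Set G) ∉ Fc G F ∧
      (∀ K : Subgroup G, K.Normal → M ≤ K → K ≤ H → K = M ∨ K = H) ∧ ⁅H, H⁆ ≤ M := by
  have hF' := lev_Fc (G := G) hF
  obtain ⟨H, hH⟩ := exists_hull (Fc G F) N
  have hHn : H.Normal := hH.normal hF'
  have hne : N ≠ H := fun h => hN (h ▸ hH.mem)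
  obtain ⟨M, hM, h1, h2, h3, h4⟩ := exists_max_subgroup (fun K : Subgroup G => K.Normal)
    ‹N.Normal› hH.le hne
  have hMf : M.FiniteIndex := Subgroup.finiteIndex_of_le h1
  have hMH : IsHull (Fc G F) M H := ⟨h2, hH.mem, fun K h5 h6 => hH.least K (h1.trans h5) h6⟩
  have hMF : (M : Set G) ∉ Fc G F := fun h5 => h3 (le_antisymm h2 (hMH.least M le_rfl h5))
  by_cases hab : ⁅H, H⁆ ≤ M
  · exact Or.inr ⟨M, H, hM, hHn, h1, hMf, hMH, hMF, h4, hab⟩
  · exact Or.inl (exists_target_of_chief G hG hF hX ⟨hM, hHn, hMf, hMH, h4, hab⟩)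

end Vale.Agent.P011.H976
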