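import Vale.Agent.P011.H976.NFLev
import Vale.Agent.P011.H976.BGen
import Vale.Agent.P011.H182.Infin

/-!
**Number fields: finitely many elements generate a level.** From cocompactness and the generation
of the special unitary group by its elements of bounded size at the place `v`.
-/

open NumberField IsDedekindDomain Module Filter

set_option linter.unusedSectionVars false

namespace Vale.Agent.P011.H976

open Vale.Agent.P011.Arith Vale.Agent.P011.Even Vale.Agent.P011.Two Vale.Agent.P011.One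
  Vale.Agent.P011.H182

/-- The generation argument. -/
theorem fg_abs {Γ : Type} [Group Γ] {S Lam : Set Γ} {near : Γ → Γ → Prop}
    (hS : ∀ a, a ∈ Subgroup.closure S) (h1S : (1 : Γ) ∈ S) (h1 : (1 : Γ) ∈ Lam)
    (h11 : near 1 1) (hc : ∀ a, ∃ g ∈ Lam, near g a) (a g : Γ) (hg : g ∈ Lam) (hga : near g a) :
    g ∈ Subgroup.closure {x | ∃ g ∈ Lam, ∃ g' ∈ Lam, ∃ a a', near g a ∧ near g' a' ∧
      a' * a⁻¹ ∈ S ∧ x = g' * g⁻¹} := by
  set X := {x | ∃ g ∈ Lam, ∃ g' ∈ Lam, ∃ a a', near g a ∧ near g' a' ∧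
      a' * a⁻¹ ∈ S ∧ x = g' * g⁻¹} with hX
  have ha := hS a
  revert g
  induction ha using Subgroup.closure_induction_left with
  | one =>
    intro g hg hga
    apply Subgroup.subset_closure
    exact ⟨1, h1, g, hg, 1, 1, h11, hga, by rwa [mul_inv_cancel], by rw [inv_one, mul_one]⟩
  | mul_left x hx y hy ih =>
    intro g hg hga
    obtain ⟨g0, hg0, hg0y⟩ := hc y
    have h2 : g * g0⁻¹ ∈ X := ⟨g0, hg0, g, hg, y, x * y, hg0y, hga, by
      rwa [mul_inv_cancel_right], rfl⟩
    have h3 := Subgroup.mul_mem _ (Subgroup.subset_closure h2) (ih g0 hg0 hg0y)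
    rwa [inv_mul_cancel_right] at h3
  | inv_mul_cancel x hx y hy ih =>
    intro g hg hga
    obtain ⟨g0, hg0, hg0y⟩ := hc y
    have h2 : g0 * g⁻¹ ∈ X := ⟨g, hg, g0, hg0, x⁻¹ * y, y, hga, hg0y, by
      rw [mul_inv_rev, inv_inv, mul_inv_cancel_left]
      exact hx, rfl⟩
    have h3 := Subgroup.mul_mem _ (Subgroup.inv_mem _ (Subgroup.subset_closure h2))
      (ih g0 hg0 hg0y)
    rwa [mul_inv_rev, inv_inv, inv_mul_cancel_right] at h3

variable {k K D : Type} [Field k] [NumberField k] [Field K] [NumberField K] [StarRing K]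
  [DivisionRing D] [StarRing D] [Algebra k K] [Algebra k D] [Algebra K D] [IsScalarTower k K D]
  {d : kˣ} {s : K} {Ω : Type} [Field Ω] [Algebra K Ω] {n N : ℕ}

/-- Elements which are bounded at all places form a finite set. -/
theorem finite_bdd_D (B : Basis (Fin N) k D) {M : HeightOneSpectrum (𝓞 k) → ℝ}
    (hM : {w | M w ≠ 1}.Finite) (R : ℝ) :
    {x : D | (∀ w i, fa w (B.repr x i) ≤ M w) ∧ ∀ (φ : k →+* ℂ) i, ‖φ (B.repr x i)‖ ≤ R}.Finite := by
  refine Set.Finite.of_finite_image (f := fun y : D => fun i => B.repr y i)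
    ((Set.Finite.pi (fun _ => finite_bounded hM R)).subset ?_) ?_
  · rintro _ ⟨y, hy, rfl⟩
    exact fun i _ => ⟨fun w => hy.1 w i, fun φ => hy.2 φ i⟩
  · intro x _ y _ h
    apply B.repr.injective
    ext i
    exact congrFun h i

/-- **Finitely many elements generate a level.** -/
theorem fg_lvF (hS : Setting k K D d s) (hn : 0 < n) (hdeg : finrank K D = n ^ 2)
    (f : D →ₐ[K] Matrix (Fin n) (Fin n) Ω) (B : Basis (Fin N) k D)
    (v : HeightOneSpectrum (𝓞 k)) (hv : d ∈ LS (v.valuation k))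
    (hT : (Sum.inl v : Pl k) ∉ Tdiv k K D) :
    ∃ X : Set (GD f), X.Finite ∧
      (Subgroup.closure X : Set (GD f)) ∈ Fc (GD f) (lvF f B {v}) := by
  classical
  have hst : ∀ (c : k) (x : D), star (c • x) = c • star x := fun c x => (Setting.sig hS).map_smul c x
  obtain ⟨C0, hC0⟩ := bgen_fin hS hdeg f B v hv hT
  obtain ⟨M, hM, R, hR⟩ := coc_all hS hn hdeg f B v
  -- constants
  choose Cw hCw1 hCwm hCws using fun w : HeightOneSpectrum (𝓞 k) => na_const B (fa w) hst
  choose Cφ hCφ1 hCφm hCφs using fun φ : k →+* ℂ => na_const B (cAbv φ) hst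
  obtain ⟨Rs, hRs⟩ : ∃ Rs : ℝ, Rs = ∑ φ : k →+* ℂ, na B (cAbv φ) (1 : D) := ⟨_, rfl⟩
  obtain ⟨R1, hR1⟩ : ∃ R1 : ℝ, R1 = |R| + Rs + na B (fa v) (1 : D) + 1 := ⟨_, rfl⟩
  have hRs0 : 0 ≤ Rs := by rw [hRs]; exact Finset.sum_nonneg fun _ _ => na_nonneg _ _ _
  have hRsφ : ∀ φ : k →+* ℂ, na B (cAbv φ) (1 : D) ≤ Rs := fun φ => by
    rw [hRs]
    exact Finset.single_le_sum (f := fun φ : k →+* ℂ => na B (cAbv φ) (1 : D))
      (fun _ _ => na_nonneg _ _ _) (Finset.mem_univ φ)
  have hv1 := na_nonneg B (fa v) (1 : D)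
  have hRR1 : R ≤ R1 := by
    have := le_abs_self R
    rw [hR1]; linarith
  have habs := abs_nonneg R
  have hR1φ : ∀ φ : k →+* ℂ, na B (cAbv φ) (1 : D) + 1 ≤ R1 := fun φ => by
    have := hRsφ φ
    rw [hR1]; linarith
  have hR1v : na B (fa v) (1 : D) ≤ R1 := by rw [hR1]; linarith
  have hR10 : 0 ≤ R1 := hv1.trans hR1v
  obtain ⟨T, hTd⟩ : ∃ T, T = Bad B ∪ {w | M w ≠ 1} := ⟨_, rfl⟩
  have hTf : T.Finite := by rw [hTd]; exact (finite_Bad B).union hM
  have hbT : Bad B ⊆ T := by rw [hTd]; exact Set.subset_union_left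
  obtain ⟨M1, hM1d⟩ : ∃ M1 : HeightOneSpectrum (𝓞 k) → ℝ, M1 = fun w =>
      if w ∈ T then |M w| + na B (fa w) (1 : D) + 1 else 1 := ⟨_, rfl⟩
  have hM1T : ∀ w ∈ T, M1 w = |M w| + na B (fa w) (1 : D) + 1 := fun w hw => by
    rw [hM1d]; exact if_pos hw
  have hM1n : ∀ w ∉ T, M1 w = 1 := fun w hw => by
    rw [hM1d]; exact if_neg hw
  have hM10 : ∀ w, 0 ≤ M1 w := fun w => by
    by_cases hw : w ∈ T
    · rw [hM1T w hw]
      have := na_nonneg B (fa w) (1 : D)
      positivity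
    · rw [hM1n w hw]; exact zero_le_one
  have hMM1 : ∀ w, M w ≤ M1 w := fun w => by
    by_cases hw : w ∈ T
    · rw [hM1T w hw]
      have := na_nonneg B (fa w) (1 : D)
      have := le_abs_self (M w)
      linarith
    · rw [hM1n w hw]
      have : M w = 1 := by
        by_contra hcon
        exact hw (by rw [hTd]; exact Or.inr hcon)
      exact this.le
  have hgd : ∀ w ∉ T, Gd B (fa w) := fun w hw => by
    by_contra hcon
    exact hw (hbT hcon)
  -- the elements of a level are bounded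
  have hlev : ∀ g : D, g * star g = 1 → g ∈ Lv B {v} T 1 → g ∈ Bnd B {v} M1 R1 := by
    rintro g hg ⟨h1, h2, h3⟩
    have hna : ∀ a : AbsoluteValue k ℝ, na B a (g - 1) < 1 → na B a g ≤ na B a 1 + 1 := by
      intro a ha
      have := na_add_le B a (g - 1) 1
      rw [sub_add_cancel] at this
      linarith
    refine ⟨hg, fun w hw i => ?_, fun φ i => ?_⟩
    · by_cases hwT : w ∈ T
      · rw [hM1T w hwT]
        refine (coord_le_na B (fa w) g i).trans ((hna _ (h1 w hwT hw)).trans ?_)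
        have := abs_nonneg (M w)
        linarith
      · rw [hM1n w hwT]
        exact h2 w hwT hw i
    · exact (coord_le_na B (cAbv φ) g i).trans ((hna _ (h3 φ)).trans (hR1φ φ))
  let Sg : Set (SUD f) := {g | na B (fa v) (((g : SUD f) : Dˣ) : D) ≤ max C0 R1}
  let Lam : Set (SUD f) := {g | (((g : SUD f) : Dˣ) : D) ∈ Bnd B {v} M1 R1}
  let near : SUD f → SUD f → Prop := fun g a =>
    na B (fa v) ((((g * a⁻¹ : SUD f)) : Dˣ) : D) ≤ R1
  have key := fg_abs (S := Sg) (Lam := Lam) (near := near) (fun a => by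
      refine Subgroup.closure_mono ?_ (hC0 a)
      intro g hg
      exact le_trans (b := C0) hg (le_max_left _ _)) (by
      change na B (fa v) (((1 : SUD f) : Dˣ) : D) ≤ max C0 R1
      rw [Subgroup.coe_one, Units.val_one]
      exact hR1v.trans (le_max_right _ _)) (by
      change (((1 : SUD f) : Dˣ) : D) ∈ Bnd B {v} M1 R1
      rw [Subgroup.coe_one, Units.val_one]
      exact hlev 1 (by rw [star_one, one_mul]) (lv_one one_pos hbT)) (by
      change na B (fa v) (((1 * 1⁻¹ : SUD f) : Dˣ) : D) ≤ R1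
      rw [inv_one, mul_one, Subgroup.coe_one, Units.val_one]
      exact hR1v) (fun a => by
      obtain ⟨g, hgG, ⟨hg1, hg2, hg3⟩, hga⟩ := hR _ a.2
      obtain ⟨g0, hg0, hg'⟩ := exists_SUD hgG
      refine ⟨⟨g0, hg0⟩, ?_, ?_⟩
      · change (g0 : D) ∈ Bnd B {v} M1 R1
        rw [hg']
        exact ⟨hg1, fun w hw i => (hg2 w hw i).trans (hMM1 w), fun φ i => (hg3 φ i).trans hRR1⟩
      · change na B (fa v) ((g0 : D) * (((a⁻¹ : SUD f) : Dˣ) : D)) ≤ R1
        rw [Subgroup.coe_inv, Units.val_inv_eq_inv_val, hg']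
        exact hga.trans hRR1)
  obtain ⟨X, hX⟩ : ∃ X : Set (SUD f), X = {x | ∃ g ∈ Lam, ∃ g' ∈ Lam, ∃ a a', near g a ∧
      near g' a' ∧ a' * a⁻¹ ∈ Sg ∧ x = g' * g⁻¹} := ⟨_, rfl⟩
  rw [← hX] at key
  -- the inverse is the conjugate
  have hinv : ∀ g : SUD f, (((g⁻¹ : SUD f) : Dˣ) : D) = star (((g : SUD f) : Dˣ) : D) := by
    intro g
    rw [Subgroup.coe_inv, Units.val_inv_eq_inv_val]
    exact inv_eq_of_mul_eq_one_right g.2.1
  have hmulc : ∀ g g' : SUD f, (((g * g' : SUD f) : Dˣ) : D) =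
      (((g : SUD f) : Dˣ) : D) * (((g' : SUD f) : Dˣ) : D) := fun _ _ => rfl
  -- finiteness
  have hXf : X.Finite := by
    obtain ⟨bv, hbv⟩ : ∃ bv : ℝ, bv = Cw v * (Cw v * R1 * max C0 R1) * (Cw v * R1) := ⟨_, rfl⟩
    obtain ⟨M2, hM2d⟩ : ∃ M2 : HeightOneSpectrum (𝓞 k) → ℝ, M2 = fun w =>
      if w ∈ insert v T then (if w = v then bv else
        Cw w * (N * M1 w) * (Cw w * (N * M1 w))) else 1 := ⟨_, rfl⟩
    have hM2f : {w | M2 w ≠ 1}.Finite := by
      refine (hTf.insert v).subset fun w hw => ?_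
      by_contra hcon
      apply hw
      rw [hM2d]
      exact if_neg hcon
    obtain ⟨R2, hR2⟩ : ∃ R2 : ℝ, R2 = ∑ φ : k →+* ℂ, Cφ φ * (N * R1) * (Cφ φ * (N * R1)) :=
      ⟨_, rfl⟩
    have hR2φ : ∀ φ : k →+* ℂ, Cφ φ * (N * R1) * (Cφ φ * (N * R1)) ≤ R2 := fun φ => by
      rw [hR2]
      refine Finset.single_le_sum
        (f := fun φ : k →+* ℂ => Cφ φ * (N * R1) * (Cφ φ * (N * R1)))
        (fun φ _ => ?_) (Finset.mem_univ φ)
      have := hCφ1 φ
      positivity
    refine Set.Finite.of_finite_image (f := fun x : SUD f => (((x : SUD f) : Dˣ) : D))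
      ((finite_bdd_D B hM2f R2).subset ?_) (fun x _ y _ h => Subtype.ext (Units.ext h))
    rintro _ ⟨x, hx, rfl⟩
    rw [hX] at hx
    obtain ⟨g, ⟨hg1, hg2, hg3⟩, g', ⟨hg1', hg2', hg3'⟩, a, a', hga, hga', haa, rfl⟩ := hx
    have hxe : ((((g' * g⁻¹ : SUD f)) : Dˣ) : D) =
        (((g' : SUD f) : Dˣ) : D) * star (((g : SUD f) : Dˣ) : D) := by rw [hmulc, hinv]
    refine ⟨fun w i => ?_, fun φ i => ?_⟩
    · by_cases hwv : w = v
      · subst hwv
        have e : M2 w = bv := by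
          rw [hM2d]
          change (if w ∈ insert w T then _ else _) = _
          rw [if_pos (Set.mem_insert _ _), if_pos rfl]
        rw [e]
        refine (coord_le_na B (fa w) _ i).trans ?_
        have e1 : g' * g⁻¹ = (g' * a'⁻¹) * (a' * a⁻¹) * (g * a⁻¹)⁻¹ := by group
        change na B (fa w) ((((g' * g⁻¹ : SUD f)) : Dˣ) : D) ≤ bv
        rw [e1, hmulc, hmulc (g' * a'⁻¹), hinv, hbv]
        have hC := hCw1 w
        have hC0' : 0 ≤ Cw w := by linarith
        have n1 := na_nonneg B (fa w) ((((g' * a'⁻¹ : SUD f)) : Dˣ) : D)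
        have n2 := na_nonneg B (fa w) ((((a' * a⁻¹ : SUD f)) : Dˣ) : D)
        have n3 := na_nonneg B (fa w) (star ((((g * a⁻¹ : SUD f)) : Dˣ) : D))
        have n4 : 0 ≤ max C0 R1 := n2.trans haa
        have b1 : na B (fa w) (star ((((g * a⁻¹ : SUD f)) : Dˣ) : D)) ≤ Cw w * R1 :=
          (hCws w _).trans (mul_le_mul_of_nonneg_left hga hC0')
        have b2 : na B (fa w) (((((g' * a'⁻¹ : SUD f)) : Dˣ) : D) *
            ((((a' * a⁻¹ : SUD f)) : Dˣ) : D)) ≤ Cw w * R1 * max C0 R1 := by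
          refine (hCwm w _ _).trans ?_
          exact mul_le_mul (mul_le_mul_of_nonneg_left hga' hC0') haa n2 (by positivity)
        refine (hCwm w _ _).trans ?_
        exact mul_le_mul (mul_le_mul_of_nonneg_left b2 hC0') b1 n3 (by positivity)
      · have hwv' : w ∉ ({v} : Set (HeightOneSpectrum (𝓞 k))) := hwv
        by_cases hwT : w ∈ T
        · have e : M2 w = Cw w * (N * M1 w) * (Cw w * (N * M1 w)) := by
            rw [hM2d]
            change (if w ∈ insert v T then _ else _) = _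
            rw [if_pos (Set.mem_insert_of_mem _ hwT), if_neg hwv]
          rw [e]
          refine (coord_le_na B (fa w) _ i).trans ?_
          change na B (fa w) ((((g' * g⁻¹ : SUD f)) : Dˣ) : D) ≤ _
          rw [hxe]
          have hC0' : 0 ≤ Cw w := zero_le_one.trans (hCw1 w)
          have hm := hM10 w
          have b1 := na_le_of_coord B (fa w) (hg2 w hwv')
          have b2 := na_le_of_coord B (fa w) (hg2' w hwv')
          have n1 := na_nonneg B (fa w) (star (((g : SUD f) : Dˣ) : D))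
          refine (hCwm w _ _).trans ?_
          exact mul_le_mul (mul_le_mul_of_nonneg_left b2 hC0')
            ((hCws w _).trans (mul_le_mul_of_nonneg_left b1 hC0')) n1 (by positivity)
        · have e : M2 w = 1 := by
            rw [hM2d]
            change (if w ∈ insert v T then _ else _) = _
            rw [if_neg]
            intro h
            rcases h with h | h
            · exact hwv h
            · exact hwT h
          rw [e]
          change fa w (B.repr ((((g' * g⁻¹ : SUD f)) : Dˣ) : D) i) ≤ 1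
          rw [hxe]
          have i1 : Ig B (fa w) (((g : SUD f) : Dˣ) : D) := fun i => by
            have := hg2 w hwv' i
            rwa [hM1n w hwT] at this
          have i2 : Ig B (fa w) (((g' : SUD f) : Dˣ) : D) := fun i => by
            have := hg2' w hwv' i
            rwa [hM1n w hwT] at this
          exact (hgd w hwT).mul' i2 ((hgd w hwT).star hst i1) i
    · refine (coord_le_na B (cAbv φ) _ i).trans ?_
      change na B (cAbv φ) ((((g' * g⁻¹ : SUD f)) : Dˣ) : D) ≤ _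
      rw [hxe]
      have hC0' : 0 ≤ Cφ φ := zero_le_one.trans (hCφ1 φ)
      have b1 := na_le_of_coord B (cAbv φ) (hg3 φ)
      have b2 := na_le_of_coord B (cAbv φ) (hg3' φ)
      have n1 := na_nonneg B (cAbv φ) (star (((g : SUD f) : Dˣ) : D))
      refine (hCφm φ _ _).trans (le_trans ?_ (hR2φ φ))
      exact mul_le_mul (mul_le_mul_of_nonneg_left b2 hC0')
        ((hCφs φ _).trans (mul_le_mul_of_nonneg_left b1 hC0')) n1 (by positivity)
  -- transfer
  refine ⟨(eGD f) ⁻¹' X, hXf.preimage (eGD f).injective.injOn, ?_⟩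
  rw [mem_Fc (GD_mem_lvF f B {v})]
  refine ⟨T, hTf, hbT, 1, one_pos, fun g hg hgG => ?_⟩
  refine ⟨⟨g, hgG⟩, ?_, rfl⟩
  have h1 : eGD f ⟨g, hgG⟩ ∈ Subgroup.closure X := by
    refine key (eGD f ⟨g, hgG⟩) (eGD f ⟨g, hgG⟩) (hlev _ g.2 hg) ?_
    change na B (fa v) ((((eGD f ⟨g, hgG⟩ * (eGD f ⟨g, hgG⟩)⁻¹ : SUD f)) : Dˣ) : D) ≤ R1
    rw [mul_inv_cancel, Subgroup.coe_one, Units.val_one]
    exact hR1v
  have h2 : Subgroup.closure ((eGD f) ⁻¹' X) = (Subgroup.closure X).comap (eGD f : GD f →* SUD f) := by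
    have h3 := MonoidHom.map_closure ((eGD f).symm : SUD f →* GD f) X
    have h4 : ((eGD f).symm : SUD f →* GD f) '' X = (eGD f) ⁻¹' X := by
      change (eGD f).symm '' X = _
      exact (eGD f).toEquiv.symm.image_eq_preimage_symm X
    rw [h4] at h3
    rw [← h3]
    ext y
    constructor
    · rintro ⟨z, hz, rfl⟩
      change eGD f ((eGD f).symm z) ∈ Subgroup.closure X
      rwa [MulEquiv.apply_symm_apply]
    · intro hy
      exact ⟨eGD f y, hy, MulEquiv.symm_apply_apply _ _⟩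
  rw [SetLike.mem_coe, h2]
  exact h1

end Vale.Agent.P011.H976
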