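import Vale.Agent.P011.One.GLGen

/-!
The commutator subgroup of the general linear group of degree at least two over a division ring
lies in the group generated by the elementary transvections; conjugation of the transvections by
diagonal elements.
-/

open Matrix

namespace Vale.Agent.P011.H976

open Vale.Agent.P011.One

variable {E : Type} [DivisionRing E] {r : ℕ}

/-- The diagonal element. -/
def dgU (w : Fin r → Eˣ) : (Matrix (Fin r) (Fin r) E)ˣ where
  val := Matrix.diagonal fun i => (w i : E)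
  inv := Matrix.diagonal fun i => ((w i)⁻¹ : Eˣ)
  val_inv := by
    rw [Matrix.diagonal_mul_diagonal]
    simp
  inv_val := by
    rw [Matrix.diagonal_mul_diagonal]
    simp

theorem dgU_val (w : Fin r → Eˣ) : ((dgU w : (Matrix (Fin r) (Fin r) E)ˣ) :
    Matrix (Fin r) (Fin r) E) = Matrix.diagonal fun i => (w i : E) := rfl

theorem dgU_mul (w w' : Fin r → Eˣ) : dgU w * dgU w' = dgU (w * w') := by
  apply Units.ext
  rw [Units.val_mul, dgU_val, dgU_val, dgU_val, Matrix.diagonal_mul_diagonal]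
  rfl

theorem dgU_one : dgU (1 : Fin r → Eˣ) = 1 := by
  apply Units.ext
  rw [dgU_val]
  simp

theorem dgU_inv (w : Fin r → Eˣ) : (dgU w)⁻¹ = dgU w⁻¹ := by
  rw [inv_eq_iff_mul_eq_one, dgU_mul, mul_inv_cancel, dgU_one]

theorem dgU_pow (w : Fin r → Eˣ) (m : ℕ) : dgU w ^ m = dgU (w ^ m) := by
  induction m with
  | zero => rw [pow_zero, pow_zero, dgU_one]
  | succ m ih => rw [pow_succ, ih, dgU_mul, pow_succ]

theorem dgu_eq (i : Fin r) (x : Eˣ) : dgu i x = dgU (Pi.mulSingle i x) := by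
  apply Units.ext
  have h1 : ((dgu i x : (Matrix (Fin r) (Fin r) E)ˣ) : Matrix (Fin r) (Fin r) E) =
      Matrix.diagonal (Pi.mulSingle i (x : E)) := rfl
  rw [h1, dgU_val]
  congr 1
  funext a
  by_cases h : a = i
  · subst h
    rw [Pi.mulSingle_eq_same, Pi.mulSingle_eq_same]
  · rw [Pi.mulSingle_eq_of_ne h, Pi.mulSingle_eq_of_ne h, Units.val_one]

/-- Conjugation of a transvection by a diagonal element. -/
theorem dgU_conj (w : Fin r → Eˣ) {i j : Fin r} (hij : i ≠ j) (c : E) :
    dgU w * tvu hij c * (dgU w)⁻¹ = tvu hij ((w i : E) * c * ((w j)⁻¹ : Eˣ)) := by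
  rw [mul_inv_eq_iff_eq_mul]
  apply Units.ext
  rw [Units.val_mul, Units.val_mul, dgU_val, tvu_val, tvu_val]
  ext a b
  rw [Matrix.diagonal_mul, Matrix.mul_diagonal, Matrix.add_apply, Matrix.add_apply]
  by_cases h : i = a ∧ j = b
  · obtain ⟨rfl, rfl⟩ := h
    rw [Matrix.one_apply_ne hij, Matrix.single_apply_same, Matrix.single_apply_same, zero_add,
      zero_add, mul_assoc, mul_assoc, Units.inv_mul, mul_one]
  · rw [Matrix.single_apply_of_ne (h := h), Matrix.single_apply_of_ne (h := h), add_zero]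
    by_cases hab : a = b
    · subst hab
      rw [Matrix.one_apply_eq, mul_one, one_mul]
    · rw [Matrix.one_apply_ne hab, mul_zero, zero_mul]

theorem tvu_mul {i j : Fin r} (hij : i ≠ j) (c c' : E) :
    tvu hij c * tvu hij c' = tvu hij (c + c') := by
  apply Units.ext
  rw [Units.val_mul, tvu_val, tvu_val, tvu_val, mul_add, mul_one, add_mul, one_mul,
    Matrix.single_mul_single_of_ne _ _ _ _ hij.symm, add_zero, Matrix.single_add, add_assoc]

theorem tvu_inv {i j : Fin r} (hij : i ≠ j) (c : E) : (tvu hij c)⁻¹ = tvu hij (-c) := by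
  rw [inv_eq_iff_mul_eq_one, tvu_mul, add_neg_cancel]
  apply Units.ext
  rw [tvu_val, Matrix.single_zero, add_zero, Units.val_one]

/-- The group generated by the transvections. -/
def Tv (r : ℕ) (E : Type) [DivisionRing E] : Subgroup (Matrix (Fin r) (Fin r) E)ˣ :=
  Subgroup.closure {g | ∃ (i j : Fin r) (hij : i ≠ j) (c : E), g = tvu hij c}

theorem tvu_mem {i j : Fin r} (hij : i ≠ j) (c : E) : tvu hij c ∈ Tv r E :=
  Subgroup.subset_closure ⟨i, j, hij, c, rfl⟩

instance : (Tv r E).Normal := by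
  rw [← Subgroup.normalizer_eq_top_iff, eq_top_iff]
  intro g _
  refine gauss _ (fun i j hij c => ?_) (fun a x => ?_) r 0 (zero_add r) g
    fun a ha => absurd ha (Nat.not_lt_zero _)
  · exact Subgroup.le_normalizer (tvu_mem hij c)
  · have key : ∀ y : Eˣ, ∀ g ∈ Tv r E, dgu a y * g * (dgu a y)⁻¹ ∈ Tv r E := by
      intro y g hg
      have h1 : Tv r E ≤ (Tv r E).comap (MulAut.conj (dgu a y)).toMonoidHom := by
        rw [Tv, Subgroup.closure_le]
        rintro _ ⟨i, j, hij, c, rfl⟩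
        change dgu a y * tvu hij c * (dgu a y)⁻¹ ∈ Tv r E
        rw [dgu_eq, dgU_conj]
        exact tvu_mem _ _
      exact h1 hg
    rw [Subgroup.mem_normalizer_iff]
    intro g
    refine ⟨key x g, fun h => ?_⟩
    have h2 := key x⁻¹ _ h
    rw [map_inv, inv_inv] at h2
    have h3 : (dgu a x)⁻¹ * (dgu a x * g * (dgu a x)⁻¹) * dgu a x = g := by group
    rwa [h3] at h2

/-- **The commutators are products of transvections.** -/
theorem comm_le_Tv (hr : 2 ≤ r) : commutator (Matrix (Fin r) (Fin r) E)ˣ ≤ Tv r E :=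
  comm_le_of_tvu hr (Tv r E) fun _ _ hij c => tvu_mem hij c

/-- A transvection is a commutator. -/
theorem tvu_comm {i j : Fin r} (hij : i ≠ j) (h2 : (2 : E) ≠ 0) (c : E) :
    dgu i (Units.mk0 2 h2) * tvu hij c * (dgu i (Units.mk0 2 h2))⁻¹ * (tvu hij c)⁻¹ =
      tvu hij c := by
  rw [dgu_eq, dgU_conj, tvu_inv, tvu_mul, Pi.mulSingle_eq_same, Pi.mulSingle_eq_of_ne hij.symm,
    inv_one, Units.val_one, mul_one, Units.val_mk0, two_mul, add_neg_cancel_right]

/-- The torus element as a commutator. -/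
theorem dgu_comm {i j : Fin r} (hij : i ≠ j) (x : Eˣ) : ∃ w : (Matrix (Fin r) (Fin r) E)ˣ,
    dgu i x * w * (dgu i x)⁻¹ * w⁻¹ = dgU (Pi.mulSingle i x * Pi.mulSingle j x⁻¹) := by
  refine ⟨tvu hij (1 : E) * tvu hij.symm (-1 : E) * tvu hij 1, ?_⟩
  have h1 := weyl hij x⁻¹
  set w := tvu hij (1 : E) * tvu hij.symm (-1 : E) * tvu hij 1
  have h2 : dgu i x * w * (dgu i x)⁻¹ * w⁻¹ = dgu i x * (w * dgu i x⁻¹ * w⁻¹) := by
    rw [map_inv]
    group
  rw [h2, h1, mul_inv_cancel_right, dgu_eq, dgu_eq, dgU_mul]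

end Vale.Agent.P011.H976
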