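import Vale.Agent.P011.H976.RHNF
import Vale.Agent.P011.H359.NoSgd
import Vale.Agent.P011.Tpl.H7.UDefs

/-!
**From the conjecture in odd degree to the conjecture in the degrees `m * 2 ^ e`**, and its form
with the group `H_A`.
-/

open Module NumberField IsDedekindDomain TensorProduct Topology

set_option linter.unusedSectionVars false

namespace Vale.Agent.P011.H976

open Vale.Agent.P011.Arith Vale.Agent.P011.Even Vale.Agent.P011.Two Vale.Agent.P011.One
  Vale.Agent.P011.Pow

/-- All degrees `m * 2 ^ e` from the degree `m` and the doubling step. -/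
theorem mp_mul_two_pow {m : ℕ} (hm : 3 ≤ m) (hMP : MP m) (hd : MP m → Solv (2 * m)) (e : ℕ) :
    MP (m * 2 ^ e) := by
  rcases Nat.eq_zero_or_pos e with rfl | he
  · rw [pow_zero, mul_one]
    exact hMP
  · obtain ⟨e', rfl⟩ : ∃ e', e = e' + 1 := ⟨e - 1, by omega⟩
    have h1 : m * 2 ^ (e' + 1) = 2 * m * 2 ^ e' := by
      rw [pow_succ]
      ring
    rw [h1]
    exact H359.mp_double_pow (by omega) (mp_of_solv' (by omega) (hd hMP)) e'

/-- The form with the group `H_A`. -/
theorem mpOpen_of_mp {k K D F : Type} [Field k] [NumberField k] [Field K] [NumberField K]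
    [Algebra k K] [StarRing K] [DivisionRing D] [StarRing D] [Algebra k D] [Algebra K D]
    [IsScalarTower k K D] [StarModule K D] [FiniteDimensional K D] [Algebra.IsCentral K D]
    [Field F] [Algebra K F] (hfix : ∀ x : K, star x = x ↔ x ∈ Set.range (algebraMap k K))
    (hK : ∃ x : K, star x ≠ x) {n : ℕ} (hn : 3 ≤ n) (hdeg : finrank K D = n ^ 2) (hMP : MP n)
    (f : D →ₐ[K] Matrix (Fin n) (Fin n) F) : MPOpen k f := by
  obtain ⟨d, s, hS⟩ := exists_setting (D := D) hfix hK
  exact Tpl.H359.q1_gen hn hS (Tpl.H359.star_fix hfix) hdeg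
    (fun Ω _ _ f M B N _ hi => hMP k K D d s hS hdeg Ω f M B N hi) f

end Vale.Agent.P011.H976
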