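import Vale.Agent.P011.H976.PlusNF
import Vale.Agent.P011.Tpl.H359.QGen

/-!
**The normal subgroups of finite index which are not open, in terms of the group `H_A`.**
-/

open Module NumberField IsDedekindDomain TensorProduct Topology
open scoped commutatorElement

set_option linter.unusedSectionVars false

namespace Vale.Agent.P011.H976

open Vale.Agent.P011.Arith Vale.Agent.P011.Even Vale.Agent.P011.Two Vale.Agent.P011.One

section near

variable {k D : Type} [Field k] [NumberField k] [DivisionRing D] [Algebra k D]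
  [FiniteDimensional k D] {M : ℕ} (B : Basis (Fin M) k D)

/-- The diagonal map is continuous at one for the coordinate norms. -/
theorem near_of_isOpen {A : Set (HeightOneSpectrum (𝓞 k))}
    {O : Set (∀ v : A, (v : HeightOneSpectrum (𝓞 k)).adicCompletion k ⊗[k] D)}
    (hO : IsOpen[prodTop A D] O) (h1 : delta A (1 : D) ∈ O) :
    ∃ ε : ℝ, 0 < ε ∧ ∀ x : D, (∀ v ∈ A, Even.nm B (.inl v) (x - 1) < ε) → delta A x ∈ O := by
  classical
  let _ : ∀ v : A, TopologicalSpace ((v : HeightOneSpectrum (𝓞 k)).adicCompletion k ⊗[k] D) :=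
    fun v => moduleTopology ((v : HeightOneSpectrum (𝓞 k)).adicCompletion k) _
  have hmt : ∀ v : A, IsModuleTopology ((v : HeightOneSpectrum (𝓞 k)).adicCompletion k)
      ((v : HeightOneSpectrum (𝓞 k)).adicCompletion k ⊗[k] D) := fun v => ⟨rfl⟩
  have hta : ∀ v : A, ContinuousAdd
      ((v : HeightOneSpectrum (𝓞 k)).adicCompletion k ⊗[k] D) := fun v =>
    IsModuleTopology.toContinuousAdd ((v : HeightOneSpectrum (𝓞 k)).adicCompletion k) _
  obtain ⟨F, U, hU, hUV⟩ := isOpen_pi_iff.mp hO _ h1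
  have h2 : ∀ v : A, ∃ ε : ℝ, 0 < ε ∧ (v ∈ F → ∀ y : (v : HeightOneSpectrum (𝓞 k)).adicCompletion k
      ⊗[k] D, (∀ i : Fin M,
        ‖(Algebra.TensorProduct.basis ((v : HeightOneSpectrum (𝓞 k)).adicCompletion k) B).repr
          (y - delta A (1 : D) v) i‖ < ε) → y ∈ U v) := by
    intro v
    by_cases hv : v ∈ F
    · let b := Algebra.TensorProduct.basis ((v : HeightOneSpectrum (𝓞 k)).adicCompletion k) B
      have hc : Continuous fun y : Fin M → (v : HeightOneSpectrum (𝓞 k)).adicCompletion k =>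
          b.equivFun.symm y :=
        IsModuleTopology.continuous_of_linearMap b.equivFun.symm.toLinearMap
      have h2 : IsOpen ((fun y : Fin M → (v : HeightOneSpectrum (𝓞 k)).adicCompletion k =>
          b.equivFun.symm y) ⁻¹' U v) := (hU v hv).1.preimage hc
      have h3 : b.equivFun (delta A (1 : D) v) ∈ (fun y : Fin M →
          (v : HeightOneSpectrum (𝓞 k)).adicCompletion k => b.equivFun.symm y) ⁻¹' U v := by
        rw [Set.mem_preimage, LinearEquiv.symm_apply_apply]
        exact (hU v hv).2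
      obtain ⟨ε, hε, h4⟩ := Metric.isOpen_iff.mp h2 _ h3
      refine ⟨ε, hε, fun _ y hy => ?_⟩
      have h5 : b.equivFun y ∈ Metric.ball (b.equivFun (delta A (1 : D) v)) ε := by
        rw [Metric.mem_ball, dist_pi_lt_iff hε]
        intro i
        rw [dist_eq_norm]
        have h6 := hy i
        rw [map_sub, Finsupp.sub_apply] at h6
        exact h6
      have h7 := h4 h5
      rwa [Set.mem_preimage, LinearEquiv.symm_apply_apply] at h7
    · exact ⟨1, one_pos, fun h => absurd h hv⟩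
  choose ε hε hεU using h2
  obtain ⟨r, hr, hrε⟩ : ∃ r : ℝ, 0 < r ∧ ∀ v ∈ F, r ≤ ε v := by
    rcases F.eq_empty_or_nonempty with h | h
    · subst h
      exact ⟨1, one_pos, fun v hv => absurd hv (Finset.notMem_empty v)⟩
    · refine ⟨F.inf' h ε, ?_, fun v hv => Finset.inf'_le _ hv⟩
      rw [Finset.lt_inf'_iff]
      exact fun v _ => hε v
  refine ⟨r, hr, fun x hx => hUV ?_⟩
  intro v hv
  refine hεU v hv _ fun i => ?_
  have h3 := hx v.1 v.2
  rw [nm_inl] at h3
  have h4 : delta A x v - delta A (1 : D) v =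
      (1 : (v : HeightOneSpectrum (𝓞 k)).adicCompletion k) ⊗ₜ[k] (x - 1) := by
    rw [delta, delta, TensorProduct.tmul_sub]
  rw [h4]
  have h5 : ‖(Algebra.TensorProduct.basis ((v : HeightOneSpectrum (𝓞 k)).adicCompletion k) B).repr
      ((1 : (v : HeightOneSpectrum (𝓞 k)).adicCompletion k) ⊗ₜ[k] (x - 1)) i‖ ≤
      ∑ j, ‖(Algebra.TensorProduct.basis ((v : HeightOneSpectrum (𝓞 k)).adicCompletion k) B).repr
      ((1 : (v : HeightOneSpectrum (𝓞 k)).adicCompletion k) ⊗ₜ[k] (x - 1)) j‖ :=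
    Finset.single_le_sum (f := fun j =>
      ‖(Algebra.TensorProduct.basis ((v : HeightOneSpectrum (𝓞 k)).adicCompletion k) B).repr
      ((1 : (v : HeightOneSpectrum (𝓞 k)).adicCompletion k) ⊗ₜ[k] (x - 1)) j‖)
      (fun _ _ => norm_nonneg _) (Finset.mem_univ i)
  exact (h5.trans_lt h3).trans_le (hrε v hv)

end near

variable {k K D : Type} [Field k] [NumberField k] [Field K] [NumberField K] [StarRing K]
  [DivisionRing D] [StarRing D] [Algebra k K] [Algebra k D] [Algebra K D] [IsScalarTower k K D]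
  {d : kˣ} {s : K} {Ω : Type} [Field Ω] [Algebra K Ω] {n M : ℕ}

theorem at_inj {A : Set (HeightOneSpectrum (𝓞 k))} {x y : HA D n A}
    (h : ∀ v : A, x.at v = y.at v) : x = y := by
  funext v
  have h1 := h v
  exact Subtype.ext (Units.ext h1)

/-- **An open preimage contains the elements close to one at the places of `A`.** -/
theorem pf_of_preimage (hS : Setting k K D d s)
    (h : ∀ c : k, star (algebraMap k D c) = algebraMap k D c)
    (hdeg : finrank K D = n ^ 2) (f : D →ₐ[K] Matrix (Fin n) (Fin n) Ω) (B : Basis (Fin M) k D)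
    {δ : SUD f →* HA D n (Adiv k K D)} (hδ : IsDiagonal δ) {V : Subgroup (SUD f)}
    {W : Subgroup (HA D n (Adiv k K D))} (hW : IsOpen (W : Set (HA D n (Adiv k K D))))
    (hV : W.comap δ ≤ V) : PF B (GU f) (Im V) (Tdiv k K D) := by
  have := hS.fin
  have := hS.cen
  have hKf : FiniteDimensional k K := Module.finite_of_finrank_pos (by rw [hS.rank]; norm_num)
  have hDf : FiniteDimensional k D := Module.Finite.trans K D
  have hδ' : ∀ g : SUD f, δ g = toHA hS h hdeg (Adiv k K D) (deltaA h hdeg f (Adiv k K D) g) :=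
    fun g => at_inj fun v => hδ g v
  obtain ⟨O, hO, hOW⟩ := @IsOpen.preimage _ _
    (haTop (Adiv k K D) fun v => GAt K h n (v : HeightOneSpectrum (𝓞 k))) _ _
    (continuous_toHA hS h hdeg (Adiv k K D)) _ hW
  have h1 : ∀ g : SUD f, delta (Adiv k K D) ((g : Dˣ) : D) ∈ O ↔ g ∈ W.comap δ := by
    intro g
    have h2 : deltaA h hdeg f (Adiv k K D) g ∈
        toHA hS h hdeg (Adiv k K D) ⁻¹' (W : Set (HA D n (Adiv k K D))) ↔
          deltaA h hdeg f (Adiv k K D) g ∈ (fun (x : ∀ v : Adiv k K D, GAt K h n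
            (v : HeightOneSpectrum (𝓞 k))) (v : Adiv k K D) =>
      (((x v : GAt K h n (v : HeightOneSpectrum (𝓞 k))) :
        ((v : HeightOneSpectrum (𝓞 k)).adicCompletion k ⊗[k] D)ˣ) :
        (v : HeightOneSpectrum (𝓞 k)).adicCompletion k ⊗[k] D)) ⁻¹' O := by
      rw [hOW]
    rw [Subgroup.mem_comap, hδ']
    exact h2.symm
  obtain ⟨ε, hε, h3⟩ := near_of_isOpen B hO (by
    have h4 := (h1 1).mpr (Subgroup.one_mem _)
    exact h4)
  refine ⟨fun _ => ε, fun _ => hε, fun x hx hnear => ?_⟩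
  have hx0 : x ≠ 0 := left_ne_zero_of_mul_eq_one hx.1
  let g : SUD f := ⟨Units.mk0 x hx0, hx⟩
  refine ⟨g, hV ((h1 g).mp (h3 _ fun v hv => hnear _ ?_)), rfl⟩
  exact ⟨v, rfl, hv⟩

/-- `H` is a normal subgroup of `G(k)`, the preimage of an open subgroup of `H_A`, and `Q` is a
normal subgroup of `G(k)` contained in `H`, of prime index in `H`, such that `H / Q` is central in
`G(k) / Q` and `Q` is dense in `H`: every subgroup which contains `Q` and is the preimage of an open
subgroup of `H_A` contains `H`. -/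
structure DenseCentral {f : D →ₐ[K] Matrix (Fin n) (Fin n) Ω} {A : Set (HeightOneSpectrum (𝓞 k))}
    (δ : SUD f →* HA D n A) (Q H : Subgroup (SUD f)) : Prop where
  /-- `Q` is normal -/
  normal : Q.Normal
  /-- `H` is normal -/
  normal' : H.Normal
  /-- `H` is open -/
  isOpen : IsOpenPreimage δ H
  /-- `Q` lies in `H` -/
  le : Q ≤ H
  /-- with prime index -/
  prime : (Q.relIndex H).Prime
  /-- the quotient is central -/
  comm_mem : ∀ g : SUD f, ∀ x ∈ H, ⁅g, x⁆ ∈ Q
  /-- `Q` is dense in `H` -/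
  dense : ∀ V : Subgroup (SUD f), Q ≤ V → IsOpenPreimage δ V → H ≤ V

/-- **The dichotomy for the normal subgroups of finite index.** -/
theorem q1_plus (hS : Setting k K D d s) (hn : 3 ≤ n)
    (h : ∀ c : k, star (algebraMap k D c) = algebraMap k D c)
    (hdeg : finrank K D = n ^ 2) (f : D →ₐ[K] Matrix (Fin n) (Fin n) Ω) (B : Basis (Fin M) k D)
    (hRH : RHAt k f B) :
    ∃ δ : SUD f →* HA D n (Adiv k K D), IsDiagonal δ ∧ DenseRange δ ∧
      ∀ (N : Subgroup (SUD f)) [N.Normal], N.index ≠ 0 → IsOpenPreimage δ N ∨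
        ∃ Q H : Subgroup (SUD f), N ≤ Q ∧ DenseCentral δ Q H := by
  have := hS.fin
  have := hS.cen
  have hKf : FiniteDimensional k K := Module.finite_of_finrank_pos (by rw [hS.rank]; norm_num)
  have hDf : FiniteDimensional k D := Module.Finite.trans K D
  obtain ⟨δ, h1, h2, h3⟩ := q1_std hS B h hdeg f (Adiv k K D)
    (Six.dense_of hS (by omega) hdeg (Tpl.H359.en_all hdeg) f B h)
  have hpf : ∀ H : Subgroup (SUD f), H.index ≠ 0 → PF B (GU f) (Im H) (Tdiv k K D) →
      (H.Normal) → IsOpenPreimage δ H := by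
    intro H hi hH hn'
    exact h3 H hi (isOpen_of_pf hS hn hdeg f B H hi (fun g => Subgroup.pow_index_mem _ g)
      (Vale.Agent.P011.Pow.tdiv_finite (by omega) hdeg) hH)
  refine ⟨δ, h1, h2, fun N _ hi => ?_⟩
  rcases plus_nf hS hn hdeg f B hRH N hi with hN | ⟨Q, H, hQ, hH, hNQ, hQH, hH1, hp, hc, hV⟩
  · exact Or.inl (hpf N hi hN inferInstance)
  · refine Or.inr ⟨Q, H, hNQ, hQ, hH, hpf H (fun h0 => hi ?_) hH1 hH, hQH, hp, hc,
      fun V hQV hVo => ?_⟩
    · have := Subgroup.index_dvd_of_le (hNQ.trans hQH)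
      rw [h0, zero_dvd_iff] at this
      exact this
    · obtain ⟨W, hW, hVW, -⟩ := hVo
      exact (hV V (pf_of_preimage hS h hdeg f B h1 hW hVW.ge)).trans (sup_le hQV le_rfl)

end Vale.Agent.P011.H976
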