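import Vale.Agent.P011.H976.Chief

/-!
From a nonabelian chief factor of `Γ` next to one to one which is invariant under a group of
automorphisms.
-/

open Filter Pointwise commutatorElement

namespace Vale.Agent.P011.H976

variable {Γ : Type*} [Group Γ] {F : Filter Γ}

theorem commutator_le_of_le_sup {H K K' : Subgroup Γ} [K.Normal] (h : H ≤ K' ⊔ K) :
    ⁅H, H⁆ ≤ ⁅K', K'⁆ ⊔ K := by
  have h1 : H.map (QuotientGroup.mk' K) ≤ K'.map (QuotientGroup.mk' K) := by
    rw [Subgroup.map_le_iff_le_comap, Subgroup.comap_map_eq, QuotientGroup.ker_mk']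
    exact h
  have h2 : ⁅H, H⁆.map (QuotientGroup.mk' K) ≤ ⁅K', K'⁆.map (QuotientGroup.mk' K) := by
    rw [Subgroup.map_commutator, Subgroup.map_commutator]
    exact Subgroup.commutator_mono h1 h1
  rwa [Subgroup.map_le_iff_le_comap, Subgroup.comap_map_eq, QuotientGroup.ker_mk'] at h2

theorem Chief.cent_inf {M H : Subgroup Γ} [M.Normal] (h : Chief F M H) : Cent M H ⊓ H = M := by
  have := h.nH
  rcases h.max (Cent M H ⊓ H) inferInstance (le_inf le_Cent h.hull.le) inf_le_right with h1 | h1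
  · exact h1
  · refine absurd ?_ h.nonab
    rw [Subgroup.commutator_le]
    intro x hx y hy
    rw [← h1] at hx
    exact mem_Cent.mp hx.1 y hy

theorem Chief.ne {M H : Subgroup Γ} (h : Chief F M H) : M ≠ H := by
  rintro rfl
  have := h.nM
  exact h.nonab (Subgroup.commutator_le_left _ _)

/-- The action on a nonabelian chief factor next to one is full. -/
theorem Chief.full {M H : Subgroup Γ} [M.Normal] [H.Normal] (h : Chief F M H) :
    IsFull F (QuotientGroup.mk' (Cent M H)) := by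
  intro L hL a ha
  obtain ⟨g, rfl⟩ := QuotientGroup.mk'_surjective (Cent M H) a
  have h1 : H ≤ (Subgroup.centralizer {QuotientGroup.mk' (Cent M H) g}).comap
      (QuotientGroup.mk' (Cent M H)) := by
    refine h.hull.least _ (fun m hm => ?_) (Filter.mem_of_superset hL fun x hx => ?_)
    · rw [Subgroup.mem_comap, Subgroup.mem_centralizer_iff]
      rintro _ rfl
      have h0 : QuotientGroup.mk' (Cent M H) m = 1 := (QuotientGroup.eq_one_iff m).mpr (le_Cent hm)
      rw [h0, mul_one, one_mul]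
    · rw [SetLike.mem_coe, Subgroup.mem_comap, Subgroup.mem_centralizer_iff]
      rintro _ rfl
      exact ha x hx
  have h2 : g ∈ Cent M H := by
    rw [mem_Cent]
    intro x hx
    have h3 := Subgroup.mem_centralizer_iff.mp (Subgroup.mem_comap.mp (h1 hx)) _ rfl
    have h4 : ⁅g, x⁆ ∈ Cent M H := by
      rw [← QuotientGroup.eq_one_iff]
      change QuotientGroup.mk' (Cent M H) ⁅g, x⁆ = 1
      rw [map_commutatorElement, commutatorElement_eq_one_iff_mul_comm]
      exact h3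
    have h5 : ⁅g, x⁆ ∈ H := by
      rw [commutatorElement_def]
      exact H.mul_mem ((inferInstance : H.Normal).conj_mem x hx g) (H.inv_mem hx)
    rw [← h.cent_inf]
    exact ⟨h4, h5⟩
  exact (QuotientGroup.eq_one_iff g).mpr h2

section pair

variable {M H C M₁ H₁ : Subgroup Γ}

/-- The intersection with the centralizer of a chief factor is again of chief type. -/
theorem Chief.pair (h : Chief F M H) (hC : C ⊓ H = M) (hM₁ : M₁ ≤ C)
    (hH₁n : H₁.Normal) (hM₁n : M₁.Normal) (hH₁ : IsHull F M₁ H₁) :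
    (∀ K : Subgroup Γ, K.Normal → H₁ ⊓ C ≤ K → K ≤ H₁ → K = H₁ ⊓ C ∨ K = H₁) ∧
      H₁ ≤ ⁅H₁, H₁⁆ ⊔ (H₁ ⊓ C) := by
  have hMn := h.nM
  have hHn := h.nH
  have hMC : M ≤ C := hC ▸ inf_le_left
  set I := H ⊓ H₁ with hI
  have hIF : (I : Set Γ) ∈ F := by
    rw [hI, Subgroup.coe_inf]; exact Filter.inter_mem h.hull.mem hH₁.mem
  have hHI : H ≤ I ⊔ M :=
    h.hull.least _ le_sup_right (Filter.mem_of_superset hIF (fun x hx => Subgroup.mem_sup_left hx))
  have hH₁I : H₁ ≤ I ⊔ M₁ :=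
    hH₁.least _ le_sup_right (Filter.mem_of_superset hIF (fun x hx => Subgroup.mem_sup_left hx))
  have hM₁' : M₁ ≤ H₁ ⊓ C := le_inf hH₁.le hM₁
  refine ⟨fun K hK h1 h2 => ?_, ?_⟩
  · rcases h.max ((K ⊓ I) ⊔ M) inferInstance le_sup_right
      (sup_le (inf_le_right.trans inf_le_left) h.hull.le) with h3 | h3
    · left
      refine le_antisymm (fun x hx => ⟨h2 hx, ?_⟩) h1
      obtain ⟨i, hi, m, hm, rfl⟩ := Subgroup.mem_sup_of_normal_right.mp (hH₁I (h2 hx))
      have h4 : i ∈ K := by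
        have := K.mul_mem hx (K.inv_mem (h1 (hM₁' hm)))
        rwa [mul_inv_cancel_right] at this
      have h5 : i ∈ M := by
        rw [← h3]
        exact Subgroup.mem_sup_left ⟨h4, hi⟩
      exact C.mul_mem (hMC h5) (hM₁ hm)
    · right
      refine le_antisymm h2 fun x hx => ?_
      obtain ⟨i, hi, m, hm, rfl⟩ := Subgroup.mem_sup_of_normal_right.mp (hH₁I hx)
      refine K.mul_mem ?_ (h1 (hM₁' hm))
      have h4 : i ∈ (K ⊓ I) ⊔ M := by rw [h3]; exact hi.1
      obtain ⟨k, hk, m', hm', h5⟩ := Subgroup.mem_sup_of_normal_right.mp h4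
      have h6 : m' ∈ H₁ ⊓ C := by
        refine ⟨?_, hMC hm'⟩
        have : m' = k⁻¹ * i := by rw [← h5]; group
        rw [this]
        exact H₁.mul_mem (H₁.inv_mem hk.2.2) hi.2
      rw [← h5]
      exact K.mul_mem hk.1 (h1 h6)
  · have h3 : ⁅H, H⁆ ≤ ⁅I, I⁆ ⊔ M := commutator_le_of_le_sup hHI
    have h4 : H ≤ ⁅I, I⁆ ⊔ M := by
      rcases h.max (⁅I, I⁆ ⊔ M) inferInstance le_sup_right
        (sup_le ((Subgroup.commutator_mono inf_le_left inf_le_left).trans
          (Subgroup.commutator_le_left _ _)) h.hull.le) with h5 | h5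
      · rw [h5] at h3
        exact absurd h3 h.nonab
      · exact h5.ge
    intro x hx
    obtain ⟨i, hi, m, hm, rfl⟩ := Subgroup.mem_sup_of_normal_right.mp (hH₁I hx)
    obtain ⟨k, hk, m', hm', h5⟩ := Subgroup.mem_sup_of_normal_right.mp (h4 hi.1)
    have h7 : k ∈ ⁅H₁, H₁⁆ := Subgroup.commutator_mono inf_le_right inf_le_right hk
    have h8 : k ∈ H₁ := Subgroup.commutator_le_left _ _ h7
    have h6 : m' ∈ H₁ ⊓ C := by
      refine ⟨?_, hMC hm'⟩
      have : m' = k⁻¹ * i := by rw [← h5]; group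
      rw [this]
      exact H₁.mul_mem (H₁.inv_mem h8) hi.2
    rw [← h5, mul_assoc]
    exact Subgroup.mul_mem _ (Subgroup.mem_sup_left h7)
      (Subgroup.mem_sup_right (mul_mem h6 (hM₁' hm)))

theorem sup_inf_of_le {K K' T : Subgroup Γ} [K'.Normal] (hT : T ≤ K) (h : K ≤ T ⊔ K') :
    K ≤ T ⊔ (K ⊓ K') := by
  intro x hx
  obtain ⟨t, ht, y, hy, rfl⟩ := Subgroup.mem_sup_of_normal_right.mp (h hx)
  refine Subgroup.mul_mem _ (Subgroup.mem_sup_left ht) (Subgroup.mem_sup_right ⟨?_, hy⟩)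
  have := K.mul_mem (K.inv_mem (hT ht)) hx
  rwa [inv_mul_cancel_left] at this

/-- Subdirect products of nonabelian chief factors are perfect. -/
theorem perfect_of_pair (hH₁n : H₁.Normal) (s : Finset (Subgroup Γ))
    (hs : ∀ C ∈ s, C.Normal ∧
      (∀ K : Subgroup Γ, K.Normal → H₁ ⊓ C ≤ K → K ≤ H₁ → K = H₁ ⊓ C ∨ K = H₁) ∧
      H₁ ≤ ⁅H₁, H₁⁆ ⊔ (H₁ ⊓ C)) :
    (s.inf id).Normal ∧ H₁ ≤ ⁅H₁, H₁⁆ ⊔ (H₁ ⊓ s.inf id) := by
  classical
  induction s using Finset.induction_on with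
  | empty =>
    refine ⟨?_, ?_⟩
    · rw [Finset.inf_empty]; infer_instance
    · rw [Finset.inf_empty, inf_top_eq]; exact le_sup_right
  | insert C s hCs ih =>
    obtain ⟨ih1, ih2⟩ := ih fun C' hC' => hs C' (Finset.mem_insert_of_mem hC')
    obtain ⟨hCn, ha, hb⟩ := hs C (Finset.mem_insert_self _ _)
    rw [Finset.inf_insert, id]
    refine ⟨inferInstance, ?_⟩
    set K := H₁ ⊓ s.inf id with hK
    set K' := H₁ ⊓ C with hK'
    have hKK : H₁ ⊓ (C ⊓ s.inf id) = K ⊓ K' := by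
      rw [hK, hK', inf_inf_distrib_left H₁ C, inf_comm]
    rw [hKK]
    have hKn : K.Normal := inferInstance
    have hK'n : K'.Normal := inferInstance
    rcases ha (K ⊔ K') inferInstance le_sup_right (sup_le inf_le_left inf_le_left) with h1 | h1
    · have h2 : K ≤ K' := h1 ▸ le_sup_left
      rwa [inf_eq_left.mpr h2]
    · have h2 : H₁ ≤ ⁅K, K⁆ ⊔ K' :=
        hb.trans (sup_le (commutator_le_of_le_sup h1.ge) le_sup_right)
      have h3 : H₁ ≤ ⁅K', K'⁆ ⊔ K :=
        ih2.trans (sup_le (commutator_le_of_le_sup (h1.ge.trans_eq (sup_comm _ _))) le_sup_right)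
      have hKH : K ≤ H₁ := inf_le_left
      have hK'H : K' ≤ H₁ := inf_le_left
      have h4 : K ≤ ⁅K, K⁆ ⊔ (K ⊓ K') :=
        sup_inf_of_le (Subgroup.commutator_le_left _ _) (hKH.trans h2)
      have h5 : K' ≤ ⁅K', K'⁆ ⊔ (K' ⊓ K) :=
        sup_inf_of_le (Subgroup.commutator_le_left _ _) (hK'H.trans h3)
      calc H₁ = K ⊔ K' := h1.symm
        _ ≤ (⁅K, K⁆ ⊔ (K ⊓ K')) ⊔ (⁅K', K'⁆ ⊔ (K' ⊓ K)) := sup_le_sup h4 h5
        _ ≤ ⁅H₁, H₁⁆ ⊔ (K ⊓ K') := by
          refine sup_le (sup_le_sup_right (Subgroup.commutator_mono hKH hKH) _)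
            (sup_le ((Subgroup.commutator_mono hK'H hK'H).trans le_sup_left) ?_)
          rw [inf_comm]
          exact le_sup_right

end pair

end Vale.Agent.P011.H976
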